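import Mathlib

/-!
Free effective conductance and the drift `marg`.
-/

namespace Vale.Agent.P143

open Filter Set Real
open scoped Topology

variable {V W : Type*}

/-- Squared difference of `ψ` across an edge. -/
def dd (ψ : V → ℝ) : Sym2 V → ℝ :=
  Sym2.lift ⟨fun s t => (ψ s - ψ t) ^ 2, fun s t => by ring⟩

@[simp] lemma dd_mk (ψ : V → ℝ) (s t : V) : dd ψ s(s, t) = (ψ s - ψ t) ^ 2 := rfl

/-- Dirichlet energy over a finite set of edges. -/
def energy (S : Finset (Sym2 V)) (c : Sym2 V → ℝ) (ψ : V → ℝ) : ℝ :=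
  ∑ f ∈ S, c f * dd ψ f

/-- Admissible potentials for the edge `e`. -/
def cube (e : Sym2 V) : Set (V → ℝ) := {ψ | (∀ v, ψ v ∈ Icc (0 : ℝ) 1) ∧ dd ψ e = 1}

/-- Effective conductance of a finite edge set between the endpoints of `e`. -/
noncomputable def capS (S : Finset (Sym2 V)) (c : Sym2 V → ℝ) (e : Sym2 V) : ℝ :=
  sInf (energy S c '' cube e)

open Classical in
/-- Conductances of the edge set `a` without `e`. -/
noncomputable def wgt (a : Sym2 V → Bool) (y : Sym2 V → ℝ) (e f : Sym2 V) : ℝ :=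
  if a f = true ∧ f ≠ e then exp (y f) else 0

/-- Free effective conductance between the endpoints of `e`, in the graph without `e`. -/
noncomputable def cap (a : Sym2 V → Bool) (y : Sym2 V → ℝ) (e : Sym2 V) : ℝ :=
  ⨆ S : Finset (Sym2 V), capS S (wgt a y e) e

/-- Marginal of the weighted free spanning forest at `e`. -/
noncomputable def marg (a : Sym2 V → Bool) (y : Sym2 V → ℝ) (e : Sym2 V) : ℝ :=
  if a e = true then exp (y e) / (exp (y e) + cap a y e) else 0

/-- The edge set `a` is locally finite and has no loops. -/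
structure Nice (a : Sym2 V → Bool) : Prop where
  loc : ∀ v, {f | a f = true ∧ v ∈ f}.Finite
  loopless : ∀ f, a f = true → ¬ f.IsDiag

lemma dd_nonneg (ψ : V → ℝ) (f : Sym2 V) : 0 ≤ dd ψ f := by
  induction f using Sym2.ind with | h s t => simp; positivity

lemma dd_le_one {ψ : V → ℝ} (h : ∀ v, ψ v ∈ Icc (0 : ℝ) 1) (f : Sym2 V) : dd ψ f ≤ 1 := by
  induction f using Sym2.ind with
  | h s t =>
    have := h s; have := h t
    simp only [dd_mk, mem_Icc] at *
    rw [← sq_abs, sq_le_one_iff₀ (abs_nonneg _), abs_le]; constructor <;> linarith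

lemma continuous_dd (f : Sym2 V) : Continuous fun ψ : V → ℝ => dd ψ f := by
  induction f using Sym2.ind with | h s t => simp only [dd_mk]; fun_prop

lemma continuous_energy (S : Finset (Sym2 V)) (c : Sym2 V → ℝ) :
    Continuous (energy S c) := by
  unfold energy
  exact continuous_finsetSum _ fun f _ => (continuous_dd f).const_smul (c f)

lemma cube_nonempty {e : Sym2 V} (he : ¬ e.IsDiag) : (cube e).Nonempty := by
  classical
  induction e using Sym2.ind with
  | h s t =>
    rw [Sym2.mk_isDiag_iff] at he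
    refine ⟨fun v => if v = s then 1 else 0, fun v => by simp only; split_ifs <;> simp, ?_⟩
    simp [Ne.symm he]

lemma wgt_nonneg (a : Sym2 V → Bool) (y : Sym2 V → ℝ) (e f : Sym2 V) : 0 ≤ wgt a y e f := by
  unfold wgt; split_ifs <;> positivity

lemma energy_nonneg {S : Finset (Sym2 V)} {c : Sym2 V → ℝ} (hc : ∀ f, 0 ≤ c f) (ψ : V → ℝ) :
    0 ≤ energy S c ψ := Finset.sum_nonneg fun f _ => mul_nonneg (hc f) (dd_nonneg ψ f)

lemma capS_bddBelow {S : Finset (Sym2 V)} {c : Sym2 V → ℝ} (hc : ∀ f, 0 ≤ c f) (e : Sym2 V) :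
    BddBelow (energy S c '' cube e) :=
  ⟨0, by rintro _ ⟨ψ, _, rfl⟩; exact energy_nonneg hc ψ⟩

lemma capS_nonneg {S : Finset (Sym2 V)} {c : Sym2 V → ℝ} (hc : ∀ f, 0 ≤ c f) (e : Sym2 V) :
    0 ≤ capS S c e :=
  Real.sInf_nonneg (by rintro _ ⟨ψ, _, rfl⟩; exact energy_nonneg hc ψ)

lemma capS_le {S : Finset (Sym2 V)} {c : Sym2 V → ℝ} (hc : ∀ f, 0 ≤ c f) {e : Sym2 V} {ψ : V → ℝ}
    (hψ : ψ ∈ cube e) : capS S c e ≤ energy S c ψ :=
  csInf_le (capS_bddBelow hc e) ⟨ψ, hψ, rfl⟩

lemma le_capS {S : Finset (Sym2 V)} {c : Sym2 V → ℝ} {e : Sym2 V} (he : ¬ e.IsDiag) {r : ℝ}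
    (h : ∀ ψ ∈ cube e, r ≤ energy S c ψ) : r ≤ capS S c e :=
  le_csInf ((cube_nonempty he).image _) (by rintro _ ⟨ψ, hψ, rfl⟩; exact h ψ hψ)

lemma cap_nonneg (a : Sym2 V → Bool) (y : Sym2 V → ℝ) (e : Sym2 V) : 0 ≤ cap a y e :=
  Real.iSup_nonneg fun _ => capS_nonneg (wgt_nonneg a y e) e

lemma marg_mem (a : Sym2 V → Bool) (y : Sym2 V → ℝ) (e : Sym2 V) :
    marg a y e ∈ Icc (0 : ℝ) 1 := by
  have h1 := exp_pos (y e); have h2 := cap_nonneg a y e
  unfold marg
  split_ifs
  · exact ⟨by positivity, (div_le_one (by linarith)).2 (by linarith)⟩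
  · simp

lemma abs_marg_sub_le_one (a b : Sym2 V → Bool) (x y : Sym2 V → ℝ) (e : Sym2 V) :
    |marg a x e - marg b y e| ≤ 1 := by
  have := marg_mem a x e; have := marg_mem b y e
  simp only [mem_Icc] at *; rw [abs_le]; constructor <;> linarith

lemma cap_bddAbove {a : Sym2 V → Bool} (ha : Nice a) (y : Sym2 V → ℝ) {e : Sym2 V}
    (he : ¬ e.IsDiag) : BddAbove (range fun S => capS S (wgt a y e) e) := by
  classical
  induction e using Sym2.ind with
  | h s t =>
    rw [Sym2.mk_isDiag_iff] at he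
    let ψ : V → ℝ := fun v => if v = s then 1 else 0
    have hψ : ψ ∈ cube s(s, t) := ⟨fun v => by simp only [ψ]; split_ifs <;> simp, by simp [ψ, Ne.symm he]⟩
    refine ⟨∑ f ∈ (ha.loc s).toFinset, exp (y f), ?_⟩
    rintro _ ⟨S, rfl⟩
    refine (capS_le (wgt_nonneg a y _) hψ).trans ?_
    unfold energy
    rw [← Finset.sum_subset (Finset.inter_subset_left (s₂ := (ha.loc s).toFinset)) ?_]
    · refine (Finset.sum_le_sum fun f _ => ?_).trans
        (Finset.sum_le_sum_of_subset_of_nonneg Finset.inter_subset_right fun f _ _ => (exp_pos _).le)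
      calc wgt a y s(s, t) f * dd ψ f ≤ wgt a y s(s, t) f * 1 :=
            mul_le_mul_of_nonneg_left (dd_le_one hψ.1 f) (wgt_nonneg ..)
        _ ≤ exp (y f) := by unfold wgt; split_ifs <;> simp [(exp_pos _).le]
    · intro f hf hf'
      simp only [Finset.mem_inter, Set.Finite.mem_toFinset, mem_ofPred_eq, hf, true_and] at hf'
      by_cases hfa : a f = true
      · induction f using Sym2.ind with
        | h p q =>
          have : p ≠ s ∧ q ≠ s := by
            simp only [hfa, true_and, Sym2.mem_iff, not_or] at hf'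
            exact ⟨Ne.symm hf'.1, Ne.symm hf'.2⟩
          simp [ψ, this.1, this.2]
      · simp [wgt, hfa]

lemma capS_le_cap {a : Sym2 V → Bool} (ha : Nice a) (y : Sym2 V → ℝ) {e : Sym2 V}
    (he : ¬ e.IsDiag) (S : Finset (Sym2 V)) : capS S (wgt a y e) e ≤ cap a y e :=
  le_ciSup (cap_bddAbove ha y he) S

lemma capS_le_mul {S : Finset (Sym2 V)} {c c' : Sym2 V → ℝ} (hc' : ∀ f, 0 ≤ c' f)
    {e : Sym2 V} (he : ¬ e.IsDiag) {ρ : ℝ} (hρ : 0 < ρ) (h : ∀ f, c' f ≤ ρ * c f) :
    capS S c' e ≤ ρ * capS S c e := by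
  rw [← div_le_iff₀' hρ]
  refine le_capS he fun ψ hψ => ?_
  rw [div_le_iff₀' hρ]
  refine (capS_le hc' hψ).trans ?_
  unfold energy
  rw [Finset.mul_sum]
  exact Finset.sum_le_sum fun f _ => by
    rw [← mul_assoc]; exact mul_le_mul_of_nonneg_right (h f) (dd_nonneg ψ f)

lemma wgt_le_mul {a : Sym2 V → Bool} {x y : Sym2 V → ℝ} {e : Sym2 V} {δ : ℝ}
    (h : ∀ f, a f = true → |x f - y f| ≤ δ) (f : Sym2 V) :
    wgt a x e f ≤ exp δ * wgt a y e f := by
  unfold wgt
  split_ifs with hf
  · rw [← exp_add, exp_le_exp]; linarith [(abs_le.1 (h f hf.1)).2]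
  · simp

lemma cap_le_mul {a : Sym2 V → Bool} (ha : Nice a) {x y : Sym2 V → ℝ} {e : Sym2 V}
    (he : ¬ e.IsDiag) {δ : ℝ} (h : ∀ f, a f = true → |x f - y f| ≤ δ) :
    cap a x e ≤ exp δ * cap a y e :=
  ciSup_le fun S => (capS_le_mul (wgt_nonneg _ _ _) he (exp_pos δ) (wgt_le_mul h)).trans
    (mul_le_mul_of_nonneg_left (capS_le_cap ha y he S) (exp_pos δ).le)

lemma marg_sub_le {a : Sym2 V → Bool} (ha : Nice a) {x y : Sym2 V → ℝ} {e : Sym2 V} {δ : ℝ}
    (hδ : 0 ≤ δ) (h : ∀ f, a f = true → |x f - y f| ≤ δ) :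
    marg a x e - marg a y e ≤ 2 * δ := by
  by_cases hae : a e = true
  swap
  · simp [marg, hae]; linarith
  have hC := cap_le_mul ha (ha.loopless e hae) (x := y) (y := x) (δ := δ)
    fun f hf => by rw [abs_sub_comm]; exact h f hf
  have he1 : exp (x e) ≤ exp δ * exp (y e) := by
    rw [← exp_add, exp_le_exp]; linarith [(abs_le.1 (h e hae)).2]
  have hx := exp_pos (x e); have hy := exp_pos (y e)
  have hcx := cap_nonneg a x e; have hcy := cap_nonneg a y e
  have hd := one_le_exp hδ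
  simp only [marg, hae, if_true]
  have hp : exp (x e) / (exp (x e) + cap a x e)
      ≤ exp δ * exp δ * (exp (y e) / (exp (y e) + cap a y e)) := by
    have h1 : exp (x e) * (exp (y e) + cap a y e)
        ≤ exp δ * exp δ * exp (y e) * (exp (x e) + cap a x e) := by
      have h2 : exp (x e) * cap a y e ≤ exp δ * exp (y e) * (exp δ * cap a x e) :=
        mul_le_mul he1 hC hcy (by positivity)
      have h3 : exp (x e) * exp (y e) ≤ exp δ * exp δ * (exp (x e) * exp (y e)) :=
        le_mul_of_one_le_left (by positivity) (by nlinarith)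
      nlinarith
    rw [div_le_iff₀ (by linarith), mul_div_assoc', div_mul_eq_mul_div, le_div_iff₀ (by linarith)]
    exact h1
  set p := exp (x e) / (exp (x e) + cap a x e)
  have hp1 : p ≤ 1 := (div_le_one (by linarith)).2 (by linarith)
  have hp0 : 0 ≤ p := by positivity
  set q := exp (y e) / (exp (y e) + cap a y e)
  have hdd : exp δ * exp δ = exp (2 * δ) := by rw [← exp_add]; ring_nf
  rw [hdd] at hp
  have : exp (-(2 * δ)) * p ≤ q := by
    rw [exp_neg, inv_mul_le_iff₀ (exp_pos _)]; exact hp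
  nlinarith [add_one_le_exp (-(2 * δ))]

lemma abs_marg_sub_le {a : Sym2 V → Bool} (ha : Nice a) {x y : Sym2 V → ℝ} (e : Sym2 V) {δ : ℝ}
    (hδ : 0 ≤ δ) (h : ∀ f, a f = true → |x f - y f| ≤ δ) :
    |marg a x e - marg a y e| ≤ 2 * δ := by
  rw [abs_le]
  refine ⟨?_, marg_sub_le ha hδ h⟩
  linarith [marg_sub_le ha hδ (x := y) (y := x) (e := e) fun f hf => by rw [abs_sub_comm]; exact h f hf]

lemma abs_capS_sub_le (S : Finset (Sym2 V)) {c c' : Sym2 V → ℝ} (hc : ∀ f, 0 ≤ c f)
    (hc' : ∀ f, 0 ≤ c' f) (e : Sym2 V) :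
    |capS S c e - capS S c' e| ≤ ∑ f ∈ S, |c f - c' f| := by
  by_cases he : (cube e).Nonempty
  swap
  · rw [Set.not_nonempty_iff_eq_empty] at he
    simp [capS, he, Finset.sum_nonneg]
  have key : ∀ c c' : Sym2 V → ℝ, (∀ f, 0 ≤ c f) →
      capS S c e - ∑ f ∈ S, |c f - c' f| ≤ capS S c' e := by
    intro c c' hc
    refine le_csInf (he.image _) ?_
    rintro _ ⟨ψ, hψ, rfl⟩
    have h1 := capS_le (S := S) hc hψ
    have h2 : energy S c ψ - energy S c' ψ ≤ ∑ f ∈ S, |c f - c' f| := by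
      rw [energy, energy, ← Finset.sum_sub_distrib]
      refine Finset.sum_le_sum fun f _ => ?_
      rw [← sub_mul]
      calc _ ≤ |c f - c' f| * dd ψ f := mul_le_mul_of_nonneg_right (le_abs_self _) (dd_nonneg ..)
        _ ≤ |c f - c' f| * 1 := mul_le_mul_of_nonneg_left (dd_le_one hψ.1 f) (abs_nonneg _)
        _ = _ := mul_one _
    linarith
  rw [abs_le]
  refine ⟨?_, by linarith [key c c' hc]⟩
  have := key c' c hc'
  have e1 : ∑ f ∈ S, |c' f - c f| = ∑ f ∈ S, |c f - c' f| :=
    Finset.sum_congr rfl fun f _ => abs_sub_comm _ _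
  linarith

lemma exists_minimizer {a : Sym2 V → Bool} (ha : Nice a) (y : Sym2 V → ℝ) {e : Sym2 V}
    (he : ¬ e.IsDiag) :
    ∃ ψ ∈ cube e, ∀ S, energy S (wgt a y e) ψ ≤ cap a y e := by
  classical
  have hK : IsCompact (cube e) := by
    refine (isCompact_univ_pi fun _ : V => isCompact_Icc (a := (0 : ℝ)) (b := 1)).of_isClosed_subset
      ?_ fun ψ hψ v _ => hψ.1 v
    have hc : cube e = (⋂ v, (fun ψ : V → ℝ => ψ v) ⁻¹' Icc 0 1) ∩ {ψ | dd ψ e = 1} := by
      ext ψ; simp [cube, forall_and]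
    rw [hc]
    exact (isClosed_iInter fun v => isClosed_Icc.preimage (continuous_apply v)).inter
      (isClosed_eq (continuous_dd e) continuous_const)
  have := hK.inter_iInter_nonempty
    (fun S : Finset (Sym2 V) => {ψ | energy S (wgt a y e) ψ ≤ cap a y e})
    (fun S => isClosed_le (continuous_energy _ _) continuous_const) fun u => ?_
  · obtain ⟨ψ, h1, h2⟩ := this
    exact ⟨ψ, h1, fun S => mem_iInter.1 h2 S⟩
  obtain ⟨ψ, hψ, hmin⟩ := hK.exists_isMinOn (cube_nonempty he)
    (continuous_energy (u.biUnion id) (wgt a y e)).continuousOn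
  refine ⟨ψ, hψ, mem_iInter₂.2 fun S hS => ?_⟩
  calc energy S (wgt a y e) ψ ≤ energy (u.biUnion id) (wgt a y e) ψ :=
        Finset.sum_le_sum_of_subset_of_nonneg (fun f hf => Finset.mem_biUnion.2 ⟨S, hS, hf⟩)
          fun f _ _ => mul_nonneg (wgt_nonneg ..) (dd_nonneg ..)
    _ ≤ capS (u.biUnion id) (wgt a y e) e := le_capS he fun φ hφ => hmin hφ
    _ ≤ _ := capS_le_cap ha y he _

lemma tendsto_cap {a : Sym2 V → Bool} (ha : Nice a) {an : ℕ → Sym2 V → Bool}
    (han : ∀ n, Nice (an n)) (hle : ∀ n f, an n f = true → a f = true)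
    (hev : ∀ f, ∀ᶠ n in atTop, an n f = a f) {y : Sym2 V → ℝ} {yn : ℕ → Sym2 V → ℝ} {M : ℝ}
    (hM : ∀ n f, an n f = true → |yn n f - y f| ≤ M)
    (hlim : ∀ f, a f = true → Tendsto (fun n => yn n f) atTop (𝓝 (y f))) {e : Sym2 V}
    (he : ¬ e.IsDiag) :
    Tendsto (fun n => cap (an n) (yn n) e) atTop (𝓝 (cap a y e)) := by
  classical
  set c := wgt a y e
  set cn := fun n => wgt (an n) (yn n) e
  have hcn : ∀ f, Tendsto (fun n => cn n f) atTop (𝓝 (c f)) := by
    intro f
    by_cases hf : a f = true ∧ f ≠ e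
    · refine Tendsto.congr' ?_ (by simpa [c, wgt, hf] using (hlim f hf.1).rexp)
      filter_upwards [hev f] with n hn
      simp [cn, wgt, hn, hf]
    · refine tendsto_const_nhds.congr' ?_
      filter_upwards [hev f] with n hn
      simp only [cn, c, wgt, hn, hf, if_false]
  have hcapS : ∀ S, Tendsto (fun n => capS S (cn n) e) atTop (𝓝 (capS S c e)) := by
    intro S
    rw [← tendsto_sub_nhds_zero_iff]
    refine squeeze_zero_norm (fun n => abs_capS_sub_le S (wgt_nonneg _ _ _) (wgt_nonneg _ _ _) e) ?_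
    simpa using tendsto_finsetSum S fun f _ => ((hcn f).sub_const (c f)).abs
  rw [tendsto_order]
  refine ⟨fun r hr => ?_, fun r hr => ?_⟩
  · obtain ⟨S, hS⟩ := exists_lt_of_lt_ciSup hr
    filter_upwards [(hcapS S).eventually_const_lt hS] with n hn
    exact hn.trans_le (capS_le_cap (han n) _ he S)
  · obtain ⟨ψ, hψ, hE⟩ := exists_minimizer ha y he
    have hbdd : BddAbove (range fun S => energy S c ψ) := ⟨_, by rintro _ ⟨S, rfl⟩; exact hE S⟩
    set ε := (r - cap a y e) / 3 with hε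
    have hε0 : 0 < ε := by rw [hε]; linarith
    obtain ⟨S0, hS0⟩ := exists_lt_of_lt_ciSup
      (show (⨆ S, energy S c ψ) - exp (-M) * ε < ⨆ S, energy S c ψ by
        nlinarith [exp_pos (-M)])
    have hlim0 : Tendsto (fun n => energy S0 (cn n) ψ) atTop (𝓝 (energy S0 c ψ)) :=
      tendsto_finsetSum S0 fun f _ => (hcn f).mul_const _
    filter_upwards [hlim0.eventually_lt_const (show energy S0 c ψ < cap a y e + ε by
      linarith [hE S0])] with n hn
    refine (ciSup_le fun S => ?_).trans_lt (show cap a y e + 2 * ε < r by rw [hε]; linarith)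
    refine (capS_le (wgt_nonneg _ _ _) hψ).trans ?_
    have hle' : ∀ f, cn n f ≤ exp M * c f := by
      intro f
      simp only [cn, c, wgt]
      split_ifs with h1 h2 h2
      · rw [← exp_add, exp_le_exp]; linarith [(abs_le.1 (hM n f h1.1)).2]
      · exact absurd ⟨hle n f h1.1, h1.2⟩ h2
      · positivity
      · simp
    have h1 : energy S (cn n) ψ ≤ energy S0 (cn n) ψ + energy (S \ S0) (cn n) ψ := by
      simp only [energy]
      rw [← Finset.sum_union Finset.disjoint_sdiff, Finset.union_sdiff_self_eq_union]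
      exact Finset.sum_le_sum_of_subset_of_nonneg Finset.subset_union_right
        fun f _ _ => mul_nonneg (wgt_nonneg ..) (dd_nonneg ..)
    have h2 : energy (S \ S0) (cn n) ψ ≤ exp M * energy (S \ S0) c ψ := by
      simp only [energy, Finset.mul_sum]
      exact Finset.sum_le_sum fun f _ => by
        rw [← mul_assoc]; exact mul_le_mul_of_nonneg_right (hle' f) (dd_nonneg ..)
    have h3 : energy (S \ S0) c ψ ≤ exp (-M) * ε := by
      have : energy S0 c ψ + energy (S \ S0) c ψ ≤ ⨆ S, energy S c ψ := by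
        refine le_trans (le_of_eq ?_) (le_ciSup hbdd (S0 ∪ S \ S0))
        simp only [energy]; rw [Finset.sum_union Finset.disjoint_sdiff]
      linarith
    have h4 : exp M * energy (S \ S0) c ψ ≤ ε := by
      calc _ ≤ exp M * (exp (-M) * ε) := mul_le_mul_of_nonneg_left h3 (exp_pos _).le
        _ = ε := by rw [← mul_assoc, ← exp_add]; simp
    linarith

lemma tendsto_marg {a : Sym2 V → Bool} (ha : Nice a) {an : ℕ → Sym2 V → Bool}
    (han : ∀ n, Nice (an n)) (hle : ∀ n f, an n f = true → a f = true)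
    (hev : ∀ f, ∀ᶠ n in atTop, an n f = a f) {y : Sym2 V → ℝ} {yn : ℕ → Sym2 V → ℝ} {M : ℝ}
    (hM : ∀ n f, an n f = true → |yn n f - y f| ≤ M)
    (hlim : ∀ f, a f = true → Tendsto (fun n => yn n f) atTop (𝓝 (y f))) (e : Sym2 V) :
    Tendsto (fun n => marg (an n) (yn n) e) atTop (𝓝 (marg a y e)) := by
  by_cases hae : a e = true
  · have hC := tendsto_cap ha han hle hev hM hlim (ha.loopless e hae)
    have := (hlim e hae).rexp.div ((hlim e hae).rexp.add hC)
      (by linarith [exp_pos (y e), cap_nonneg a y e] : exp (y e) + cap a y e ≠ 0)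
    refine Tendsto.congr' ?_ (by simpa [marg, hae] using this)
    filter_upwards [hev e] with n hn
    simp [marg, hn, hae]
  · refine tendsto_const_nhds.congr' ?_
    filter_upwards [hev e] with n hn
    simp [marg, hn, hae]

lemma measurable_capS {Ω : Type*} [MeasurableSpace Ω] (S : Finset (Sym2 V)) (e : Sym2 V)
    {c : Ω → Sym2 V → ℝ} (hc : ∀ f, Measurable fun ω => c ω f) (h0 : ∀ ω f, 0 ≤ c ω f) :
    Measurable fun ω => capS S (c ω) e := by
  classical
  let g : (S → ℝ) → ℝ := fun d => capS S (fun f => if h : f ∈ S then max (d ⟨f, h⟩) 0 else 0) e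
  have hg : LipschitzWith S.card g := by
    refine LipschitzWith.of_dist_le_mul fun d d' => ?_
    rw [Real.dist_eq]
    refine (abs_capS_sub_le S (fun f => by split_ifs <;> simp) (fun f => by split_ifs <;> simp) e).trans ?_
    calc _ ≤ ∑ f ∈ S, dist d d' := Finset.sum_le_sum fun f hf => by
          simp only [hf, dite_true]
          exact (abs_max_sub_max_le_abs _ _ _).trans (dist_le_pi_dist d d' ⟨f, hf⟩)
      _ = _ := by simp
  have : (fun ω => capS S (c ω) e) = g ∘ fun ω (f : S) => c ω f := by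
    funext ω
    simp only [Function.comp, g, capS]
    congr 1
    refine Set.image_congr fun ψ _ => Finset.sum_congr rfl fun f hf => ?_
    simp [hf, max_eq_left (h0 ω f)]
  rw [this]
  exact hg.continuous.measurable.comp (measurable_pi_lambda _ fun f => hc f)

lemma measurable_marg {Ω : Type*} [MeasurableSpace Ω] [Countable V] (e : Sym2 V)
    {a : Ω → Sym2 V → Bool} {y : Ω → Sym2 V → ℝ} (ha : ∀ f, Measurable fun ω => a ω f)
    (hy : ∀ f, Measurable fun ω => y ω f) : Measurable fun ω => marg (a ω) (y ω) e := by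
  classical
  have hw : ∀ f, Measurable fun ω => wgt (a ω) (y ω) e f := by
    intro f
    unfold wgt
    by_cases hf : f = e
    · simp [hf]
    · simp only [hf, ne_eq, not_false_iff, and_true]
      exact Measurable.ite (measurableSet_eq_fun (ha f) measurable_const) (hy f).exp measurable_const
  unfold marg
  refine Measurable.ite (measurableSet_eq_fun (ha e) measurable_const) ?_ measurable_const
  refine (hy e).exp.div ((hy e).exp.add ?_)
  exact Measurable.iSup fun S => measurable_capS S e hw fun ω => wgt_nonneg _ _ e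

lemma marg_map (σ : V ≃ W) (a : Sym2 W → Bool) (y : Sym2 W → ℝ) (e : Sym2 V) :
    marg (fun f => a (f.map σ)) (fun f => y (f.map σ)) e = marg a y (e.map σ) := by
  classical
  let σe : Sym2 V ≃ Sym2 W :=
    { toFun := Sym2.map σ, invFun := Sym2.map σ.symm
      left_inv := fun f => by simp [Sym2.map_map]
      right_inv := fun f => by simp [Sym2.map_map] }
  have hdd : ∀ (ψ : W → ℝ) (f : Sym2 V), dd (ψ ∘ σ) f = dd ψ (f.map σ) := by
    intro ψ f; induction f using Sym2.ind with | h s t => simp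
  have hS : ∀ S : Finset (Sym2 V), capS S (wgt (fun f => a (f.map σ)) (fun f => y (f.map σ)) e) e
      = capS (S.map σe.toEmbedding) (wgt a y (e.map σ)) (e.map σ) := by
    intro S
    have hE : ∀ ψ : W → ℝ, energy S (wgt (fun f => a (f.map σ)) (fun f => y (f.map σ)) e) (ψ ∘ σ)
        = energy (S.map σe.toEmbedding) (wgt a y (e.map σ)) ψ := by
      intro ψ
      simp only [energy, Finset.sum_map]
      refine Finset.sum_congr rfl fun f _ => ?_
      simp [σe, hdd, wgt, (Sym2.map.injective σ.injective).eq_iff]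
    unfold capS
    congr 1
    ext r
    constructor
    · rintro ⟨ψ, hψ, rfl⟩
      have h : ψ = (ψ ∘ σ.symm) ∘ σ := by ext v; simp
      refine ⟨ψ ∘ σ.symm, ⟨fun w => hψ.1 _, ?_⟩, ?_⟩
      · rw [← hdd, ← h]; exact hψ.2
      · rw [← hE, ← h]
    · rintro ⟨ψ, hψ, rfl⟩
      exact ⟨ψ ∘ σ, ⟨fun v => hψ.1 _, by rw [hdd]; exact hψ.2⟩, hE ψ⟩
  have : cap (fun f => a (f.map σ)) (fun f => y (f.map σ)) e = cap a y (e.map σ) := by
    unfold cap
    simp only [hS]
    exact Equiv.iSup_comp (g := fun S => capS S (wgt a y (e.map σ)) (e.map σ))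
      (Equiv.finsetCongr σe)
  simp [marg, this]

end Vale.Agent.P143
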