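import Mathlib

/-!
The Euler scheme for stochastic localisation of a finitely supported law: it reproduces the law of
`T x + √T g` up to an error of order `√h`.
-/

namespace Vale.Agent.P143

open MeasureTheory ProbabilityTheory
open scoped NNReal

variable {ι : Type*} [Fintype ι]

/-- The standard Gaussian measure on `ι → ℝ`. -/
noncomputable def stdGauss (ι : Type*) [Fintype ι] : Measure (ι → ℝ) :=
  Measure.pi fun _ : ι => gaussianReal 0 1

instance : IsProbabilityMeasure (stdGauss ι) :=
  inferInstanceAs (IsProbabilityMeasure (Measure.pi fun _ : ι => gaussianReal 0 1))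

/-- The Euclidean inner product. -/
def dot (u v : ι → ℝ) : ℝ := ∑ i, u i * v i

/-- Gaussian translation weight. -/
noncomputable def gw (a g : ι → ℝ) : ℝ := Real.exp (dot a g - dot a a / 2)

lemma gw_eq_prod (a g : ι → ℝ) : gw a g = ∏ i, Real.exp (a i * g i - a i ^ 2 / 2) := by
  rw [← Real.exp_sum]
  simp [gw, dot, Finset.sum_sub_distrib, Finset.sum_div, sq]

lemma measurable_gw (a : ι → ℝ) : Measurable (gw a) := by unfold gw dot; fun_prop

lemma gauss_density (b : ℝ) (x : ℝ) :
    gaussianPDFReal 0 1 x * Real.exp (b * x - b ^ 2 / 2) = gaussianPDFReal b 1 x := by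
  simp only [gaussianPDFReal_def, NNReal.coe_one, mul_one, sub_zero]
  rw [mul_assoc, ← Real.exp_add]
  congr 2; ring

lemma integrable_gw (a : ι → ℝ) : Integrable (gw a) (stdGauss ι) := by
  have h : ∀ i, Integrable (fun x => Real.exp (a i * x - a i ^ 2 / 2)) (gaussianReal 0 1) := fun i => by
    simp_rw [sub_eq_add_neg, Real.exp_add]
    exact (integrable_exp_mul_gaussianReal (a i)).mul_const _
  have : gw a = fun g => ∏ i, Real.exp (a i * g i - a i ^ 2 / 2) := funext (gw_eq_prod a)
  rw [this]
  exact Integrable.fintype_prod h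

lemma shift_eq_withDensity (a : ι → ℝ) :
    Measure.pi (fun i => gaussianReal (a i) 1) =
      (stdGauss ι).withDensity fun g => ENNReal.ofReal (gw a g) := by
  classical
  refine Measure.pi_eq fun s hs => ?_
  rw [withDensity_apply _ (MeasurableSet.univ_pi hs),
    ← ofReal_integral_eq_lintegral_ofReal (integrable_gw a).restrict
      (ae_of_all _ fun g => (Real.exp_pos _).le),
    ← integral_indicator (MeasurableSet.univ_pi hs)]
  have : ((Set.univ.pi s).indicator fun g => gw a g)
      = fun g => ∏ i, (s i).indicator (fun x => Real.exp (a i * x - a i ^ 2 / 2)) (g i) := by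
    funext g
    by_cases hg : g ∈ Set.univ.pi s
    · rw [Set.indicator_of_mem hg, gw_eq_prod]
      exact Finset.prod_congr rfl fun i _ => (Set.indicator_of_mem (hg i trivial) (fun x =>
        Real.exp (a i * x - a i ^ 2 / 2))).symm
    · rw [Set.indicator_of_notMem hg]
      simp only [Set.mem_pi, Set.mem_univ, true_implies, not_forall] at hg
      obtain ⟨i, hi⟩ := hg
      exact (Finset.prod_eq_zero (Finset.mem_univ i) (Set.indicator_of_notMem hi _)).symm
  rw [this, stdGauss, integral_fintype_prod_eq_prod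
    (fun i => (s i).indicator fun x => Real.exp (a i * x - a i ^ 2 / 2)), ENNReal.ofReal_prod_of_nonneg]
  · refine Finset.prod_congr rfl fun i _ => ?_
    rw [gaussianReal_apply_eq_integral _ one_ne_zero, ← integral_indicator (hs i),
      integral_gaussianReal_eq_integral_smul one_ne_zero]
    congr 1
    refine integral_congr_ae (ae_of_all _ fun x => ?_)
    by_cases hx : x ∈ s i <;> simp [hx, gauss_density]
  · exact fun i _ => integral_nonneg fun x => Set.indicator_nonneg (fun _ _ => (Real.exp_pos _).le) x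

lemma map_add_stdGauss (a : ι → ℝ) :
    (stdGauss ι).map (fun g => g + a) = (stdGauss ι).withDensity fun g => ENNReal.ofReal (gw a g) := by
  rw [← shift_eq_withDensity, stdGauss]
  have h := Measure.pi_map_pi (μ := fun _ : ι => gaussianReal 0 1) (f := fun i x => x + a i)
    fun i => (measurable_id.add_const (a i)).aemeasurable
  simp only [gaussianReal_map_add_const, zero_add] at h
  rw [← h]; rfl

lemma integral_shift (a : ι → ℝ) {F : (ι → ℝ) → ℝ} (hF : Measurable F) :
    ∫ g, F (g + a) ∂stdGauss ι = ∫ g, gw a g * F g ∂stdGauss ι := by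
  rw [← integral_map (φ := fun g => g + a) (Measurable.aemeasurable (by fun_prop))
    hF.aestronglyMeasurable, map_add_stdGauss,
    integral_withDensity_eq_integral_toReal_smul (measurable_gw a).ennreal_ofReal
      (ae_of_all _ fun g => ENNReal.ofReal_lt_top)]
  exact integral_congr_ae (ae_of_all _ fun g => by
    simp only [smul_eq_mul]; rw [ENNReal.toReal_ofReal (r := gw a g) (Real.exp_pos _).le])

lemma integral_gw (a : ι → ℝ) : ∫ g, gw a g ∂stdGauss ι = 1 := by
  simpa using (integral_shift a (F := fun _ => 1) measurable_const).symm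

lemma gw_mul (a b g : ι → ℝ) : gw a g * gw b g = Real.exp (dot a b) * gw (a + b) g := by
  rw [gw, gw, gw, ← Real.exp_add, ← Real.exp_add]
  congr 1
  simp only [dot, Pi.add_apply, add_mul, mul_add, Finset.sum_add_distrib, mul_comm (b _) (a _)]
  ring

/-- The sum of two independent scaled Gaussians is Gaussian. -/
lemma map_add_scaled {r s : ℝ} (hr : 0 ≤ r) (hs : 0 ≤ s) :
    ((stdGauss ι).prod (stdGauss ι)).map (fun p => Real.sqrt r • p.1 + Real.sqrt s • p.2)
      = (stdGauss ι).map fun g => Real.sqrt (r + s) • g := by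
  let f : ℝ × ℝ → ℝ := fun p => Real.sqrt r * p.1 + Real.sqrt s * p.2
  have h1 : ((gaussianReal 0 1).prod (gaussianReal 0 1)).map f
      = (gaussianReal 0 1).map fun x => Real.sqrt (r + s) * x := by
    have hf : f = (fun p : ℝ × ℝ => p.1 + p.2) ∘ Prod.map (Real.sqrt r * ·) (Real.sqrt s * ·) := rfl
    rw [hf, ← Measure.map_map (by fun_prop) (by fun_prop),
      ← Measure.map_prod_map _ _ (by fun_prop) (by fun_prop),
      gaussianReal_map_const_mul, gaussianReal_map_const_mul, gaussianReal_map_const_mul]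
    change (Measure.conv _ _ : Measure ℝ) = _
    rw [gaussianReal_conv_gaussianReal]
    congr 1
    · simp
    · apply NNReal.coe_injective
      push_cast
      simp [Real.sq_sqrt, hr, hs, add_nonneg hr hs]
  have h2 := (measurePreserving_arrowProdEquivProdArrow ℝ ℝ ι (fun _ => gaussianReal 0 1)
    (fun _ => gaussianReal 0 1)).map_eq
  rw [stdGauss, ← h2, Measure.map_map (by fun_prop) (MeasurableEquiv.measurable _)]
  have h3 := Measure.pi_map_pi (μ := fun _ : ι => (gaussianReal 0 1).prod (gaussianReal 0 1))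
    (f := fun _ => f) fun _ => Measurable.aemeasurable (by fun_prop)
  have h4 := Measure.pi_map_pi (μ := fun _ : ι => gaussianReal 0 1)
    (f := fun _ x => Real.sqrt (r + s) * x) fun _ => Measurable.aemeasurable (by fun_prop)
  simp only [h1] at h3
  exact h3.trans h4.symm

/-- A probability vector drift: exponential tilting of the points `x a`. -/
noncomputable def tilt {α : Type*} [Fintype α] (x : α → ι → ℝ) (a : α) (y : ι → ℝ) : ℝ :=
  Real.exp (dot (x a) y) / ∑ b, Real.exp (dot (x b) y)

/-- The barycentre under the tilt. -/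
noncomputable def mean {α : Type*} [Fintype α] (x : α → ι → ℝ) (y : ι → ℝ) : ι → ℝ :=
  fun i => ∑ a, tilt x a y * x a i

/-- One Euler step, acting on functions. -/
noncomputable def eulerOp (m : (ι → ℝ) → ι → ℝ) (h : ℝ) (u : (ι → ℝ) → ℝ) (y : ι → ℝ) : ℝ :=
  ∫ g, u (y + h • m y + Real.sqrt h • g) ∂stdGauss ι

/-- Test functions: bounded by one and Lipschitz for the supremum norm. -/
def IsTest (K : ℝ) (u : (ι → ℝ) → ℝ) : Prop :=
  (∀ y, |u y| ≤ 1) ∧ ∀ y z, |u y - u z| ≤ K * ‖y - z‖

lemma IsTest.continuous {K : ℝ} {u : (ι → ℝ) → ℝ} (h : IsTest K u) : Continuous u :=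
  (LipschitzWith.of_dist_le' (K := K) fun y z => by
    rw [Real.dist_eq, dist_eq_norm]; exact h.2 y z).continuous

lemma integrable_of_bdd {Ω : Type*} [MeasurableSpace Ω] {μ : Measure Ω} [IsFiniteMeasure μ]
    {f : Ω → ℝ} (hf : Measurable f) {C : ℝ} (h : ∀ ω, |f ω| ≤ C) : Integrable f μ :=
  Integrable.mono' (integrable_const C) hf.aestronglyMeasurable (ae_of_all _ fun ω => by simpa using h ω)

variable {m : (ι → ℝ) → ι → ℝ} {L : ℝ}

lemma isTest_eulerOp (hm : ∀ y z, ‖m y - m z‖ ≤ L * ‖y - z‖) {h K : ℝ} (hh : 0 ≤ h)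
    (hK : 0 ≤ K) {u : (ι → ℝ) → ℝ} (hu : IsTest K u) :
    IsTest (K * (1 + h * L)) (eulerOp m h u) := by
  have hc := hu.continuous.measurable
  refine ⟨fun y => ?_, fun y z => ?_⟩
  · have := norm_integral_le_of_norm_le_const (μ := stdGauss ι)
      (f := fun g => u (y + h • m y + Real.sqrt h • g)) (C := 1)
      (ae_of_all _ fun g => by simpa using hu.1 _)
    simpa [eulerOp, ← Real.norm_eq_abs] using this
  · unfold eulerOp
    have hi : ∀ c : ι → ℝ, Integrable (fun g => u (c + Real.sqrt h • g)) (stdGauss ι) := fun c =>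
      integrable_of_bdd (hc.comp (by fun_prop : Measurable fun g : ι → ℝ => c + Real.sqrt h • g)) fun g => hu.1 _
    rw [← integral_sub (hi _) (hi _)]
    have hb : ∀ g : ι → ℝ, ‖u (y + h • m y + Real.sqrt h • g) - u (z + h • m z + Real.sqrt h • g)‖
        ≤ K * (1 + h * L) * ‖y - z‖ := fun g => by
      rw [Real.norm_eq_abs]
      refine (hu.2 _ _).trans ?_
      rw [mul_assoc K]
      refine mul_le_mul_of_nonneg_left ?_ hK
      calc ‖(y + h • m y + Real.sqrt h • g) - (z + h • m z + Real.sqrt h • g)‖
          = ‖(y - z) + h • (m y - m z)‖ := by congr 1; rw [smul_sub]; abel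
        _ ≤ ‖y - z‖ + ‖h • (m y - m z)‖ := norm_add_le _ _
        _ ≤ ‖y - z‖ + h * (L * ‖y - z‖) := by
            rw [norm_smul, Real.norm_eq_abs, abs_of_nonneg hh]; gcongr; exact hm y z
        _ = _ := by ring
    simpa [← Real.norm_eq_abs] using
      norm_integral_le_of_norm_le_const (μ := stdGauss ι) (ae_of_all _ hb)

lemma isTest_eulerOp_iterate (hm : ∀ y z, ‖m y - m z‖ ≤ L * ‖y - z‖) {h K : ℝ} (hh : 0 ≤ h)
    (hL : 0 ≤ L) (hK : 0 ≤ K) {u : (ι → ℝ) → ℝ} (hu : IsTest K u) (j : ℕ) :
    IsTest (K * (1 + h * L) ^ j) ((eulerOp m h)^[j] u) := by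
  induction j with
  | zero => simpa using hu
  | succ j ih =>
    rw [Function.iterate_succ_apply', pow_succ, ← mul_assoc]
    exact isTest_eulerOp hm hh (mul_nonneg hK (by positivity)) ih

variable {α : Type*} [Fintype α] [Nonempty α] (x : α → ι → ℝ)

lemma tilt_nonneg (a : α) (y : ι → ℝ) : 0 ≤ tilt x a y := by unfold tilt; positivity

lemma sum_tilt (y : ι → ℝ) : ∑ a, tilt x a y = 1 := by
  simp only [tilt]
  rw [← Finset.sum_div, div_self]
  exact (Finset.sum_pos (fun _ _ => Real.exp_pos _) Finset.univ_nonempty).ne'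

omit [Nonempty α] in
lemma measurable_tilt (a : α) : Measurable (tilt x a) := by unfold tilt dot; fun_prop

/-- Posterior identity: averaging over the hidden point equals averaging over its tilt. -/
lemma posterior {q : ℝ} (hq : ∀ a, dot (x a) (x a) = q) {s : ℝ} (hs : 0 ≤ s)
    (F : α → (ι → ℝ) → ℝ) (hF : ∀ a, Measurable (F a)) {C : ℝ} (hC : ∀ a y, |F a y| ≤ C) :
    ∑ a, ∫ g, F a (s • x a + Real.sqrt s • g) ∂stdGauss ι
      = ∑ a, ∫ g, (∑ b, tilt x b (s • x a + Real.sqrt s • g) * F b (s • x a + Real.sqrt s • g))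
          ∂stdGauss ι := by
  set r := Real.sqrt s
  have key : ∀ (G : (ι → ℝ) → ℝ), Measurable G → ∀ a,
      ∫ g, G (s • x a + r • g) ∂stdGauss ι
        = ∫ g, Real.exp (dot (x a) (r • g) - s * q / 2) * G (r • g) ∂stdGauss ι := by
    intro G hG a
    have := integral_shift (r • x a) (F := fun g => G (r • g)) (hG.comp (by fun_prop))
    refine Eq.trans (integral_congr_ae (ae_of_all _ fun g => ?_)) (this.trans ?_)
    · simp only [smul_add, smul_smul, r, Real.mul_self_sqrt hs, add_comm]
    · refine integral_congr_ae (ae_of_all _ fun g => ?_)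
      simp only [gw]
      congr 2
      have e1 : dot (r • x a) g = dot (x a) (r • g) :=
        Finset.sum_congr rfl fun i _ => by simp [Pi.smul_apply, smul_eq_mul]; ring
      have e2 : dot (r • x a) (r • x a) = s * q := by
        rw [← hq a, dot, dot, Finset.mul_sum]
        exact Finset.sum_congr rfl fun i _ => by
          simp only [Pi.smul_apply, smul_eq_mul, r]
          linear_combination x a i * x a i * Real.mul_self_sqrt hs
      rw [e1, e2]
  set M : (ι → ℝ) → ℝ := fun y => ∑ b, tilt x b y * F b y with hM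
  have hMm : Measurable M := Finset.measurable_sum _ fun b _ => (measurable_tilt x b).mul (hF b)
  have hMb : ∀ y, |M y| ≤ C := fun y =>
    (Finset.abs_sum_le_sum_abs _ _).trans <| by
      calc ∑ b, |tilt x b y * F b y| ≤ ∑ b, tilt x b y * C := Finset.sum_le_sum fun b _ => by
            rw [abs_mul, abs_of_nonneg (tilt_nonneg x b y)]
            exact mul_le_mul_of_nonneg_left (hC b y) (tilt_nonneg x b y)
        _ = C := by rw [← Finset.sum_mul, sum_tilt, one_mul]
  have hint : ∀ (G : (ι → ℝ) → ℝ), Measurable G → (∀ y, |G y| ≤ C) → ∀ a,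
      Integrable (fun g => Real.exp (dot (x a) (r • g) - s * q / 2) * G (r • g)) (stdGauss ι) := by
    intro G hG hGb a
    refine (((integrable_gw (r • x a)).mul_const C).congr' ?_ ?_).mono' ?_ (ae_of_all _ fun g => ?_)
      (g := fun g => Real.exp (dot (x a) (r • g) - s * q / 2) * C)
    · exact Measurable.aestronglyMeasurable (by unfold dot; fun_prop)
    · refine ae_of_all _ fun g => ?_
      have e1 : dot (r • x a) g = dot (x a) (r • g) :=
        Finset.sum_congr rfl fun i _ => by simp [Pi.smul_apply, smul_eq_mul]; ring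
      have e2 : dot (r • x a) (r • x a) = s * q := by
        rw [← hq a, dot, dot, Finset.mul_sum]
        exact Finset.sum_congr rfl fun i _ => by
          simp only [Pi.smul_apply, smul_eq_mul, r]
          linear_combination x a i * x a i * Real.mul_self_sqrt hs
      simp [gw, e1, e2]
    · exact (Measurable.mul (by unfold dot; fun_prop) (hG.comp (by fun_prop))).aestronglyMeasurable
    · rw [Real.norm_eq_abs, abs_mul, abs_of_pos (Real.exp_pos _)]
      exact mul_le_mul_of_nonneg_left (hGb _) (Real.exp_pos _).le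
  rw [Finset.sum_congr rfl fun a _ => key (F a) (hF a) a,
    Finset.sum_congr rfl fun a _ => key M hMm a,
    ← integral_finsetSum _ fun a _ => hint (F a) (hF a) (hC a) a,
    ← integral_finsetSum _ fun a _ => hint M hMm hMb a]
  refine integral_congr_ae (ae_of_all _ fun g => ?_)
  simp only [M, Real.exp_sub, tilt]
  rw [← Finset.sum_mul, ← Finset.sum_div, Finset.mul_sum]
  refine Finset.sum_congr rfl fun b _ => ?_
  have hpos : (0 : ℝ) < ∑ c, Real.exp (dot (x c) (r • g)) :=
    Finset.sum_pos (fun _ _ => Real.exp_pos _) Finset.univ_nonempty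
  field_simp

/-- The second moment of the standard Gaussian vector. -/
noncomputable def gaussMom (ι : Type*) [Fintype ι] : ℝ := ∫ g, ∑ i, g i ^ 2 ∂stdGauss ι

lemma integrable_sq_sum : Integrable (fun g : ι → ℝ => ∑ i, g i ^ 2) (stdGauss ι) :=
  integrable_finsetSum _ fun i _ =>
    (measurePreserving_eval (fun _ : ι => gaussianReal 0 1) i).integrable_comp_of_integrable
      ((memLp_id_gaussianReal (μ := 0) (v := 1) 2).integrable_sq)

lemma gaussMom_nonneg : 0 ≤ gaussMom ι :=
  integral_nonneg fun g => Finset.sum_nonneg fun i _ => sq_nonneg _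

lemma norm_sq_le_sum_sq (g : ι → ℝ) : ‖g‖ ^ 2 ≤ ∑ i, g i ^ 2 := by
  rw [← Real.sqrt_le_sqrt_iff (Finset.sum_nonneg fun i _ => sq_nonneg _), Real.sqrt_sq (norm_nonneg _),
    pi_norm_le_iff_of_nonneg (Real.sqrt_nonneg _)]
  intro i
  rw [Real.norm_eq_abs, ← Real.sqrt_sq_eq_abs]
  exact Real.sqrt_le_sqrt (Finset.single_le_sum (f := fun i => g i ^ 2) (fun j _ => sq_nonneg _)
    (Finset.mem_univ i))

/-- The one-step error: mixture of Gaussians against the Gaussian at the mean. -/
lemma step_error (hx : ∀ a i, |x a i| ≤ 1) {h K : ℝ} (hh : 0 < h)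
    (hd : h * (4 * Fintype.card ι) ≤ 1) (hK : 0 ≤ K) {u : (ι → ℝ) → ℝ} (hu : IsTest K u)
    (y : ι → ℝ) :
    |(∑ a, tilt x a y * ∫ g, u (y + h • x a + Real.sqrt h • g) ∂stdGauss ι) - eulerOp (mean x) h u y|
      ≤ K * Real.sqrt h * h * ((gaussMom ι + (4 * Fintype.card ι) ^ 2) / 2) := by
  set d : ℝ := 4 * Fintype.card ι
  set p := fun a => tilt x a y with hp
  have hp0 : ∀ a, 0 ≤ p a := fun a => tilt_nonneg x a y
  have hp1 : ∑ a, p a = 1 := sum_tilt x y
  set v := fun a => x a - mean x y with hv
  set r := Real.sqrt h with hr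
  set c := y + h • mean x y with hc
  have hum := hu.continuous.measurable
  set G := fun g => u (c + r • g) with hG
  have hGm : Measurable G := hum.comp (by fun_prop)
  set D := fun g => (∑ a, p a * gw (r • v a) g) - 1 with hD
  have hgwG : ∀ a, Integrable (fun g => gw (r • v a) g * G g) (stdGauss ι) := fun a =>
    (integrable_gw (r • v a)).mono' ((measurable_gw _).mul hGm).aestronglyMeasurable
      (ae_of_all _ fun g => by
        rw [Real.norm_eq_abs, abs_mul, abs_of_pos (show 0 < gw (r • v a) g from Real.exp_pos _)]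
        exact (mul_le_mul_of_nonneg_left (hu.1 _) (Real.exp_pos _).le).trans (le_of_eq (mul_one _)))
  have hDint : Integrable D (stdGauss ι) :=
    (integrable_finsetSum _ fun a _ => (integrable_gw _).const_mul (p a)).sub (integrable_const 1)
  have hD0 : ∫ g, D g ∂stdGauss ι = 0 := by
    simp only [hD]
    rw [integral_sub (integrable_finsetSum _ fun a _ => (integrable_gw _).const_mul (p a)) (integrable_const 1),
      integral_finsetSum _ fun a _ => (integrable_gw _).const_mul (p a)]
    simp only [integral_const_mul, integral_gw, mul_one, hp1, integral_const, probReal_univ,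
      smul_eq_mul, sub_self]
  have hshift : ∀ a, ∫ g, u (y + h • x a + r • g) ∂stdGauss ι
      = ∫ g, gw (r • v a) g * G g ∂stdGauss ι := by
    intro a
    rw [← integral_shift _ hGm]
    refine integral_congr_ae (ae_of_all _ fun g => ?_)
    simp only [hG, hc, hv, smul_add, smul_smul, hr, Real.mul_self_sqrt hh.le, smul_sub]
    congr 1; abel
  have hGi : Integrable G (stdGauss ι) := integrable_of_bdd hGm fun g => hu.1 _
  have hGi' : ∀ a, Integrable (fun g => p a * (gw (r • v a) g * G g)) (stdGauss ι) :=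
    fun a => (hgwG a).const_mul _
  have hDG : Integrable (fun g => D g * G g) (stdGauss ι) := by
    refine ((integrable_finsetSum Finset.univ fun a _ => hGi' a).sub hGi).congr (ae_of_all _ fun g => ?_)
    simp only [hD, Pi.sub_apply, sub_mul, one_mul, Finset.sum_mul]
    simp only [mul_assoc]
  have hdiff : (∑ a, p a * ∫ g, u (y + h • x a + r • g) ∂stdGauss ι) - eulerOp (mean x) h u y
      = ∫ g, D g * (G g - u c) ∂stdGauss ι := by
    simp_rw [hshift, ← integral_const_mul]
    rw [← integral_finsetSum _ fun a _ => hGi' a]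
    change (∫ g, ∑ a, p a * (gw (r • v a) g * G g) ∂stdGauss ι) - ∫ g, G g ∂stdGauss ι = _
    simp_rw [mul_sub]
    rw [integral_sub hDG (hDint.mul_const _), integral_mul_const, hD0, zero_mul, sub_zero,
      ← integral_sub (integrable_finsetSum _ fun a _ => hGi' a) hGi]
    refine integral_congr_ae (ae_of_all _ fun g => ?_)
    simp only [hD, sub_mul, one_mul, Finset.sum_mul]
    simp only [mul_assoc]
  have hgg : ∀ a b, Integrable (fun g => p a * p b * (gw (r • v a) g * gw (r • v b) g)) (stdGauss ι) :=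
    fun a b => (((integrable_gw (r • v a + r • v b)).const_mul
      (Real.exp (dot (r • v a) (r • v b)))).congr (ae_of_all _ fun g => (gw_mul _ _ g).symm)).const_mul _
  have hDsq : ∀ g, D g ^ 2 = (∑ a, ∑ b, p a * p b * (gw (r • v a) g * gw (r • v b) g))
      - 2 * (∑ a, p a * gw (r • v a) g) + 1 := fun g => by
    simp only [hD, sub_sq, mul_one, one_pow]
    congr 2
    rw [sq, Finset.sum_mul_sum]
    exact Finset.sum_congr rfl fun a _ => Finset.sum_congr rfl fun b _ => by ring
  have hi1 : Integrable (fun g => ∑ a, ∑ b, p a * p b * (gw (r • v a) g * gw (r • v b) g)) (stdGauss ι) :=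
    integrable_finsetSum _ fun a _ => integrable_finsetSum _ fun b _ => hgg a b
  have hi2 : Integrable (fun g => 2 * ∑ a, p a * gw (r • v a) g) (stdGauss ι) :=
    (integrable_finsetSum _ fun a _ => (integrable_gw _).const_mul (p a)).const_mul 2
  have hD2i : Integrable (fun g => D g ^ 2) (stdGauss ι) := by
    simp only [hDsq]; exact (hi1.sub hi2).add (integrable_const 1)
  have hD2 : ∫ g, D g ^ 2 ∂stdGauss ι ≤ h ^ 2 * d ^ 2 := by
    have e1 : ∀ a b, dot (r • v a) (r • v b) = h * dot (v a) (v b) := fun a b => by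
      simp only [dot, Finset.mul_sum, Pi.smul_apply, smul_eq_mul, hr]
      exact Finset.sum_congr rfl fun i _ => by
        linear_combination v a i * v b i * Real.mul_self_sqrt hh.le
    have hv2 : ∀ a i, |v a i| ≤ 2 := fun a i => by
      have h1 : |mean x y i| ≤ 1 := (Finset.abs_sum_le_sum_abs _ _).trans <| by
        calc ∑ b, |tilt x b y * x b i| ≤ ∑ b, p b * 1 := Finset.sum_le_sum fun b _ => by
              rw [abs_mul, abs_of_nonneg (hp0 b)]
              exact mul_le_mul_of_nonneg_left (hx b i) (hp0 b)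
          _ = 1 := by simp [hp1]
      calc |v a i| = |x a i - mean x y i| := rfl
        _ ≤ |x a i| + |mean x y i| := abs_sub _ _
        _ ≤ 2 := by linarith [hx a i]
    have hr4 : ∀ a b, |dot (v a) (v b)| ≤ d := fun a b =>
      (Finset.abs_sum_le_sum_abs _ _).trans <| by
        calc ∑ i, |v a i * v b i| ≤ ∑ _i : ι, (2 * 2 : ℝ) := Finset.sum_le_sum fun i _ => by
              rw [abs_mul]; exact mul_le_mul (hv2 a i) (hv2 b i) (abs_nonneg _) zero_le_two
          _ = d := by simp [d]; ring
    have hexp : ∀ a b, Real.exp (h * dot (v a) (v b)) ≤ 1 + h * dot (v a) (v b) + h ^ 2 * d ^ 2 := by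
      intro a b
      have hb : |h * dot (v a) (v b)| ≤ h * d := by
        rw [abs_mul, abs_of_pos hh]; exact mul_le_mul_of_nonneg_left (hr4 a b) hh.le
      have := (abs_le.1 (Real.abs_exp_sub_one_sub_id_le (hb.trans hd))).2
      have h2 := pow_le_pow_left₀ (abs_nonneg _) hb 2
      rw [sq_abs, mul_pow] at h2
      nlinarith
    have hzero : ∑ a, ∑ b, p a * p b * dot (v a) (v b) = 0 := by
      have hz : ∀ i, ∑ a, p a * v a i = 0 := fun i => by
        simp only [hv, Pi.sub_apply, mul_sub, Finset.sum_sub_distrib, ← Finset.sum_mul, hp1, one_mul]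
        simp [mean, hp]
      simp only [dot, Finset.mul_sum]
      simp_rw [Finset.sum_comm (s := (Finset.univ : Finset α)) (t := (Finset.univ : Finset ι))]
      refine Finset.sum_eq_zero fun i _ => ?_
      have : ∀ a b, p a * p b * (v a i * v b i) = (p a * v a i) * (p b * v b i) := fun a b => by ring
      simp_rw [this, ← Finset.mul_sum, hz, mul_zero]
      exact Finset.sum_const_zero
    have : ∫ g, D g ^ 2 ∂stdGauss ι
        = (∑ a, ∑ b, p a * p b * Real.exp (h * dot (v a) (v b))) - 1 := by
      simp only [hDsq]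
      rw [integral_add (f := fun g => (∑ a, ∑ b, p a * p b * (gw (r • v a) g * gw (r • v b) g))
          - 2 * ∑ a, p a * gw (r • v a) g) (g := fun _ => (1 : ℝ)) (hi1.sub hi2) (integrable_const 1),
        integral_sub hi1 hi2,
        integral_finsetSum _ fun a _ => integrable_finsetSum _ fun b _ => hgg a b, integral_const_mul,
        integral_finsetSum _ fun a _ => (integrable_gw _).const_mul (p a)]
      simp only [integral_const_mul, integral_gw, mul_one, hp1, integral_const, probReal_univ,
        smul_eq_mul]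
      have e3 : ∀ a, ∫ g, ∑ b, p a * p b * (gw (r • v a) g * gw (r • v b) g) ∂stdGauss ι
          = ∑ b, p a * p b * Real.exp (h * dot (v a) (v b)) := fun a => by
        rw [integral_finsetSum _ fun b _ => hgg a b]
        refine Finset.sum_congr rfl fun b _ => ?_
        rw [integral_const_mul]
        simp_rw [gw_mul, integral_const_mul, integral_gw, mul_one, e1]
      simp only [e3]; ring
    rw [this]
    have hle : ∑ a, ∑ b, p a * p b * Real.exp (h * dot (v a) (v b))
        ≤ ∑ a, ∑ b, (p a * p b + h * (p a * p b * dot (v a) (v b)) + h ^ 2 * d ^ 2 * (p a * p b)) :=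
      Finset.sum_le_sum fun a _ => Finset.sum_le_sum fun b _ => by
        have := mul_le_mul_of_nonneg_left (hexp a b) (mul_nonneg (hp0 a) (hp0 b))
        linarith
    simp only [Finset.sum_add_distrib, ← Finset.mul_sum, hzero, hp1, mul_zero, add_zero, mul_one] at hle
    linarith
  rw [hdiff, ← Real.norm_eq_abs]
  refine le_trans (norm_integral_le_of_norm_le
    (g := fun g => K * r / 2 * (h * (∑ i, g i ^ 2) + D g ^ 2 / h))
    (((integrable_sq_sum.const_mul h).add (hD2i.div_const h)).const_mul _)
    (ae_of_all _ fun g => ?_)) ?_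
  · rw [Real.norm_eq_abs, abs_mul]
    have h1 : |G g - u c| ≤ K * r * ‖g‖ := by
      refine (hu.2 _ _).trans (le_of_eq ?_)
      rw [add_sub_cancel_left, norm_smul, Real.norm_eq_abs, abs_of_nonneg (Real.sqrt_nonneg h)]
      ring
    refine (mul_le_mul_of_nonneg_left h1 (abs_nonneg _)).trans ?_
    have h2 : |D g| * ‖g‖ ≤ (h * (∑ i, g i ^ 2) + D g ^ 2 / h) / 2 := by
      rw [le_div_iff₀ two_pos]
      refine le_trans ?_ (add_le_add (mul_le_mul_of_nonneg_left (norm_sq_le_sum_sq g) hh.le) le_rfl)
      rw [← sq_abs (D g), ← sub_nonneg]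
      have : h * ‖g‖ ^ 2 + |D g| ^ 2 / h - |D g| * ‖g‖ * 2 = (h * ‖g‖ - |D g|) ^ 2 / h := by
        field_simp; ring
      rw [this]; positivity
    calc |D g| * (K * r * ‖g‖) = K * r * (|D g| * ‖g‖) := by ring
      _ ≤ K * r * ((h * (∑ i, g i ^ 2) + D g ^ 2 / h) / 2) := by
          exact mul_le_mul_of_nonneg_left h2 (mul_nonneg hK (Real.sqrt_nonneg h))
      _ = _ := by ring
  · rw [integral_const_mul, integral_add (integrable_sq_sum.const_mul h) (hD2i.div_const h),
      integral_const_mul, integral_div]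
    have h3 : (∫ g, D g ^ 2 ∂stdGauss ι) / h ≤ h * d ^ 2 := by
      rw [div_le_iff₀ hh]; calc _ ≤ h ^ 2 * d ^ 2 := hD2
        _ = _ := by ring
    calc K * r / 2 * (h * gaussMom ι + (∫ g, D g ^ 2 ∂stdGauss ι) / h)
        ≤ K * r / 2 * (h * gaussMom ι + h * d ^ 2) :=
          mul_le_mul_of_nonneg_left (by linarith) (div_nonneg (mul_nonneg hK (Real.sqrt_nonneg h)) zero_le_two)
      _ = _ := by ring

/-- Euler iterates approximate the law of `T x + √T g`, averaged over the hidden point. -/
lemma euler_error {q L : ℝ} (hq : ∀ a, dot (x a) (x a) = q) (hx : ∀ a i, |x a i| ≤ 1) (hL : 0 ≤ L)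
    (hm : ∀ y z, ‖mean x y - mean x z‖ ≤ L * ‖y - z‖) {h K : ℝ} (hh : 0 < h)
    (hd : h * (4 * Fintype.card ι) ≤ 1) (hK : 0 ≤ K) {φ : (ι → ℝ) → ℝ} (hφ : IsTest K φ) (N : ℕ) :
    |(eulerOp (mean x) h)^[N] φ 0
        - (∑ a, ∫ g, φ ((N * h) • x a + Real.sqrt (N * h) • g) ∂stdGauss ι) / Fintype.card α|
      ≤ N * (K * Real.exp (N * h * L) * Real.sqrt h * h
          * ((gaussMom ι + (4 * Fintype.card ι) ^ 2) / 2)) := by
  set B := K * Real.exp (N * h * L) * Real.sqrt h * h * ((gaussMom ι + (4 * Fintype.card ι) ^ 2) / 2)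
  let A : ℕ → ℝ := fun j => (∑ a, ∫ g, (eulerOp (mean x) h)^[N - j] φ
    (((j : ℝ) * h) • x a + Real.sqrt (j * h) • g) ∂stdGauss ι) / Fintype.card α
  have hcard : (0 : ℝ) < Fintype.card α := by exact_mod_cast Fintype.card_pos
  have hA0 : A 0 = (eulerOp (mean x) h)^[N] φ 0 := by
    simp [A, hcard.ne']
  have hAN : A N = (∑ a, ∫ g, φ ((N * h) • x a + Real.sqrt (N * h) • g) ∂stdGauss ι)
      / Fintype.card α := by simp [A]
  have hstep : ∀ j, j < N → |A j - A (j + 1)| ≤ B := by
    intro j hj
    set u := (eulerOp (mean x) h)^[N - (j + 1)] φ with hu_def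
    have hu := isTest_eulerOp_iterate hm hh.le hL hK hφ (N - (j + 1))
    rw [← hu_def] at hu
    set K' := K * (1 + h * L) ^ (N - (j + 1))
    have hK' : 0 ≤ K' := mul_nonneg hK (by positivity)
    have hK'le : K' ≤ K * Real.exp (N * h * L) := by
      refine mul_le_mul_of_nonneg_left ?_ hK
      calc (1 + h * L) ^ (N - (j + 1)) ≤ (1 + h * L) ^ N :=
            pow_le_pow_right₀ (by nlinarith) (Nat.sub_le _ _)
        _ ≤ Real.exp (h * L) ^ N := pow_le_pow_left₀ (by positivity)
            (by linarith [Real.add_one_le_exp (h * L)]) N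
        _ = _ := by rw [← Real.exp_nat_mul, mul_assoc]
    have hum := hu.continuous.measurable
    set s : ℝ := j * h with hs
    have hs0 : 0 ≤ s := by positivity
    let F : α → (ι → ℝ) → ℝ := fun a y => ∫ g, u (y + h • x a + Real.sqrt h • g) ∂stdGauss ι
    have hFm : ∀ a, Measurable (F a) := fun a =>
      (StronglyMeasurable.integral_prod_right (f := fun y g => u (y + h • x a + Real.sqrt h • g))
        (hum.comp (by fun_prop)).stronglyMeasurable).measurable
    have hFb : ∀ a y, |F a y| ≤ 1 := fun a y => by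
      simpa [F, ← Real.norm_eq_abs] using norm_integral_le_of_norm_le_const (μ := stdGauss ι)
        (f := fun g => u (y + h • x a + Real.sqrt h • g)) (C := 1) (ae_of_all _ fun g => by simpa using hu.1 _)
    have hnext : ∀ a, ∫ g, u (((j + 1 : ℕ) * h : ℝ) • x a + Real.sqrt ((j + 1 : ℕ) * h) • g) ∂stdGauss ι
        = ∫ g, F a (s • x a + Real.sqrt s • g) ∂stdGauss ι := by
      intro a
      have hs1 : ((j + 1 : ℕ) * h : ℝ) = s + h := by push_cast; ring
      rw [hs1, ← integral_map (φ := fun g => Real.sqrt (s + h) • g)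
        (f := fun w => u ((s + h) • x a + w)) (Measurable.aemeasurable (by fun_prop))
        (hum.comp (by fun_prop)).aestronglyMeasurable, ← map_add_scaled hs0 hh.le,
        integral_map (f := fun w => u ((s + h) • x a + w)) (Measurable.aemeasurable
            (by fun_prop : Measurable fun p : (ι → ℝ) × (ι → ℝ) => Real.sqrt s • p.1 + Real.sqrt h • p.2))
          (hum.comp (by fun_prop : Measurable fun w : ι → ℝ => (s + h) • x a + w)).aestronglyMeasurable,
        integral_prod (fun p : (ι → ℝ) × (ι → ℝ) => u ((s + h) • x a + (Real.sqrt s • p.1 + Real.sqrt h • p.2)))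
          (integrable_of_bdd (hum.comp (by fun_prop :
          Measurable fun p : (ι → ℝ) × (ι → ℝ) => (s + h) • x a + (Real.sqrt s • p.1 + Real.sqrt h • p.2)))
          fun p => hu.1 _)]
      refine integral_congr_ae (ae_of_all _ fun g => integral_congr_ae (ae_of_all _ fun g' => ?_))
      simp only [add_smul]; congr 1; abel
    have hj' : N - j = N - (j + 1) + 1 := by omega
    have e1 : A (j + 1) = (∑ a, ∫ g, (∑ b, tilt x b (s • x a + Real.sqrt s • g)
        * F b (s • x a + Real.sqrt s • g)) ∂stdGauss ι) / Fintype.card α := by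
      rw [← posterior x hq hs0 F hFm hFb]
      simp only [A, ← hu_def, hnext]
    have e2 : A j = (∑ a, ∫ g, eulerOp (mean x) h u (s • x a + Real.sqrt s • g) ∂stdGauss ι)
        / Fintype.card α := by
      simp only [A, hj', Function.iterate_succ_apply', ← hu_def, s]
    rw [e1, e2, ← sub_div, ← Finset.sum_sub_distrib, abs_div, abs_of_pos hcard, div_le_iff₀ hcard]
    refine (Finset.abs_sum_le_sum_abs _ _).trans ((Finset.sum_le_sum (g := fun _ => B) fun a _ => ?_).trans
      (le_of_eq (by simp [mul_comm])))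
    have hMm : Measurable fun y => ∑ b, tilt x b y * F b y :=
      Finset.measurable_sum _ fun b _ => (measurable_tilt x b).mul (hFm b)
    have hEm : Measurable (eulerOp (mean x) h u) :=
      (isTest_eulerOp hm hh.le hK' hu).continuous.measurable
    have hMb : ∀ y, |∑ b, tilt x b y * F b y| ≤ 1 := fun y =>
      (Finset.abs_sum_le_sum_abs _ _).trans <| by
        calc ∑ b, |tilt x b y * F b y| ≤ ∑ b, tilt x b y * 1 := Finset.sum_le_sum fun b _ => by
              rw [abs_mul, abs_of_nonneg (tilt_nonneg x b y)]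
              exact mul_le_mul_of_nonneg_left (hFb b y) (tilt_nonneg x b y)
          _ = 1 := by simp [sum_tilt]
    have hline : Measurable fun g : ι → ℝ => s • x a + Real.sqrt s • g := by fun_prop
    have hI1 : Integrable (fun g => eulerOp (mean x) h u (s • x a + Real.sqrt s • g)) (stdGauss ι) :=
      integrable_of_bdd (hEm.comp hline) fun g => (isTest_eulerOp hm hh.le hK' hu).1 _
    have hI2 : Integrable (fun g => ∑ b, tilt x b (s • x a + Real.sqrt s • g)
        * F b (s • x a + Real.sqrt s • g)) (stdGauss ι) :=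
      integrable_of_bdd (hMm.comp hline) fun g => hMb _
    rw [← integral_sub hI1 hI2, ← Real.norm_eq_abs]
    have hbd := norm_integral_le_of_norm_le_const (μ := stdGauss ι) (C := B)
      (f := fun g => eulerOp (mean x) h u (s • x a + Real.sqrt s • g)
        - ∑ b, tilt x b (s • x a + Real.sqrt s • g) * F b (s • x a + Real.sqrt s • g))
      (ae_of_all _ fun g => by
        rw [Real.norm_eq_abs, abs_sub_comm]
        refine (step_error x hx hh hd hK' hu _).trans ?_
        have := gaussMom_nonneg (ι := ι)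
        simp only [B]; gcongr)
    simpa using hbd
  have := Finset.abs_sum_le_sum_abs (fun j => A j - A (j + 1)) (Finset.range N)
  rw [Finset.sum_range_sub'] at this
  rw [← hA0, ← hAN]
  refine this.trans ((Finset.sum_le_sum fun j hj => hstep j (Finset.mem_range.1 hj)).trans (le_of_eq ?_))
  simp

/-- The Euler sequence driven by the increments `ξ`. -/
def eulerSeq (m : (ι → ℝ) → ι → ℝ) (h : ℝ) : (ι → ℝ) → (ℕ → ι → ℝ) → ℕ → ι → ℝ
  | y, _, 0 => y
  | y, ξ, k + 1 => eulerSeq m h (y + h • m y + ξ 0) (fun i => ξ (i + 1)) k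

omit [Fintype ι] in
lemma eulerSeq_succ (m : (ι → ℝ) → ι → ℝ) (h : ℝ) (k : ℕ) : ∀ (y : ι → ℝ) (ξ : ℕ → ι → ℝ),
    eulerSeq m h y ξ (k + 1) = eulerSeq m h y ξ k + h • m (eulerSeq m h y ξ k) + ξ k := by
  induction k with
  | zero => intro y ξ; rfl
  | succ k ih =>
    intro y ξ
    have := ih (y + h • m y + ξ 0) fun i => ξ (i + 1)
    exact this

/-- Extend finitely many increments by zero. -/
def extendInc {N : ℕ} (ξ : Fin N → ι → ℝ) : ℕ → ι → ℝ := fun i => if h : i < N then ξ ⟨i, h⟩ else 0

omit [Fintype ι] in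
lemma extendInc_succ {N : ℕ} (ξ : Fin (N + 1) → ι → ℝ) :
    (fun i => extendInc ξ (i + 1)) = extendInc fun i : Fin N => ξ i.succ := by
  funext i
  by_cases h : i < N <;> simp [extendInc, h]

omit [Fintype ι] in
lemma eulerSeq_congr (m : (ι → ℝ) → ι → ℝ) (h : ℝ) (k : ℕ) : ∀ (y : ι → ℝ) (ξ ξ' : ℕ → ι → ℝ),
    (∀ i < k, ξ i = ξ' i) → eulerSeq m h y ξ k = eulerSeq m h y ξ' k := by
  induction k with
  | zero => intros; rfl
  | succ k ih =>
    intro y ξ ξ' he
    rw [eulerSeq, eulerSeq, he 0 (Nat.succ_pos k)]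
    exact ih _ _ _ fun i hi => he (i + 1) (Nat.succ_lt_succ hi)

omit [Fintype ι] in
lemma continuous_eulerSeq {m : (ι → ℝ) → ι → ℝ} (hm : Continuous m) (h : ℝ) (k : ℕ) :
    ∀ {Ω : Type _} [TopologicalSpace Ω] {y : Ω → ι → ℝ} {ξ : Ω → ℕ → ι → ℝ},
      Continuous y → (∀ i, Continuous fun ω => ξ ω i) →
        Continuous fun ω => eulerSeq m h (y ω) (ξ ω) k := by
  induction k with
  | zero => intro Ω _ y ξ hy _; exact hy
  | succ k ih =>
    intro Ω _ y ξ hy hξ
    exact ih ((hy.add ((hm.comp hy).const_smul h)).add (hξ 0)) fun i => hξ (i + 1)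

/-- Integrating over the increments computes the iterated operator. -/
lemma integral_eulerSeq {m : (ι → ℝ) → ι → ℝ} (hm : Continuous m) (h : ℝ)
    {u : (ι → ℝ) → ℝ} (hu : Continuous u) (hub : ∀ y, |u y| ≤ 1) : ∀ (N : ℕ) (y : ι → ℝ),
    (eulerOp m h)^[N] u y = ∫ g, u (eulerSeq m h y (extendInc fun i => Real.sqrt h • g i) N)
      ∂(Measure.pi fun _ : Fin N => stdGauss ι) := by
  intro N
  induction N with
  | zero => intro y; simp [eulerSeq]
  | succ N ih =>
    intro y
    have e := (measurePreserving_piFinSuccAbove (fun _ : Fin (N + 1) => stdGauss ι) 0).symm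
    rw [Function.iterate_succ_apply', eulerOp, ← e.integral_comp', integral_prod]
    · refine integral_congr_ae (ae_of_all _ fun g0 => ?_)
      simp only
      rw [ih]
      refine integral_congr_ae (ae_of_all _ fun g => ?_)
      simp [eulerSeq, extendInc_succ, MeasurableEquiv.piFinSuccAbove, Fin.insertNthEquiv]
      simp [extendInc]
    · refine integrable_of_bdd ?_ fun p => hub _
      refine (hu.comp (continuous_eulerSeq hm h (N + 1) continuous_const fun i => ?_)).measurable
      simp only [extendInc]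
      split_ifs with hi
      · simp only [MeasurableEquiv.piFinSuccAbove, Fin.insertNthEquiv, MeasurableEquiv.symm_mk,
          MeasurableEquiv.coe_mk, Equiv.symm_symm, Equiv.coe_fn_mk]
        fun_prop
      · exact continuous_const

end Vale.Agent.P143
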