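import Mathlib

/-!
Brownian-type noise built from i.i.d. Gaussian atoms.
-/

namespace Vale.Agent.P143

open MeasureTheory ProbabilityTheory Filter Set
open scoped NNReal ENNReal Topology

/-- The i.i.d. Gaussian measure with variance `v`. -/
noncomputable def iidG (ι : Type*) (v : ℝ≥0) : Measure (ι → ℝ) :=
  Measure.infinitePi fun _ : ι => gaussianReal 0 v

instance (ι : Type*) (v : ℝ≥0) : IsProbabilityMeasure (iidG ι v) :=
  inferInstanceAs (IsProbabilityMeasure (Measure.infinitePi fun _ : ι => gaussianReal 0 v))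

section generic

variable {ι κ X : Type*} [MeasurableSpace X] {μ : Measure X} [IsProbabilityMeasure μ]

lemma measurePreserving_comp_injective {j : κ → ι} (hj : Function.Injective j) :
    MeasurePreserving (fun x : ι → X => x ∘ j) (Measure.infinitePi fun _ : ι => μ)
      (Measure.infinitePi fun _ : κ => μ) where
  measurable := measurable_pi_lambda _ fun k => measurable_pi_apply (j k)
  map_eq := by
    classical
    refine Measure.eq_infinitePi _ fun s t ht => ?_
    have hm : Measurable fun x : ι → X => x ∘ j :=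
      measurable_pi_lambda _ fun k => measurable_pi_apply (j k)
    rw [Measure.map_apply hm (.pi s.countable_toSet fun _ _ => ht _)]
    let t' : ι → Set X := fun i => if h : ∃ k, j k = i then t h.choose else univ
    have ht' : ∀ k, t' (j k) = t k := fun k => by
      have h : ∃ k', j k' = j k := ⟨k, rfl⟩
      simp only [t', dif_pos h, hj h.choose_spec]
    have : (fun x : ι → X => x ∘ j) ⁻¹' ((s : Set κ).pi t) = ((s.image j : Finset ι) : Set ι).pi t' := by
      ext x; simp [ht']
    rw [this, Measure.infinitePi_pi _ (fun i hi => ?_)]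
    · rw [Finset.prod_image hj.injOn]; simp [ht']
    · obtain ⟨k, _, rfl⟩ := Finset.mem_image.1 hi; rw [ht']; exact ht k

lemma map_sumElim :
    ((Measure.infinitePi fun _ : ι => μ).prod (Measure.infinitePi fun _ : κ => μ)).map
        (fun p => Sum.elim p.1 p.2) = Measure.infinitePi fun _ : ι ⊕ κ => μ := by
  classical
  have hm : Measurable fun p : (ι → X) × (κ → X) => (Sum.elim p.1 p.2 : ι ⊕ κ → X) :=
    measurable_pi_lambda _ fun i => by cases i <;> simp <;> fun_prop
  refine Measure.eq_infinitePi _ fun s t ht => ?_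
  rw [Measure.map_apply hm (.pi s.countable_toSet fun _ _ => ht _)]
  have : (fun p : (ι → X) × (κ → X) => (Sum.elim p.1 p.2 : ι ⊕ κ → X)) ⁻¹' ((s : Set (ι ⊕ κ)).pi t)
      = ((s.toLeft : Set ι).pi fun i => t (.inl i)) ×ˢ ((s.toRight : Set κ).pi fun i => t (.inr i)) := by
    ext ⟨p, q⟩; simp [Set.mem_pi]
  rw [this, Measure.prod_prod, Measure.infinitePi_pi _ (fun i _ => ht _),
    Measure.infinitePi_pi _ (fun i _ => ht _)]
  conv_rhs => rw [← Finset.toLeft_disjSum_toRight (u := s), Finset.prod_disjSum]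

/-- Disjoint coordinates are independent. -/
lemma map_split {ι' : Type*} (f : ι → ι') (g : κ → ι') (h : Function.Injective (Sum.elim f g)) :
    (Measure.infinitePi fun _ : ι' => μ).map (fun x => (x ∘ f, x ∘ g))
      = (Measure.infinitePi fun _ : ι => μ).prod (Measure.infinitePi fun _ : κ => μ) := by
  have hm : Measurable fun p : (ι → X) × (κ → X) => (Sum.elim p.1 p.2 : ι ⊕ κ → X) :=
    measurable_pi_lambda _ fun i => by cases i <;> simp <;> fun_prop
  have hu : Measurable fun z : ι ⊕ κ → X => (z ∘ Sum.inl, z ∘ Sum.inr) :=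
    (measurable_pi_lambda _ fun i => measurable_pi_apply _).prodMk
      (measurable_pi_lambda _ fun i => measurable_pi_apply _)
  have h2 := (measurePreserving_comp_injective (μ := μ) h).map_eq
  rw [← map_sumElim] at h2
  have h3 := congrArg (Measure.map fun z : ι ⊕ κ → X => (z ∘ Sum.inl, z ∘ Sum.inr)) h2
  rw [Measure.map_map hu (measurable_pi_lambda _ fun i => measurable_pi_apply _),
    Measure.map_map hu hm] at h3
  have e : ((fun z : ι ⊕ κ → X => (z ∘ Sum.inl, z ∘ Sum.inr))
      ∘ fun p : (ι → X) × (κ → X) => (Sum.elim p.1 p.2 : ι ⊕ κ → X)) = id := rfl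
  rw [e, Measure.map_id] at h3
  exact h3

end generic

/-- Rotated pair. -/
noncomputable def rot (p : ℝ × ℝ) : ℝ × ℝ :=
  ((p.1 + p.2) / Real.sqrt 2, (p.1 - p.2) / Real.sqrt 2)

lemma map_rot :
    ((gaussianReal 0 1).prod (gaussianReal 0 1)).map rot
      = (gaussianReal 0 1).prod (gaussianReal 0 1) := by
  have hc : Real.sqrt 2 / 2 = 1 / Real.sqrt 2 := by
    rw [div_eq_div_iff two_ne_zero (Real.sqrt_ne_zero'.2 two_pos), one_mul]
    exact Real.mul_self_sqrt zero_le_two
  have h := IsGaussian.map_rotation_eq_self_of_forall_strongDual_eq_zero (μ := gaussianReal 0 1)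
    (fun L => by rw [integral_continuousLinearMap_gaussianReal]; simp) (Real.pi / 4)
  have e : rot = (Prod.map id (fun x : ℝ => -x))
      ∘ (ContinuousLinearMap.rotation (E := ℝ) (Real.pi / 4)) := by
    funext p
    simp only [rot, Function.comp, ContinuousLinearMap.rotation_apply, Real.cos_pi_div_four,
      Real.sin_pi_div_four, hc, smul_eq_mul, Prod.map, id]
    ext <;> ring
  rw [e, ← Measure.map_map (by fun_prop) (by fun_prop), h,
    ← Measure.map_prod_map _ _ measurable_id (by fun_prop), Measure.map_id, gaussianReal_map_neg]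
  simp

lemma map_pairSum :
    ((gaussianReal 0 1).prod (gaussianReal 0 1)).map (fun p => (p.1 + p.2) / Real.sqrt 2)
      = gaussianReal 0 1 := by
  have hm : Measurable rot := by unfold rot; fun_prop
  have e : (fun p : ℝ × ℝ => (p.1 + p.2) / Real.sqrt 2) = Prod.fst ∘ rot := rfl
  rw [e, ← Measure.map_map measurable_fst hm, map_rot, Measure.map_fst_prod]
  simp

/-- Variance of the increments at level `r`. -/
noncomputable def var (r : ℕ) : ℝ≥0 := (1 / 2) ^ r

/-- Splitting an increment of level `r` in two with a fresh standard Gaussian. -/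
noncomputable def refinePair (r : ℕ) (p : ℝ × ℝ) : ℝ × ℝ :=
  (p.1 / 2 + Real.sqrt ((var r : ℝ) / 4) * p.2, p.1 / 2 - Real.sqrt ((var r : ℝ) / 4) * p.2)

lemma map_refinePair (r : ℕ) :
    ((gaussianReal 0 (var r)).prod (gaussianReal 0 1)).map (refinePair r)
      = (gaussianReal 0 (var (r + 1))).prod (gaussianReal 0 (var (r + 1))) := by
  have hm : Measurable rot := by unfold rot; fun_prop
  have hm' : Measurable (refinePair r) := by unfold refinePair; fun_prop
  set v : ℝ := (var r : ℝ)
  have hv : 0 ≤ v := (var r).2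
  have e1 : gaussianReal 0 (var r) = (gaussianReal 0 1).map (Real.sqrt v * ·) := by
    rw [gaussianReal_map_const_mul]; congr 1
    · simp
    · apply NNReal.coe_injective; push_cast; simp [Real.sq_sqrt hv, v]
  have e2 : gaussianReal 0 (var (r + 1)) = (gaussianReal 0 1).map (Real.sqrt (v / 2) * ·) := by
    rw [gaussianReal_map_const_mul]; congr 1
    · simp
    · apply NNReal.coe_injective
      simp only [NNReal.coe_mul, NNReal.coe_one, mul_one, NNReal.coe_mk]
      rw [Real.sq_sqrt (div_nonneg hv zero_le_two)]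
      simp [v, var, pow_succ]; ring
  have e3 : (fun p => refinePair r (Real.sqrt v * p.1, p.2))
      = Prod.map (Real.sqrt (v / 2) * ·) (Real.sqrt (v / 2) * ·) ∘ rot := by
    funext p
    have h2 : Real.sqrt (v / 2) / Real.sqrt 2 = Real.sqrt v / 2 := by
      rw [Real.sqrt_div hv, div_div, Real.mul_self_sqrt zero_le_two]
    have h4 : Real.sqrt (v / 4) = Real.sqrt v / 2 := by
      rw [Real.sqrt_div hv, show (4 : ℝ) = 2 ^ 2 by norm_num, Real.sqrt_sq zero_le_two]
    simp only [refinePair, rot, Function.comp, Prod.map]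
    ext
    · simp only [v] at h4 ⊢; rw [h4, mul_div_assoc', div_eq_mul_inv _ (Real.sqrt 2)]
      calc _ = Real.sqrt v / 2 * (p.1 + p.2) := by simp [v]; ring
        _ = _ := by rw [← h2]; simp [v]; ring
    · simp only [v] at h4 ⊢; rw [h4, mul_div_assoc', div_eq_mul_inv _ (Real.sqrt 2)]
      calc _ = Real.sqrt v / 2 * (p.1 - p.2) := by simp [v]; ring
        _ = _ := by rw [← h2]; simp [v]; ring
  rw [e1, e2]
  rw [show ((gaussianReal 0 1).map (Real.sqrt v * ·)).prod (gaussianReal 0 1)
      = ((gaussianReal 0 1).prod (gaussianReal 0 1)).map (Prod.map (Real.sqrt v * ·) id) by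
    rw [← Measure.map_prod_map _ _ (by fun_prop) measurable_id, Measure.map_id],
    Measure.map_map hm' (by fun_prop)]
  change Measure.map (fun p : ℝ × ℝ => refinePair r (Real.sqrt v * p.1, p.2)) _ = _
  rw [e3, ← Measure.map_map (by fun_prop) hm, map_rot,
    ← Measure.map_prod_map _ _ (by fun_prop) (by fun_prop)]

/-- Increments of the noise on the grid of mesh `2 ^ (-r)`. -/
noncomputable def bmInc : ℕ → (ℕ × ℕ → ℝ) → ℕ → ℝ
  | 0, ξ, k => ξ (0, k)
  | r + 1, ξ, k =>
    if k % 2 = 0 then (refinePair r (bmInc r ξ (k / 2), ξ (r + 1, k / 2))).1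
    else (refinePair r (bmInc r ξ (k / 2), ξ (r + 1, k / 2))).2

lemma measurable_bmInc (r k : ℕ) : Measurable fun ξ => bmInc r ξ k := by
  induction r generalizing k with
  | zero => exact measurable_pi_apply _
  | succ r ih =>
    have := ih (k / 2)
    simp only [bmInc, refinePair]
    split_ifs <;> fun_prop

lemma measurable_bmInc' (r : ℕ) : Measurable fun ξ => bmInc r ξ :=
  measurable_pi_lambda _ (measurable_bmInc r)

/-- Interleave a sequence of pairs. -/
def interleave (z : ℕ → ℝ × ℝ) (k : ℕ) : ℝ := if k % 2 = 0 then (z (k / 2)).1 else (z (k / 2)).2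

lemma map_interleave (ν : Measure ℝ) [IsProbabilityMeasure ν] :
    (Measure.infinitePi fun _ : ℕ => ν.prod ν).map interleave = Measure.infinitePi fun _ : ℕ => ν := by
  classical
  have hm : Measurable interleave := measurable_pi_lambda _ fun k => by
    simp only [interleave]; split_ifs <;> fun_prop
  refine Measure.eq_infinitePi _ fun s t ht => ?_
  rw [Measure.map_apply hm (.pi s.countable_toSet fun _ _ => ht _)]
  let t' : ℕ → Set ℝ := fun k => if k ∈ s then t k else univ
  have ht' : ∀ k, MeasurableSet (t' k) := fun k => by simp only [t']; split_ifs <;> simp [ht]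
  have hset : interleave ⁻¹' ((s : Set ℕ).pi t)
      = ((s.image (· / 2) : Finset ℕ) : Set ℕ).pi fun i => t' (2 * i) ×ˢ t' (2 * i + 1) := by
    ext z
    simp only [Set.mem_preimage, Set.mem_pi, Finset.mem_coe, Finset.mem_image, Set.mem_prod,
      forall_exists_index, and_imp]
    constructor
    · rintro h i k hk rfl
      constructor
      · simp only [t']; split_ifs with h'
        · have := h _ h'; simpa [interleave] using this
        · trivial
      · simp only [t']; split_ifs with h'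
        · have := h _ h'
          simpa [interleave, Nat.add_mod, show (2 * (k / 2) + 1) / 2 = k / 2 by omega] using this
        · trivial
    · intro h k hk
      have := h _ k hk rfl
      by_cases hk2 : k % 2 = 0
      · simpa [interleave, hk2, t', show 2 * (k / 2) = k by omega, hk] using this.1
      · simpa [interleave, hk2, t', show 2 * (k / 2) + 1 = k by omega, hk] using this.2
  rw [hset, Measure.infinitePi_pi _ fun i _ => (ht' _).prod (ht' _)]
  simp only [Measure.prod_prod]
  conv_rhs => rw [← Finset.prod_fiberwise_of_maps_to (t := s.image (· / 2))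
    (fun k hk => Finset.mem_image_of_mem (· / 2) hk)]
  refine Finset.prod_congr rfl fun i _ => ?_
  have hsub : (s.filter fun k => k / 2 = i) = ({2 * i, 2 * i + 1} : Finset ℕ).filter (· ∈ s) := by
    ext k; simp only [Finset.mem_filter, Finset.mem_insert, Finset.mem_singleton]; grind
  rw [hsub, Finset.prod_filter, Finset.prod_pair (by omega)]
  congr 1 <;> simp only [t'] <;> split_ifs <;> simp

lemma map_zip (ν : Measure ℝ) [IsProbabilityMeasure ν] :
    ((Measure.infinitePi fun _ : ℕ => ν).prod (Measure.infinitePi fun _ : ℕ => ν)).map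
      (fun p i => (p.1 i, p.2 i)) = Measure.infinitePi fun _ : ℕ => ν.prod ν := by
  have hinj : Function.Injective (Sum.elim (fun i : ℕ => 2 * i) (fun i => 2 * i + 1)) := by
    rintro (a | a) (b | b) h <;> simp at h ⊢ <;> omega
  have hzip : Measurable fun p : (ℕ → ℝ) × (ℕ → ℝ) => fun i => (p.1 i, p.2 i) :=
    measurable_pi_lambda _ fun i => by fun_prop
  have hm : Measurable interleave := measurable_pi_lambda _ fun k => by
    simp only [interleave]; split_ifs <;> fun_prop
  have hs : Measurable fun x : ℕ → ℝ => (x ∘ fun i => 2 * i, x ∘ fun i => 2 * i + 1) :=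
    (measurable_pi_lambda _ fun i => measurable_pi_apply _).prodMk
      (measurable_pi_lambda _ fun i => measurable_pi_apply _)
  rw [← map_split _ _ hinj, ← map_interleave ν, Measure.map_map hs hm,
    Measure.map_map hzip (hs.comp hm)]
  convert Measure.map_id using 2
  funext z i
  simp [interleave, Nat.add_mod, show (2 * i + 1) / 2 = i by omega]

lemma iidG_eq_map (ι : Type*) (v : ℝ≥0) :
    iidG ι v = (iidG ι 1).map fun x i => Real.sqrt v * x i := by
  rw [iidG, iidG, Measure.infinitePi_map_pi (f := fun _ : ι => (Real.sqrt (v : ℝ) * ·))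
    _ fun _ => by fun_prop]
  congr 1; funext i
  rw [gaussianReal_map_const_mul]
  congr 1
  · simp
  · apply NNReal.coe_injective; push_cast; simp

lemma bmInc_succ (r : ℕ) (ξ : ℕ × ℕ → ℝ) :
    bmInc (r + 1) ξ = interleave fun i => refinePair r (bmInc r ξ i, ξ (r + 1, i)) := rfl

/-- Refinement of a whole level. -/
noncomputable def refineAll (r : ℕ) (p : (ℕ → ℝ) × (ℕ → ℝ)) : ℕ → ℝ :=
  interleave fun i => refinePair r (p.1 i, p.2 i)

lemma measurable_refineAll (r : ℕ) : Measurable (refineAll r) := by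
  refine measurable_pi_lambda _ fun k => ?_
  simp only [refineAll, interleave, refinePair]
  split_ifs <;> fun_prop

lemma map_refineAll (r : ℕ) :
    ((iidG ℕ (var r)).prod (iidG ℕ 1)).map (refineAll r) = iidG ℕ (var (r + 1)) := by
  have hm' : Measurable (refinePair r) := by unfold refinePair; fun_prop
  have hm : Measurable interleave := measurable_pi_lambda _ fun k => by
    simp only [interleave]; split_ifs <;> fun_prop
  have hscale : Measurable fun x : ℕ → ℝ => fun i => Real.sqrt (var r : ℝ) * x i :=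
    measurable_pi_lambda _ fun i => by fun_prop
  set P : ℝ × ℝ → ℝ × ℝ := fun q => (Real.sqrt (var r : ℝ) * q.1, q.2) with hP
  have hPm : Measurable P := by fun_prop
  have hzip : Measurable fun p : (ℕ → ℝ) × (ℕ → ℝ) => fun i => (p.1 i, p.2 i) :=
    measurable_pi_lambda _ fun i => by fun_prop
  have hpp : Measurable fun (z : ℕ → ℝ × ℝ) (i : ℕ) => refinePair r (P (z i)) :=
    measurable_pi_lambda _ fun i => hm'.comp (hPm.comp (measurable_pi_apply i))
  rw [iidG_eq_map ℕ (var r)]
  conv_lhs => arg 2; arg 2; rw [← Measure.map_id (μ := iidG ℕ 1)]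
  rw [Measure.map_prod_map _ _ hscale measurable_id,
    Measure.map_map (measurable_refineAll r) (hscale.prodMap measurable_id)]
  have e : refineAll r ∘ Prod.map (fun (x : ℕ → ℝ) i => Real.sqrt (var r : ℝ) * x i) id
      = interleave ∘ (fun z i => refinePair r (P (z i))) ∘ fun p i => (p.1 i, p.2 i) := rfl
  rw [e, ← Measure.map_map hm (hpp.comp hzip), ← Measure.map_map hpp hzip, iidG, map_zip]
  change Measure.map interleave (Measure.map
    (fun (z : ℕ → ℝ × ℝ) i => (refinePair r ∘ P) (z i)) _) = _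
  rw [Measure.infinitePi_map_pi (f := fun _ : ℕ => refinePair r ∘ P) _ fun _ => hm'.comp hPm]
  have e2 : ((gaussianReal 0 1).prod (gaussianReal 0 1)).map (refinePair r ∘ P)
      = (gaussianReal 0 (var (r + 1))).prod (gaussianReal 0 (var (r + 1))) := by
    rw [← map_refinePair, ← Measure.map_map hm' hPm]
    congr 1
    change ((gaussianReal 0 1).prod (gaussianReal 0 1)).map
      (Prod.map (Real.sqrt (var r : ℝ) * ·) id) = _
    rw [← Measure.map_prod_map _ _ (by fun_prop) measurable_id, Measure.map_id,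
      gaussianReal_map_const_mul]
    congr 2
    · simp
    · apply NNReal.coe_injective; push_cast; simp [Real.sq_sqrt (var r).2]
  simp only [e2]
  rw [map_interleave, iidG]

lemma map_bmInc_joint (r : ℕ) :
    (iidG (ℕ × ℕ) 1).map (fun ξ => (bmInc r ξ, fun p : ℕ × ℕ => ξ (r + 1 + p.1, p.2)))
      = (iidG ℕ (var r)).prod (iidG (ℕ × ℕ) 1) := by
  induction r with
  | zero =>
    have h := map_split (μ := gaussianReal 0 1) (fun k : ℕ => (0, k))
      (fun p : ℕ × ℕ => (1 + p.1, p.2)) ?_
    · simpa [iidG, var, bmInc, Function.comp_def] using h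
    · rintro (a | a) (b | b) h <;> simp at h ⊢ <;> grind
  | succ r ih =>
    have hsplit := map_split (μ := gaussianReal 0 1) (fun k : ℕ => (0, k))
      (fun p : ℕ × ℕ => (1 + p.1, p.2)) (by rintro (a | a) (b | b) h <;> simp at h ⊢ <;> grind)
    have hs : Measurable fun x : ℕ × ℕ → ℝ =>
        ((x ∘ fun k : ℕ => (0, k)), (x ∘ fun p : ℕ × ℕ => (1 + p.1, p.2))) :=
      (measurable_pi_lambda _ fun i => measurable_pi_apply _).prodMk
        (measurable_pi_lambda _ fun i => measurable_pi_apply _)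
    have hbase : Measurable fun ξ : ℕ × ℕ → ℝ =>
        (bmInc r ξ, fun p : ℕ × ℕ => ξ (r + 1 + p.1, p.2)) :=
      (measurable_bmInc' r).prodMk (measurable_pi_lambda _ fun p => measurable_pi_apply _)
    let Φ : (ℕ → ℝ) × (ℕ × ℕ → ℝ) → (ℕ → ℝ) × (ℕ × ℕ → ℝ) := fun q =>
      (refineAll r (q.1, q.2 ∘ fun k : ℕ => (0, k)), q.2 ∘ fun p : ℕ × ℕ => (1 + p.1, p.2))
    have hΦ : Φ = Prod.map (refineAll r) id ∘ MeasurableEquiv.prodAssoc.symm
        ∘ Prod.map id (fun x : ℕ × ℕ → ℝ =>
          ((x ∘ fun k : ℕ => (0, k)), (x ∘ fun p : ℕ × ℕ => (1 + p.1, p.2)))) := rfl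
    have e : (fun ξ : ℕ × ℕ → ℝ => (bmInc (r + 1) ξ, fun p : ℕ × ℕ => ξ (r + 1 + 1 + p.1, p.2)))
        = Φ ∘ fun ξ => (bmInc r ξ, fun p : ℕ × ℕ => ξ (r + 1 + p.1, p.2)) := by
      funext ξ
      refine Prod.ext ?_ (funext fun p => ?_)
      · simp only [Φ, Function.comp, bmInc_succ, refineAll, Nat.add_zero]
      · simp only [Φ, Function.comp]; congr 2; omega
    have hΦm : Measurable Φ := by
      rw [hΦ]
      exact ((measurable_refineAll r).prodMap measurable_id).comp
        ((MeasurableEquiv.measurable _).comp (measurable_id.prodMap hs))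
    rw [e, ← Measure.map_map hΦm hbase, ih, hΦ,
      ← Measure.map_map ((measurable_refineAll r).prodMap measurable_id)
        ((MeasurableEquiv.measurable _).comp (measurable_id.prodMap hs)),
      ← Measure.map_map (MeasurableEquiv.measurable _) (measurable_id.prodMap hs),
      ← Measure.map_prod_map _ _ measurable_id hs, Measure.map_id]
    rw [show (iidG (ℕ × ℕ) 1).map (fun x : ℕ × ℕ → ℝ =>
          ((x ∘ fun k : ℕ => (0, k)), (x ∘ fun p : ℕ × ℕ => (1 + p.1, p.2))))
        = (iidG ℕ 1).prod (iidG (ℕ × ℕ) 1) from hsplit,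
      (measurePreserving_prodAssoc _ _ _).symm.map_eq,
      ← Measure.map_prod_map _ _ (measurable_refineAll r) measurable_id, map_refineAll, Measure.map_id]

lemma map_bmInc (r : ℕ) : (iidG (ℕ × ℕ) 1).map (bmInc r) = iidG ℕ (var r) := by
  have h := congrArg (Measure.map Prod.fst) (map_bmInc_joint r)
  rw [Measure.map_map measurable_fst ((measurable_bmInc' r).prodMk
    (measurable_pi_lambda _ fun p => measurable_pi_apply _)), Measure.map_fst_prod] at h
  simpa [Function.comp_def] using h

lemma map_bmInc_eval (r k : ℕ) :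
    (iidG (ℕ × ℕ) 1).map (fun ξ => bmInc r ξ k) = gaussianReal 0 (var r) := by
  rw [← Measure.infinitePi_map_eval (fun _ : ℕ => gaussianReal 0 (var r)) k, ← iidG, ← map_bmInc r,
    Measure.map_map (by fun_prop) (measurable_bmInc' r)]
  rfl

/-- The noise at level `r`, at time `t`, rounded down to the grid. -/
noncomputable def bmApprox (r : ℕ) (ξ : ℕ × ℕ → ℝ) (t : ℝ) : ℝ :=
  ∑ i ∈ Finset.range ⌊t * 2 ^ r⌋₊, bmInc r ξ i

/-- The noise. -/
noncomputable def bm (ξ : ℕ × ℕ → ℝ) (t : ℝ) : ℝ := limUnder atTop fun r => bmApprox r ξ t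

lemma measurable_bm : Measurable fun p : (ℕ × ℕ → ℝ) × ℝ => bm p.1 p.2 := by
  refine (StronglyMeasurable.limUnder fun r => Measurable.stronglyMeasurable ?_).measurable
  have h : Measurable fun p : ((ℕ × ℕ → ℝ) × ℝ) × ℕ => ∑ i ∈ Finset.range p.2, bmInc r p.1.1 i :=
    measurable_from_prod_countable_left fun n =>
      Finset.measurable_sum (Finset.range n) fun i _ => (measurable_bmInc r i).comp measurable_fst
  exact h.comp (measurable_id.prodMk (Nat.measurable_floor.comp (measurable_snd.mul_const _)))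

lemma bmInc_add (r : ℕ) (ξ : ℕ × ℕ → ℝ) (i : ℕ) :
    bmInc (r + 1) ξ (2 * i) + bmInc (r + 1) ξ (2 * i + 1) = bmInc r ξ i := by
  simp [bmInc, refinePair, Nat.add_mod, show (2 * i + 1) / 2 = i by omega]

lemma sum_bmInc_succ (r : ℕ) (ξ : ℕ × ℕ → ℝ) (n : ℕ) :
    ∑ i ∈ Finset.range (2 * n), bmInc (r + 1) ξ i = ∑ i ∈ Finset.range n, bmInc r ξ i := by
  induction n with
  | zero => simp
  | succ n ih =>
    rw [Nat.mul_succ, Finset.sum_range_succ, Finset.sum_range_succ, ih, Finset.sum_range_succ,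
      add_assoc, bmInc_add]

lemma bmApprox_grid (r j k : ℕ) (ξ : ℕ × ℕ → ℝ) :
    bmApprox (r + j) ξ ((k : ℝ) / 2 ^ r) = ∑ i ∈ Finset.range k, bmInc r ξ i := by
  have : ⌊(k : ℝ) / 2 ^ r * 2 ^ (r + j)⌋₊ = 2 ^ j * k := by
    rw [pow_add, ← mul_assoc, div_mul_cancel₀ _ (pow_ne_zero _ two_ne_zero),
      show ((k : ℝ) * 2 ^ j) = ((2 ^ j * k : ℕ) : ℝ) by push_cast; ring, Nat.floor_natCast]
  rw [bmApprox, this]
  clear this
  induction j with
  | zero => simp
  | succ j ih => rw [pow_succ', mul_assoc, ← Nat.add_assoc, sum_bmInc_succ, ih]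

lemma bm_grid (r k : ℕ) (ξ : ℕ × ℕ → ℝ) :
    bm ξ ((k : ℝ) / 2 ^ r) = ∑ i ∈ Finset.range k, bmInc r ξ i := by
  refine Tendsto.limUnder_eq (tendsto_const_nhds.congr' ?_)
  filter_upwards [eventually_ge_atTop r] with n hn
  obtain ⟨j, rfl⟩ := Nat.exists_eq_add_of_le hn
  exact (bmApprox_grid r j k ξ).symm

/-- The first absolute moment of the standard Gaussian. -/
noncomputable def absMom : ℝ := ∫ x, |x| ∂gaussianReal 0 1

lemma absMom_nonneg : 0 ≤ absMom := integral_nonneg fun _ => abs_nonneg _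

lemma lintegral_abs_gauss (v : ℝ≥0) :
    ∫⁻ x, ENNReal.ofReal |x| ∂gaussianReal 0 v = ENNReal.ofReal (absMom * Real.sqrt v) := by
  have h : gaussianReal 0 v = (gaussianReal 0 1).map (Real.sqrt v * ·) := by
    rw [gaussianReal_map_const_mul]; congr 1
    · simp
    · apply NNReal.coe_injective; push_cast; simp
  have hi : Integrable (fun x : ℝ => |Real.sqrt v * x|) (gaussianReal 0 1) := by
    exact (((memLp_id_gaussianReal 1).integrable le_rfl).const_mul (Real.sqrt v)).abs
  rw [h, lintegral_map (by fun_prop) (by fun_prop),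
    ← ofReal_integral_eq_lintegral_ofReal hi (ae_of_all _ fun x => abs_nonneg _)]
  simp only [abs_mul, abs_of_nonneg (Real.sqrt_nonneg (v : ℝ)), integral_const_mul]
  rw [mul_comm]; rfl

lemma lintegral_bmInc (r k : ℕ) :
    ∫⁻ ξ, ENNReal.ofReal |bmInc r ξ k| ∂iidG (ℕ × ℕ) 1
      = ENNReal.ofReal (absMom * Real.sqrt (var r)) := by
  rw [← lintegral_abs_gauss, ← map_bmInc_eval r k,
    lintegral_map (by fun_prop) (measurable_bmInc r k)]

lemma abs_bmApprox_succ (r : ℕ) (ξ : ℕ × ℕ → ℝ) {t : ℝ} (ht : 0 ≤ t) :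
    |bmApprox (r + 1) ξ t - bmApprox r ξ t| ≤ |bmInc (r + 1) ξ (2 * ⌊t * 2 ^ r⌋₊)| := by
  set n := ⌊t * 2 ^ r⌋₊
  have h1 : (n : ℝ) ≤ t * 2 ^ r := Nat.floor_le (by positivity)
  have h2 : t * 2 ^ r < n + 1 := Nat.lt_floor_add_one _
  have h3 : 2 * n ≤ ⌊t * 2 ^ (r + 1)⌋₊ := Nat.le_floor (by push_cast; rw [pow_succ]; linarith)
  have h4 : ⌊t * 2 ^ (r + 1)⌋₊ < 2 * n + 2 := by
    rw [Nat.floor_lt (by positivity)]; push_cast; rw [pow_succ]; linarith
  simp only [bmApprox]
  rw [← sum_bmInc_succ r ξ n]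
  rcases (show ⌊t * 2 ^ (r + 1)⌋₊ = 2 * n ∨ ⌊t * 2 ^ (r + 1)⌋₊ = 2 * n + 1 by omega) with h | h
  · simp [h]
  · simp [h, Finset.sum_range_succ]

/-- Mean error bound at level `R`. -/
noncomputable def bmTail (R : ℕ) : ℝ := ∑' j, absMom * Real.sqrt (var (R + j + 1))

lemma summable_bmTail : Summable fun r : ℕ => absMom * Real.sqrt (var r) := by
  refine Summable.mul_left _ ?_
  have h : ∀ r : ℕ, Real.sqrt (var r : ℝ) = Real.sqrt (1 / 2) ^ r := fun r => by
    induction r with
    | zero => simp [var]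
    | succ r ih =>
      rw [pow_succ, ← ih, ← Real.sqrt_mul (NNReal.coe_nonneg (var r))]
      simp [var, pow_succ]
  simp only [h]
  exact summable_geometric_of_lt_one (Real.sqrt_nonneg _) (by rw [Real.sqrt_lt' one_pos]; norm_num)

lemma bmTail_nonneg (R : ℕ) : 0 ≤ bmTail R :=
  tsum_nonneg fun j => mul_nonneg absMom_nonneg (Real.sqrt_nonneg _)

lemma tendsto_bmTail : Tendsto bmTail atTop (𝓝 0) := by
  have := (tendsto_sum_nat_add fun r => absMom * Real.sqrt (var r)).comp (tendsto_add_atTop_nat 1)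
  refine this.congr fun R => tsum_congr fun j => ?_
  simp only [add_comm, add_left_comm, add_assoc]

lemma ae_tendsto_bm {t : ℝ} (ht : 0 ≤ t) :
    ∀ᵐ ξ ∂iidG (ℕ × ℕ) 1, Tendsto (fun r => bmApprox r ξ t) atTop (𝓝 (bm ξ t)) := by
  have h : ∫⁻ ξ, ∑' r, ENNReal.ofReal |bmInc (r + 1) ξ (2 * ⌊t * 2 ^ r⌋₊)| ∂iidG (ℕ × ℕ) 1 ≠ ⊤ := by
    rw [lintegral_tsum fun r => ((measurable_bmInc _ _).abs.ennreal_ofReal).aemeasurable]
    simp only [lintegral_bmInc]
    rw [← ENNReal.ofReal_tsum_of_nonneg (fun r => mul_nonneg absMom_nonneg (Real.sqrt_nonneg _))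
      (summable_bmTail.comp_injective (add_left_injective 1))]
    exact ENNReal.ofReal_ne_top
  filter_upwards [ae_lt_top' (AEMeasurable.ennreal_tsum fun r =>
    ((measurable_bmInc _ _).abs.ennreal_ofReal).aemeasurable) h] with ξ hξ
  refine tendsto_nhds_limUnder (cauchySeq_tendsto_of_complete ?_)
  refine cauchySeq_of_dist_le_of_summable (fun r => |bmInc (r + 1) ξ (2 * ⌊t * 2 ^ r⌋₊)|)
    (fun r => by rw [dist_comm, Real.dist_eq]; exact abs_bmApprox_succ r ξ ht) ?_
  have := ENNReal.summable_toReal hξ.ne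
  simpa [ENNReal.toReal_ofReal (abs_nonneg _)] using this

lemma lintegral_bm_sub_approx (R : ℕ) {t : ℝ} (ht : 0 ≤ t) :
    ∫⁻ ξ, ENNReal.ofReal |bm ξ t - bmApprox R ξ t| ∂iidG (ℕ × ℕ) 1
      ≤ ENNReal.ofReal (bmTail R) := by
  calc ∫⁻ ξ, ENNReal.ofReal |bm ξ t - bmApprox R ξ t| ∂iidG (ℕ × ℕ) 1
      ≤ ∫⁻ ξ, ∑' j, ENNReal.ofReal |bmInc (R + j + 1) ξ (2 * ⌊t * 2 ^ (R + j)⌋₊)| ∂iidG (ℕ × ℕ) 1 := by
        refine lintegral_mono_ae ?_
        filter_upwards [ae_tendsto_bm ht] with ξ hξ
        refine le_of_tendsto' (ENNReal.tendsto_ofReal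
          (((hξ.comp (tendsto_add_atTop_nat R)).sub_const _).abs)) fun n => ?_
        refine le_trans ?_ (ENNReal.sum_le_tsum (Finset.range n))
        rw [← ENNReal.ofReal_sum_of_nonneg fun i _ => abs_nonneg _]
        refine ENNReal.ofReal_le_ofReal ?_
        simp only [Function.comp, add_comm n R]
        have := Finset.abs_sum_le_sum_abs (fun i => bmApprox (R + (i + 1)) ξ t - bmApprox (R + i) ξ t)
          (Finset.range n)
        rw [Finset.sum_range_sub (fun i => bmApprox (R + i) ξ t), Nat.add_zero] at this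
        exact this.trans (Finset.sum_le_sum fun i _ => abs_bmApprox_succ (R + i) ξ ht)
    _ = _ := by
        rw [lintegral_tsum fun j => ((measurable_bmInc _ _).abs.ennreal_ofReal).aemeasurable]
        simp only [lintegral_bmInc]
        rw [bmTail, ENNReal.ofReal_tsum_of_nonneg (fun r => mul_nonneg absMom_nonneg (Real.sqrt_nonneg _))]
        exact summable_bmTail.comp_injective fun a b h => by simpa using h

/-- Mean distance of the noise to its value at the last grid point. -/
lemma lintegral_bm_grid (R : ℕ) {t : ℝ} (ht : 0 ≤ t) :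
    ∫⁻ ξ, ENNReal.ofReal |bm ξ t - bm ξ ((⌊t * 2 ^ R⌋₊ : ℝ) / 2 ^ R)| ∂iidG (ℕ × ℕ) 1
      ≤ ENNReal.ofReal (bmTail R) := by
  refine le_trans (le_of_eq (lintegral_congr fun ξ => ?_)) (lintegral_bm_sub_approx R ht)
  rw [bm_grid]; rfl

lemma map_sum_iidG (n : ℕ) :
    (iidG ℕ 1).map (fun x => ∑ i ∈ Finset.range n, x i) = gaussianReal 0 n := by
  induction n with
  | zero => simp [gaussianReal_zero_var, Measure.map_const]
  | succ n ih =>
    have hinj : Function.Injective (Sum.elim (fun _ : Unit => (0 : ℕ)) Nat.succ) := by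
      rintro (a | a) (b | b) h <;> simp at h ⊢ <;> omega
    have hs := map_split (μ := gaussianReal 0 1) _ _ hinj
    have e : (fun x : ℕ → ℝ => ∑ i ∈ Finset.range (n + 1), x i)
        = (fun p : (Unit → ℝ) × (ℕ → ℝ) => p.1 () + ∑ i ∈ Finset.range n, p.2 i)
          ∘ fun x => ((x ∘ fun _ : Unit => (0 : ℕ)), (x ∘ Nat.succ)) := by
      funext x; simp [Finset.sum_range_succ', add_comm]
    have hm : Measurable fun x : ℕ → ℝ => ((x ∘ fun _ : Unit => (0 : ℕ)), (x ∘ Nat.succ)) :=
      (measurable_pi_lambda _ fun i => measurable_pi_apply _).prodMk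
        (measurable_pi_lambda _ fun i => measurable_pi_apply _)
    rw [e, ← Measure.map_map (by fun_prop) hm, iidG, hs]
    have e2 : (fun p : (Unit → ℝ) × (ℕ → ℝ) => p.1 () + ∑ i ∈ Finset.range n, p.2 i)
        = (fun q : ℝ × ℝ => q.1 + q.2) ∘ Prod.map (fun z : Unit → ℝ => z ())
          (fun x : ℕ → ℝ => ∑ i ∈ Finset.range n, x i) := rfl
    rw [e2, ← Measure.map_map (by fun_prop) (by fun_prop),
      ← Measure.map_prod_map _ _ (by fun_prop) (by fun_prop), Measure.infinitePi_map_eval, ← iidG, ih]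
    change Measure.conv _ _ = _
    rw [gaussianReal_conv_gaussianReal]
    simp [add_comm]

lemma lintegral_bm_nat (T : ℕ) :
    ∫⁻ ξ, ENNReal.ofReal |bm ξ T| ∂iidG (ℕ × ℕ) 1 = ENNReal.ofReal (absMom * Real.sqrt T) := by
  have h : ∀ ξ, bm ξ T = ∑ i ∈ Finset.range T, bmInc 0 ξ i := fun ξ => by
    simpa using bm_grid 0 T ξ
  simp only [h]
  rw [← lintegral_map (f := fun x => ENNReal.ofReal |∑ i ∈ Finset.range T, x i|) (by fun_prop)
    (measurable_bmInc' 0), map_bmInc, show var 0 = 1 by simp [var],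
    ← lintegral_map (f := fun z => ENNReal.ofReal |z|) (by fun_prop) (by fun_prop), map_sum_iidG,
    lintegral_abs_gauss]
  simp

end Vale.Agent.P143
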