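import Vale.Agent.P143.Statement
import Vale.Agent.P143.Noise
import Vale.Agent.P143.Capacity

/-!
Equivariant edge noise from i.i.d. uniform vertex labels.
-/

namespace Vale.Agent.P143

open MeasureTheory ProbabilityTheory Set
open scoped NNReal ENNReal unitInterval

/-- Index of the atoms carried by one vertex: a tie breaker, and one Gaussian family per slot. -/
abbrev Slot : Type := Option (ℕ × (ℕ × ℕ))

lemma exists_labelFun : ∃ f : I → Slot → ℝ, Measurable f ∧ (volume : Measure I).map f = iidG Slot 1 :=
  Measure.exists_measurable_map_eq (iidG Slot 1)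

/-- A function turning one uniform label into i.i.d. Gaussians. -/
noncomputable def labelFun : I → Slot → ℝ := exists_labelFun.choose

lemma measurable_labelFun : Measurable labelFun := exists_labelFun.choose_spec.1

lemma map_labelFun : (volume : Measure I).map labelFun = iidG Slot 1 := exists_labelFun.choose_spec.2

variable {V : Type*}

instance : IsProbabilityMeasure (iidLaw V) :=
  inferInstanceAs (IsProbabilityMeasure (Measure.infinitePi fun _ : V => (volume : Measure I)))

/-- The atoms of all vertices. -/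
noncomputable def atoms (U : V → I) : V × Slot → ℝ := fun p => labelFun (U p.1) p.2

lemma measurable_atoms : Measurable (atoms (V := V)) := measurable_pi_lambda _ fun p =>
  (measurable_pi_apply p.2).comp (measurable_labelFun.comp (measurable_pi_apply p.1))

lemma map_atoms : (iidLaw V).map atoms = iidG (V × Slot) 1 := by
  have e : atoms (V := V) = (MeasurableEquiv.curry V Slot ℝ).symm ∘ fun (U : V → I) v => labelFun (U v) := rfl
  have hl : Measurable fun (U : V → I) v => labelFun (U v) :=
    measurable_pi_lambda _ fun v => measurable_labelFun.comp (measurable_pi_apply v)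
  rw [e, ← Measure.map_map (MeasurableEquiv.measurable _) hl, iidLaw,
    Measure.infinitePi_map_pi (f := fun _ : V => labelFun) _ fun _ => measurable_labelFun]
  simp only [map_labelFun]
  exact Measure.infinitePi_map_curry_symm fun (_ : V) (_ : Slot) => gaussianReal 0 1

open Classical in
/-- The rank of `v` among the neighbours of `u`. -/
noncomputable def rank (a : Sym2 V → Bool) (L : V → ℝ) (u v : V) : ℕ :=
  ⌊(∑' w, if a s(u, w) = true ∧ L w < L v then (1 : ℝ≥0∞) else 0).toReal⌋₊

lemma rank_eq_card {a : Sym2 V → Bool} (ha : Nice a) (L : V → ℝ) (u v : V) :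
    rank a L u v = {w | a s(u, w) = true ∧ L w < L v}.ncard := by
  classical
  have hfin : {w | a s(u, w) = true ∧ L w < L v}.Finite := by
    refine ((ha.loc u).preimage (f := fun w => s(u, w)) ?_).subset fun w hw => ?_
    · exact fun w₁ _ w₂ _ h => Sym2.congr_right.1 h
    · exact ⟨hw.1, Sym2.mem_mk_left u w⟩
  rw [rank, tsum_eq_sum (s := hfin.toFinset) fun w hw => by
    rw [if_neg]; simpa using hw]
  rw [Finset.sum_congr rfl (g := fun _ => (1 : ℝ≥0∞)) fun w hw => if_pos (by simpa using hw)]
  rw [Finset.sum_const, nsmul_eq_mul, mul_one, ENNReal.toReal_natCast, Nat.floor_natCast,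
    Set.ncard_eq_toFinset_card _ hfin]

lemma rank_inj {a : Sym2 V → Bool} (ha : Nice a) {L : V → ℝ} (hL : Function.Injective L) {u v v' : V}
    (hv : a s(u, v) = true) (hv' : a s(u, v') = true) (h : rank a L u v = rank a L u v') : v = v' := by
  rw [rank_eq_card ha, rank_eq_card ha] at h
  by_contra hne
  have key : ∀ {p q : V}, a s(u, p) = true → L p < L q →
      {w | a s(u, w) = true ∧ L w < L p}.ncard < {w | a s(u, w) = true ∧ L w < L q}.ncard := by
    intro p q hp hpq
    refine Set.ncard_lt_ncard ⟨fun w hw => ⟨hw.1, hw.2.trans hpq⟩, fun hsub => ?_⟩ ?_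
    · exact lt_irrefl _ (hsub (a := p) ⟨hp, hpq⟩).2
    · refine ((ha.loc u).preimage (f := fun w => s(u, w)) ?_).subset fun w hw => ?_
      · exact fun w₁ _ w₂ _ h => Sym2.congr_right.1 h
      · exact ⟨hw.1, Sym2.mem_mk_left u w⟩
  rcases lt_trichotomy (L v) (L v') with hlt | heq | hgt
  · exact absurd h (key hv hlt).ne
  · exact hne (hL heq)
  · exact absurd h (key hv' hgt).ne'

/-- The atoms of an edge. -/
noncomputable def eta (a : Sym2 V → Bool) (X : V × Slot → ℝ) (e : Sym2 V) (i : ℕ × ℕ) : ℝ :=
  Sym2.lift ⟨fun u v => (X (u, some (rank a (fun w => X (w, none)) u v, i))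
      + X (v, some (rank a (fun w => X (w, none)) v u, i))) / Real.sqrt 2,
    fun u v => by simp only [add_comm]⟩ e

/-- The noise path on the edges. -/
noncomputable def edgePath (a : Sym2 V → Bool) (U : V → I) (t : ℝ) (e : Sym2 V) : ℝ :=
  bm (eta a (atoms U) e) t

section Meas

variable [Countable V] {Ω : Type*} [MeasurableSpace Ω] {a : Ω → Sym2 V → Bool}

lemma measurable_eta (ha : ∀ f, Measurable fun ω => a ω f) {X : Ω → V × Slot → ℝ}
    (hX : ∀ p, Measurable fun ω => X ω p) (e : Sym2 V) (i : ℕ × ℕ) :
    Measurable fun ω => eta (a ω) (X ω) e i := by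
  classical
  induction e using Sym2.ind with
  | h u v =>
    have hr : ∀ u v, Measurable fun ω => rank (a ω) (fun w => X ω (w, none)) u v := fun u v => by
      refine Nat.measurable_floor.comp (ENNReal.measurable_toReal.comp ?_)
      exact Measurable.ennreal_tsum fun w => Measurable.ite
        ((measurableSet_eq_fun (ha _) measurable_const).inter
          (measurableSet_lt (hX _) (hX _))) measurable_const measurable_const
    have hs : ∀ u v, Measurable fun ω => X ω (u, some (rank (a ω) (fun w => X ω (w, none)) u v, i)) :=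
      fun u v => by
        have h : Measurable fun q : Ω × ℕ => X q.1 (u, some (q.2, i)) :=
          measurable_from_prod_countable_left fun n => hX (u, some (n, i))
        exact h.comp (measurable_id.prodMk (hr u v))
    simp only [eta, Sym2.lift_mk]
    exact ((hs u v).add (hs v u)).div_const _

lemma measurable_edgePath (ha : ∀ f, Measurable fun ω => a ω f) {U : Ω → V → I}
    (hU : Measurable U) (e : Sym2 V) :
    Measurable fun p : Ω × ℝ => edgePath (a p.1) (U p.1) p.2 e := by
  have hA : ∀ q, Measurable fun ω => atoms (U ω) q := fun q =>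
    (measurable_pi_apply q).comp (measurable_atoms.comp hU)
  have hE : Measurable fun ω => eta (a ω) (atoms (U ω)) e :=
    measurable_pi_lambda _ fun i => measurable_eta (X := fun ω => atoms (U ω)) ha hA e i
  have h := Measurable.comp (g := fun q : (ℕ × ℕ → ℝ) × ℝ => bm q.1 q.2)
    (f := fun p : Ω × ℝ => (eta (a p.1) (atoms (U p.1)) e, p.2)) measurable_bm
    ((hE.comp measurable_fst).prodMk measurable_snd)
  simpa only [edgePath, Function.comp_def] using h

end Meas

lemma rank_map {W : Type*} (π : V ≃ W) (b : Sym2 W → Bool) (L : W → ℝ) (u v : V) :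
    rank (fun f => b (f.map π)) (L ∘ π) u v = rank b L (π u) (π v) := by
  classical
  unfold rank
  congr 2
  rw [← π.tsum_eq (fun w => if b s(π u, w) = true ∧ L w < L (π v) then (1 : ℝ≥0∞) else 0)]
  refine tsum_congr fun w => ?_
  split_ifs with h1 h2 h2
  all_goals first | rfl | (exfalso; simp at h1 h2; grind)

lemma eta_map {W : Type*} (π : V ≃ W) (b : Sym2 W → Bool) (X : W × Slot → ℝ) (e : Sym2 V)
    (i : ℕ × ℕ) :
    eta (fun f => b (f.map π)) (fun p => X (π p.1, p.2)) e i = eta b X (e.map π) i := by
  induction e using Sym2.ind with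
  | h u v =>
    simp only [eta, Sym2.map_mk, Sym2.lift_mk]
    rw [show (fun w => X (π w, none)) = (fun w => X (w, none)) ∘ π from rfl, rank_map, rank_map]

lemma edgePath_map {W : Type*} (π : V ≃ W) (b : Sym2 W → Bool) (U : W → I) (t : ℝ) (e : Sym2 V) :
    edgePath (fun f => b (f.map π)) (U ∘ π) t e = edgePath b U t (e.map π) := by
  unfold edgePath
  congr 1
  funext i
  exact eta_map π b (atoms U) e i

lemma ae_injective [Countable V] :
    ∀ᵐ L ∂iidG V 1, Function.Injective L := by
  have h : ∀ u v : V, ∀ᵐ L ∂iidG V 1, L u = L v → u = v := by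
    intro u v
    by_cases huv : u = v
    · exact ae_of_all _ fun L _ => huv
    rw [ae_iff]
    have hinj : Function.Injective (Sum.elim (fun _ : Unit => u) fun _ : Unit => v) := by
      rintro (a | a) (b | b) h <;> simp at h ⊢
      · exact huv h
      · exact huv h.symm
    have hs := map_split (μ := gaussianReal 0 1) _ _ hinj
    have hm : Measurable fun L : V → ℝ => ((L ∘ fun _ : Unit => u), (L ∘ fun _ : Unit => v)) :=
      (measurable_pi_lambda _ fun i => measurable_pi_apply _).prodMk
        (measurable_pi_lambda _ fun i => measurable_pi_apply _)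
    have hset : MeasurableSet {p : (Unit → ℝ) × (Unit → ℝ) | p.1 () = p.2 ()} :=
      measurableSet_eq_fun (by fun_prop) (by fun_prop)
    calc (iidG V 1) {L | ¬(L u = L v → u = v)}
        = (Measure.infinitePi fun _ : V => gaussianReal 0 1)
            ((fun L : V → ℝ => ((L ∘ fun _ : Unit => u), (L ∘ fun _ : Unit => v)))
              ⁻¹' {p | p.1 () = p.2 ()}) := by simp [huv, iidG]
      _ = 0 := by
        rw [← Measure.map_apply hm hset, hs, Measure.prod_apply hset]
        refine (lintegral_congr fun p => ?_).trans lintegral_zero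
        have h1 : MeasurableSet {q : Unit → ℝ | q () = p ()} :=
          measurableSet_eq_fun (by fun_prop) measurable_const
        have : Prod.mk p ⁻¹' {q : (Unit → ℝ) × (Unit → ℝ) | q.1 () = q.2 ()}
            = (fun q : Unit → ℝ => q ()) ⁻¹' {p ()} := by ext q; simp [eq_comm]
        rw [this, ← Measure.map_apply (by fun_prop) (measurableSet_singleton _),
          Measure.infinitePi_map_eval]
        have := nullSingletonClass_gaussianReal (μ := 0) (v := 1) one_ne_zero
        exact measure_singleton _
  filter_upwards [ae_all_iff.2 fun u => ae_all_iff.2 (h u)] with L hL u v huv using hL u v huv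

lemma map_pair_iidG (ι : Type*) :
    ((iidG ι 1).prod (iidG ι 1)).map (fun p i => (p.1 i + p.2 i) / Real.sqrt 2) = iidG ι 1 := by
  let f : ι → ι × Bool := fun i => (i, true)
  let g : ι → ι × Bool := fun i => (i, false)
  have hinj : Function.Injective (Sum.elim f g) := by
    rintro (a | a) (b | b) h <;> simp [f, g] at h ⊢ <;> exact h
  have hm : Measurable fun p : (ι → ℝ) × (ι → ℝ) => fun i => (p.1 i + p.2 i) / Real.sqrt 2 :=
    measurable_pi_lambda _ fun i => by fun_prop
  have hs : Measurable fun x : ι × Bool → ℝ => (x ∘ f, x ∘ g) :=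
    (measurable_pi_lambda _ fun i => measurable_pi_apply _).prodMk
      (measurable_pi_lambda _ fun i => measurable_pi_apply _)
  rw [iidG, ← map_split f g hinj, Measure.map_map hm hs]
  let h : (Bool → ℝ) → ℝ := fun z => (z true + z false) / Real.sqrt 2
  have hh : Measurable h := by fun_prop
  have e : ((fun p : (ι → ℝ) × (ι → ℝ) => fun i => (p.1 i + p.2 i) / Real.sqrt 2)
      ∘ fun x : ι × Bool → ℝ => (x ∘ f, x ∘ g))
      = (fun (z : ι → Bool → ℝ) i => h (z i)) ∘ MeasurableEquiv.curry ι Bool ℝ := rfl
  have hz : Measurable fun (z : ι → Bool → ℝ) i => h (z i) :=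
    measurable_pi_lambda _ fun i => hh.comp (measurable_pi_apply i)
  rw [e, ← Measure.map_map hz (MeasurableEquiv.measurable _),
    Measure.infinitePi_map_curry (fun (_ : ι) (_ : Bool) => gaussianReal 0 1),
    Measure.infinitePi_map_pi (f := fun _ : ι => h) _ fun _ => hh]
  congr 1
  funext _
  have hb : Function.Injective (Sum.elim (fun _ : Unit => true) fun _ : Unit => false) := by
    rintro (a | a) (b | b) h <;> simp at h ⊢
  have e2 : h = ((fun p : ℝ × ℝ => (p.1 + p.2) / Real.sqrt 2)
      ∘ Prod.map (fun z : Unit → ℝ => z ()) (fun z : Unit → ℝ => z ()))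
      ∘ fun z : Bool → ℝ => ((z ∘ fun _ : Unit => true), (z ∘ fun _ : Unit => false)) := rfl
  have hzb : Measurable fun z : Bool → ℝ => ((z ∘ fun _ : Unit => true), (z ∘ fun _ : Unit => false)) :=
    (measurable_pi_lambda _ fun i => measurable_pi_apply _).prodMk
      (measurable_pi_lambda _ fun i => measurable_pi_apply _)
  rw [e2, ← Measure.map_map (by fun_prop) hzb, map_split _ _ hb,
    ← Measure.map_map (by fun_prop) (by fun_prop), ← Measure.map_prod_map _ _ (by fun_prop) (by fun_prop),
    Measure.infinitePi_map_eval, map_pairSum]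

/-- Distinct edges receive independent standard atoms. -/
lemma map_eta [Countable V] {a : Sym2 V → Bool} (ha : Nice a) {ι : Type*} [Countable ι]
    (E : ι → Sym2 V) (hE : Function.Injective E) (haE : ∀ e, a (E e) = true) :
    (iidLaw V).map (fun U (p : ι × (ℕ × ℕ)) => eta a (atoms U) (E p.1) p.2)
      = iidG (ι × (ℕ × ℕ)) 1 := by
  have hc : ∀ e : ι, ∃ s t : V, E e = s(s, t) := fun e =>
    Sym2.ind (fun s t => ⟨s, t, rfl⟩) (E e)
  choose src tgt hst using hc
  have hadj : ∀ e, a s(src e, tgt e) = true := fun e => hst e ▸ haE e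
  have hadj' : ∀ e, a s(tgt e, src e) = true := fun e => by rw [Sym2.eq_swap]; exact hadj e
  have hne : ∀ e, src e ≠ tgt e := fun e h => ha.loopless _ (hadj e) (by simp [h])
  have hmeta : Measurable fun X : V × Slot → ℝ => fun p : ι × (ℕ × ℕ) => eta a X (E p.1) p.2 :=
    measurable_pi_lambda _ fun p => measurable_eta (a := fun _ => a) (fun _ => measurable_const)
      (fun q => measurable_pi_apply q) _ _
  rw [show (fun U (p : ι × (ℕ × ℕ)) => eta a (atoms U) (E p.1) p.2)
      = (fun X : V × Slot → ℝ => fun p : ι × (ℕ × ℕ) => eta a X (E p.1) p.2) ∘ atoms from rfl,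
    ← Measure.map_map hmeta measurable_atoms, map_atoms]
  let f : V → V × Slot := fun v => (v, none)
  let g : V × (ℕ × (ℕ × ℕ)) → V × Slot := fun q => (q.1, some q.2)
  have hinj : Function.Injective (Sum.elim f g) := by
    rintro (x | x) (y | y) h <;> simp [f, g] at h ⊢
    · exact h
    · exact Prod.ext h.1 h.2
  let F : (V → ℝ) × (V × (ℕ × (ℕ × ℕ)) → ℝ) → ι × (ℕ × ℕ) → ℝ := fun q p =>
    (q.2 (src p.1, (rank a q.1 (src p.1) (tgt p.1), p.2))
      + q.2 (tgt p.1, (rank a q.1 (tgt p.1) (src p.1), p.2))) / Real.sqrt 2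
  have hs : Measurable fun X : V × Slot → ℝ => (X ∘ f, X ∘ g) :=
    (measurable_pi_lambda _ fun i => measurable_pi_apply _).prodMk
      (measurable_pi_lambda _ fun i => measurable_pi_apply _)
  have e : (fun X : V × Slot → ℝ => fun p : ι × (ℕ × ℕ) => eta a X (E p.1) p.2)
      = F ∘ fun X => (X ∘ f, X ∘ g) := by
    funext X p
    simp only [F, Function.comp_def, f, g, hst, eta, Sym2.lift_mk]
  have hFm : Measurable F := by
    refine measurable_pi_lambda _ fun p => ?_
    have : Measurable fun q : (V → ℝ) × (V × (ℕ × (ℕ × ℕ)) → ℝ) =>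
        eta a (fun z : V × Slot => z.2.elim (q.1 z.1) fun w => q.2 (z.1, w)) (E p.1) p.2 :=
      measurable_eta (a := fun _ => a) (fun _ => measurable_const) (fun z => by
        rcases z with ⟨z, _ | w⟩ <;> simp <;> fun_prop) _ _
    simpa [eta, hst, F] using this
  rw [e, ← Measure.map_map hFm hs, iidG, map_split f g hinj]
  ext S hS
  rw [Measure.map_apply hFm hS, Measure.prod_apply (hFm hS)]
  have key : ∀ᵐ L ∂iidG V 1, (iidG (V × (ℕ × (ℕ × ℕ))) 1) (Prod.mk L ⁻¹' (F ⁻¹' S))
      = iidG (ι × (ℕ × ℕ)) 1 S := by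
    filter_upwards [ae_injective] with L hL
    let j₁ : ι × (ℕ × ℕ) → V × (ℕ × (ℕ × ℕ)) := fun p => (src p.1, (rank a L (src p.1) (tgt p.1), p.2))
    let j₂ : ι × (ℕ × ℕ) → V × (ℕ × (ℕ × ℕ)) := fun p => (tgt p.1, (rank a L (tgt p.1) (src p.1), p.2))
    have hj : Function.Injective (Sum.elim j₁ j₂) := by
      rintro (⟨p, i⟩ | ⟨p, i⟩) (⟨q, k⟩ | ⟨q, k⟩) h <;>
        simp only [Sum.elim_inl, Sum.elim_inr, j₁, j₂, Prod.mk.injEq] at h <;>
        obtain ⟨h1, h2, rfl⟩ := h
      · rw [← h1] at h2
        have h3 := rank_inj ha hL (hadj p) (h1 ▸ hadj q) h2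
        have : p = q := hE (by rw [hst, hst, h1, h3])
        rw [this]
      · rw [← h1] at h2
        have h3 := rank_inj ha hL (hadj p) (h1 ▸ hadj' q) h2
        have : p = q := hE (by rw [hst, hst, h1, h3, Sym2.eq_swap])
        subst this
        exact absurd h1 (hne p)
      · rw [← h1] at h2
        have h3 := rank_inj ha hL (hadj' p) (h1 ▸ hadj q) h2
        have : p = q := hE (by rw [hst, hst, h3, h1, Sym2.eq_swap])
        subst this
        exact absurd h1.symm (hne p)
      · rw [← h1] at h2
        have h3 := rank_inj ha hL (hadj' p) (h1 ▸ hadj' q) h2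
        have : p = q := hE (by rw [hst, hst, h3, h1])
        rw [this]
    have hm1 : Measurable fun Y : V × (ℕ × (ℕ × ℕ)) → ℝ => (Y ∘ j₁, Y ∘ j₂) :=
      (measurable_pi_lambda _ fun i => measurable_pi_apply _).prodMk
        (measurable_pi_lambda _ fun i => measurable_pi_apply _)
    have hm2 : Measurable fun p : (ι × (ℕ × ℕ) → ℝ) × (ι × (ℕ × ℕ) → ℝ) =>
        fun i => (p.1 i + p.2 i) / Real.sqrt 2 := measurable_pi_lambda _ fun i => by fun_prop
    have e2 : Prod.mk L ⁻¹' (F ⁻¹' S) = ((fun p : (ι × (ℕ × ℕ) → ℝ) × (ι × (ℕ × ℕ) → ℝ) =>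
        fun i => (p.1 i + p.2 i) / Real.sqrt 2) ∘ fun Y => (Y ∘ j₁, Y ∘ j₂)) ⁻¹' S := rfl
    rw [e2, ← Measure.map_apply (hm2.comp hm1) hS, ← Measure.map_map hm2 hm1, iidG,
      map_split j₁ j₂ hj, ← iidG, map_pair_iidG, iidG]
  rw [show (Measure.infinitePi fun _ : V × (ℕ × (ℕ × ℕ)) => gaussianReal 0 1) = iidG _ 1 from rfl,
    show (Measure.infinitePi fun _ : V => gaussianReal 0 1) = iidG _ 1 from rfl, lintegral_congr_ae key]
  simp [iidG]

end Vale.Agent.P143
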