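import Vale.Agent.P143.Capacity

/-!
Kirchhoff's formula for the edge marginal of a weighted spanning tree.
-/

namespace Vale.Agent.P143

open SimpleGraph
open scoped Classical

variable {K : Type*}

/-- Indicator of a proposition, in `ℝ`. -/
noncomputable def ind (P : Prop) : ℝ := if P then 1 else 0

/-- Removing the edge `s(x, y)`. -/
def cut (T : SimpleGraph K) (x y : K) : SimpleGraph K := T.deleteEdges {s(x, y)}

lemma cut_comm (T : SimpleGraph K) (x y : K) : cut T x y = cut T y x := by
  simp [cut, Sym2.eq_swap]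

lemma not_reach_cut {T : SimpleGraph K} (hT : T.IsTree) {x y : K} (h : T.Adj x y) :
    ¬ (cut T x y).Reachable x y := by
  have := isAcyclic_iff_forall_adj_isBridge.1 hT.isAcyclic h
  rwa [isBridge_iff] at this

lemma reach_cut_or {T : SimpleGraph K} (hT : T.IsTree) (x y v : K) :
    (cut T x y).Reachable x v ∨ (cut T x y).Reachable y v := by
  obtain ⟨p⟩ := hT.connected.preconnected v x
  induction p with
  | nil => exact Or.inl .rfl
  | @cons a b c hab q ih =>
    by_cases he : s(a, b) = s(c, y)
    · rcases Sym2.eq_iff.1 he with ⟨rfl, _⟩ | ⟨rfl, _⟩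
      · exact Or.inl .rfl
      · exact Or.inr .rfl
    · have hadj : (cut T c y).Adj b a := by
        simp only [cut, deleteEdges_adj, Set.mem_singleton_iff]
        exact ⟨hab.symm, by rwa [Sym2.eq_swap]⟩
      exact ih.imp (fun h => h.trans hadj.reachable) (fun h => h.trans hadj.reachable)

lemma reach_cut_iff {T : SimpleGraph K} (hT : T.IsTree) {x y v : K} (h : T.Adj x y) :
    (cut T x y).Reachable x v ↔ ¬ (cut T x y).Reachable y v :=
  ⟨fun h1 h2 => not_reach_cut hT h (h1.trans h2.symm), fun h2 => (reach_cut_or hT x y v).resolve_right h2⟩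

/-- In a tree every vertex other than `x` lies behind exactly one neighbour of `x`. -/
lemma existsUnique_branch {T : SimpleGraph K} (hT : T.IsTree) {x v : K} (hv : v ≠ x) :
    ∃! y, T.Adj x y ∧ (cut T x y).Reachable y v := by
  have hex : ∀ {y}, T.Adj x y → (cut T x y).Reachable y v →
      ∃ p : T.Walk x v, p.IsPath ∧ p.snd = y := by
    intro y hy hr
    obtain ⟨q, hq⟩ := hr.exists_isPath
    have hle : cut T x y ≤ T := deleteEdges_le _
    refine ⟨.cons hy (q.mapLe hle), Walk.IsPath.cons (hq.mapLe hle) ?_, Walk.snd_cons _ hy⟩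
    intro hx
    rw [Walk.support_mapLe_eq_support] at hx
    exact not_reach_cut hT hy ⟨(q.takeUntil x hx).reverse⟩
  obtain ⟨p, hp⟩ := (hT.connected.preconnected x v).exists_isPath
  cases p with
  | nil => exact absurd rfl hv
  | @cons _ y _ hy q =>
    rw [Walk.cons_isPath_iff] at hp
    refine ⟨y, ⟨hy, ?_⟩, ?_⟩
    · refine ⟨q.toDeleteEdges {s(x, y)} fun e he => ?_⟩
      rintro rfl
      exact hp.2 (q.fst_mem_support_of_mem_edges he)
    · rintro z ⟨hz, hzr⟩
      obtain ⟨p', hp', rfl⟩ := hex hz hzr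
      have := (hT.existsUnique_path x v).unique hp' (hp.1.cons hp.2 (h := hy))
      rw [this]; exact Walk.snd_cons _ hy

variable [Fintype K]

lemma sum_branch {T : SimpleGraph K} (hT : T.IsTree) (x v : K) :
    ∑ y, (if T.Adj x y then ind ((cut T x y).Reachable y v) else 0) = ind (v ≠ x) := by
  by_cases hv : v = x
  · subst hv
    refine (Finset.sum_eq_zero fun y _ => ?_).trans (by simp [ind])
    split_ifs with h
    · simp only [ind, ite_eq_right_iff, one_ne_zero, imp_false]
      exact fun h' => not_reach_cut hT h h'.symm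
    · rfl
  · obtain ⟨y, ⟨hy, hr⟩, huniq⟩ := existsUnique_branch hT hv
    rw [Finset.sum_eq_single y]
    · simp [ind, hy, hr, hv]
    · intro z _ hz
      split_ifs with h
      · simp only [ind, ite_eq_right_iff, one_ne_zero, imp_false]
        exact fun h' => hz (huniq z ⟨h, h'⟩)
      · rfl
    · simp

/-- Weight of a tree: the exponential of the sum of `y` over its edges. -/
noncomputable def treeWt (y : Sym2 K → ℝ) (T : SimpleGraph K) : ℝ :=
  Real.exp (∑ f, if f ∈ T.edgeSet then y f else 0)

omit [Fintype K] in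
lemma sup_edge_cut {F : SimpleGraph K} {u v : K} (huv : u ≠ v) (hF : ¬ F.Adj u v) :
    cut (F ⊔ edge u v) u v = F := by
  ext a b
  simp only [cut, deleteEdges_adj, sup_adj, Set.mem_singleton_iff]
  constructor
  · rintro ⟨h | h, hne⟩
    · exact h
    · rw [adj_edge] at h; exact absurd h.1.symm hne
  · intro h
    refine ⟨Or.inl h, fun he => hF ?_⟩
    rwa [← mem_edgeSet, ← he, mem_edgeSet]

omit [Fintype K] in
lemma cut_sup_edge {T : SimpleGraph K} {u v : K} (h : T.Adj u v) : cut T u v ⊔ edge u v = T := by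
  ext a b
  simp only [cut, deleteEdges_adj, sup_adj, Set.mem_singleton_iff]
  constructor
  · rintro (h1 | h1)
    · exact h1.1
    · rw [adj_edge] at h1; rwa [← mem_edgeSet, ← h1.1, mem_edgeSet]
  · intro hab
    by_cases he : s(a, b) = s(u, v)
    · exact Or.inr ((adj_edge _ _).2 ⟨he.symm, hab.ne⟩)
    · exact Or.inl ⟨hab, he⟩

lemma treeWt_sup_edge (y : Sym2 K → ℝ) {F : SimpleGraph K} {u v : K} (huv : u ≠ v)
    (hF : ¬ F.Adj u v) : treeWt y (F ⊔ edge u v) = treeWt y F * Real.exp (y s(u, v)) := by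
  rw [treeWt, treeWt, ← Real.exp_add]
  congr 1
  rw [← Fintype.sum_ite_eq' s(u, v) y, ← Finset.sum_add_distrib]
  refine Finset.sum_congr rfl fun f _ => ?_
  simp only [edgeSet_sup, edgeSet_edge_of_ne huv, Set.mem_union, Set.mem_singleton_iff]
  by_cases hf : f = s(u, v)
  · subst hf; simp [hF]
  · simp [hf]

omit [Fintype K] in
/-- Exchanging an edge of a tree against one across the cut gives a tree. -/
lemma isTree_exchange {T : SimpleGraph K} (hT : T.IsTree) {p q u v : K} (hpq : T.Adj p q)
    (huv : ¬ (cut T p q).Reachable u v) : (cut T p q ⊔ edge u v).IsTree := by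
  have hne : u ≠ v := fun h => huv (h ▸ .rfl)
  refine ⟨?_, ?_⟩
  · set F' := cut T p q ⊔ edge u v
    have hle : cut T p q ≤ F' := le_sup_left
    have huv' : F'.Reachable u v :=
      Adj.reachable (Or.inr ((adj_edge _ _).2 ⟨rfl, hne⟩))
    have hpq' : F'.Reachable p q := by
      rcases reach_cut_or hT p q u with h1 | h1 <;> rcases reach_cut_or hT p q v with h2 | h2
      · exact absurd (h1.symm.trans h2) huv
      · exact ((h1.mono hle).trans huv').trans (h2.mono hle).symm
      · exact (((h2.mono hle).trans huv'.symm).trans (h1.mono hle).symm)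
      · exact absurd (h1.symm.trans h2) huv
    have : Nonempty K := ⟨p⟩
    refine ⟨fun a b => ?_⟩
    have key : ∀ a, F'.Reachable p a := fun a =>
      (reach_cut_or hT p q a).elim (fun h => h.mono hle) fun h => hpq'.trans (h.mono hle)
    exact (key a).symm.trans (key b)
  · exact (hT.isAcyclic.anti (deleteEdges_le _)).sup_edge_of_not_reachable huv

variable (H : SimpleGraph K) (y : Sym2 K → ℝ)

/-- The spanning trees of a graph on a finite vertex type. -/
noncomputable def trees : Finset (SimpleGraph K) :=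
  Finset.univ.filter fun T => T ≤ H ∧ T.IsTree

lemma trees_nonempty (hH : H.Connected) : (trees H).Nonempty := by
  obtain ⟨T, h1, h2⟩ := hH.exists_isTree_le
  exact ⟨T, by simp [trees, h1, h2]⟩

variable {s t : K}

/-- Weighted count of the trees through `s t` in which `x` is on the side of `s`. -/
noncomputable def sideWt (s t x : K) : ℝ :=
  ∑ T ∈ (trees H).filter (fun T => T.Adj s t),
    treeWt y T / Real.exp (y s(s, t)) * ind ((cut T s t).Reachable x s)

/-- Total weight. -/
noncomputable def totWt : ℝ := ∑ T ∈ trees H, treeWt y T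

/-- Conductance array. -/
noncomputable def cond (x z : K) : ℝ := if H.Adj x z then Real.exp (y s(x, z)) else 0

omit [Fintype K] in
lemma cond_comm (x z : K) : cond H y x z = cond H y z x := by
  simp [cond, H.adj_comm, Sym2.eq_swap]

lemma laplace_sideWt (hst : H.Adj s t) (x : K) :
    ∑ z, cond H y x z * (sideWt H y s t x - sideWt H y s t z)
      = totWt H y * (ind (t ≠ x) - ind (s ≠ x)) := by
  let A : Finset (K × SimpleGraph K) := Finset.univ.filter fun a =>
    a.2 ∈ trees H ∧ a.2.Adj s t ∧ H.Adj x a.1 ∧ ¬ (cut a.2 s t).Reachable x a.1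
  let B : Finset (K × SimpleGraph K) := Finset.univ.filter fun b =>
    b.2 ∈ trees H ∧ b.2.Adj x b.1 ∧ ¬ (cut b.2 x b.1).Reachable s t
  let α : K × SimpleGraph K → ℝ := fun a =>
    cond H y x a.1 * (treeWt y a.2 / Real.exp (y s(s, t))) *
      (ind ((cut a.2 s t).Reachable x s) - ind ((cut a.2 s t).Reachable a.1 s))
  let β : K × SimpleGraph K → ℝ := fun b =>
    treeWt y b.2 * (ind ((cut b.2 x b.1).Reachable b.1 t) - ind ((cut b.2 x b.1).Reachable b.1 s))
  have hL : ∑ z, cond H y x z * (sideWt H y s t x - sideWt H y s t z) = ∑ a ∈ A, α a := by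
    simp only [A, Finset.sum_filter, Fintype.sum_prod_type]
    refine Finset.sum_congr rfl fun z _ => ?_
    rw [sideWt, sideWt, ← Finset.sum_sub_distrib, Finset.mul_sum]
    rw [Finset.sum_filter]
    rw [← Finset.sum_subset (Finset.subset_univ (trees H))
      (fun T _ hT => by rw [if_neg]; exact fun h => hT h.1)]
    refine Finset.sum_congr rfl fun T hT => ?_
    by_cases hTst : T.Adj s t
    swap; · simp [hTst]
    by_cases hxz : H.Adj x z
    swap; · simp [hxz, cond]
    by_cases hr : (cut T s t).Reachable x z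
    · have : (cut T s t).Reachable x s ↔ (cut T s t).Reachable z s :=
        ⟨fun h => hr.symm.trans h, fun h => hr.trans h⟩
      simp [hr, this]
    · simp only [α, hT, hTst, hxz, hr, and_self, not_false_eq_true, if_true]
      ring
  have hR : totWt H y * (ind (t ≠ x) - ind (s ≠ x)) = ∑ b ∈ B, β b := by
    simp only [B, Finset.sum_filter, Fintype.sum_prod_type_right]
    rw [totWt, Finset.sum_mul, ← Finset.sum_subset (Finset.subset_univ (trees H))
      (f := fun T => ∑ z, _) (fun T _ hT => Finset.sum_eq_zero fun z _ => by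
        rw [if_neg]; exact fun h => hT h.1)]
    refine Finset.sum_congr rfl fun T hT => ?_
    have hT' : T.IsTree := by simp only [trees, Finset.mem_filter] at hT; exact hT.2.2
    rw [← sum_branch hT' x t, ← sum_branch hT' x s, ← Finset.sum_sub_distrib, Finset.mul_sum]
    refine Finset.sum_congr rfl fun z _ => ?_
    by_cases hxz : T.Adj x z
    swap; · simp [hxz]
    by_cases hr : (cut T x z).Reachable s t
    · have : (cut T x z).Reachable z t ↔ (cut T x z).Reachable z s :=
        ⟨fun h => h.trans hr.symm, fun h => h.trans hr⟩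
      simp [hr, this]
    · simp [β, hT, hxz, hr]
  rw [hL, hR]
  refine Finset.sum_nbij' (fun a => (a.1, cut a.2 s t ⊔ edge x a.1))
    (fun b => (b.1, cut b.2 x b.1 ⊔ edge s t)) ?_ ?_ ?_ ?_ ?_
  · rintro ⟨z, T⟩ h
    simp only [A, B, Finset.mem_filter, Finset.mem_univ, true_and, trees] at h ⊢
    obtain ⟨⟨hTH, hT⟩, hTst, hxz, hr⟩ := h
    have hn : ¬ (cut T s t).Adj x z := fun h => hr h.reachable
    refine ⟨⟨sup_le ((deleteEdges_le _).trans hTH) ((edge_le_iff _).2 (Or.inr hxz)),
      isTree_exchange hT hTst hr⟩, Or.inr ((adj_edge _ _).2 ⟨rfl, hxz.ne⟩), ?_⟩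
    rw [sup_edge_cut hxz.ne hn]; exact not_reach_cut hT hTst
  · rintro ⟨z, T⟩ h
    simp only [A, B, Finset.mem_filter, Finset.mem_univ, true_and, trees] at h ⊢
    obtain ⟨⟨hTH, hT⟩, hxz, hr⟩ := h
    have hn : ¬ (cut T x z).Adj s t := fun h => hr h.reachable
    refine ⟨⟨sup_le ((deleteEdges_le _).trans hTH) ((edge_le_iff _).2 (Or.inr hst)),
      isTree_exchange hT hxz hr⟩, Or.inr ((adj_edge _ _).2 ⟨rfl, hst.ne⟩), hTH hxz, ?_⟩
    rw [sup_edge_cut hst.ne hn]; exact not_reach_cut hT hxz
  · rintro ⟨z, T⟩ h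
    simp only [A, Finset.mem_filter, Finset.mem_univ, true_and] at h
    obtain ⟨_, hTst, hxz, hr⟩ := h
    have hn : ¬ (cut T s t).Adj x z := fun h => hr h.reachable
    simp [sup_edge_cut hxz.ne hn, cut_sup_edge hTst]
  · rintro ⟨z, T⟩ h
    simp only [B, Finset.mem_filter, Finset.mem_univ, true_and] at h
    obtain ⟨_, hxz, hr⟩ := h
    have hn : ¬ (cut T x z).Adj s t := fun h => hr h.reachable
    simp [sup_edge_cut hst.ne hn, cut_sup_edge hxz]
  · rintro ⟨z, T⟩ h
    simp only [A, Finset.mem_filter, Finset.mem_univ, true_and, trees] at h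
    obtain ⟨⟨_, hT⟩, hTst, hxz, hr⟩ := h
    have hn : ¬ (cut T s t).Adj x z := fun h => hr h.reachable
    have hn' : ¬ (cut T s t).Adj s t := fun h => not_reach_cut hT hTst h.reachable
    set F := cut T s t with hF
    have hw : treeWt y T = treeWt y F * Real.exp (y s(s, t)) := by
      conv_lhs => rw [← cut_sup_edge hTst]
      exact treeWt_sup_edge y hTst.ne hn'
    have hs : F.Reachable x s ↔ F.Reachable z t := by
      constructor
      · intro h1
        rcases reach_cut_or hT s t z with h2 | h2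
        · exact absurd (h1.trans h2) hr
        · exact h2.symm
      · intro h1
        rcases reach_cut_or hT s t x with h2 | h2
        · exact h2.symm
        · exact absurd (h2.symm.trans h1.symm) hr
    simp only [α, β, sup_edge_cut hxz.ne hn, treeWt_sup_edge y hxz.ne hn, cond, hxz, if_true,
      ← hF, hw, hs]
    field_simp

lemma sum_sum_sym2 (g : Sym2 K → ℝ) (hg : ∀ x, g s(x, x) = 0) :
    ∑ x, ∑ z, g s(x, z) = 2 * ∑ f, g f := by
  rw [← Fintype.sum_prod_type', ← Finset.sum_fiberwise Finset.univ (fun p : K × K => s(p.1, p.2)),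
    Finset.mul_sum]
  refine Finset.sum_congr rfl fun f _ => ?_
  induction f using Sym2.ind with
  | h x z =>
    rw [Finset.sum_congr rfl (g := fun _ => g s(x, z)) fun p hp => by
      rw [(Finset.mem_filter.1 hp).2]]
    by_cases hxz : x = z
    · subst hxz; simp [hg]
    · have : (Finset.univ.filter fun p : K × K => s(p.1, p.2) = s(x, z)) = {(x, z), (z, x)} := by
        ext ⟨a, b⟩; simp
      rw [this, Finset.sum_const, Finset.card_pair (by simp [hxz]), nsmul_eq_mul, Nat.cast_ofNat]

/-- Indicator array of the edges of `H`. -/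
noncomputable def edgeBool (H : SimpleGraph K) : Sym2 K → Bool :=
  fun f => decide (f ∈ H.edgeSet)

lemma full_energy (ψ : K → ℝ) :
    2 * ∑ f, (if f ∈ H.edgeSet then Real.exp (y f) else 0) * dd ψ f
      = ∑ x, ∑ z, cond H y x z * (ψ x - ψ z) ^ 2 := by
  rw [← sum_sum_sym2 _ (fun x => by simp)]
  simp [cond]

lemma full_energy_cube (hst : H.Adj s t) {ψ : K → ℝ} (hψ : ψ ∈ cube s(s, t)) :
    ∑ f, (if f ∈ H.edgeSet then Real.exp (y f) else 0) * dd ψ f
      = Real.exp (y s(s, t)) + energy Finset.univ (wgt (edgeBool H) y s(s, t)) ψ := by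
  rw [energy, ← Fintype.sum_ite_eq' s(s, t) (fun f => Real.exp (y f)), ← Finset.sum_add_distrib]
  refine Finset.sum_congr rfl fun f _ => ?_
  by_cases hf : f = s(s, t)
  · subst hf; simp [wgt, hst, hψ.2]
  · simp [wgt, edgeBool, hf]

lemma totWt_pos (hH : H.Connected) : 0 < totWt H y :=
  Finset.sum_pos (fun _ _ => Real.exp_pos _) (trees_nonempty H hH)

lemma marg_edgeBool (hH : H.Connected) (hst : H.Adj s t) :
    marg (edgeBool H) y s(s, t)
      = (∑ T ∈ trees H, if s(s, t) ∈ T.edgeSet then treeWt y T else 0) / totWt H y := by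
  have hne : ¬ (s(s, t)).IsDiag := by simpa using hst.ne
  set ce := Real.exp (y s(s, t)) with hce
  set Z := totWt H y
  set N := ∑ T ∈ (trees H).filter (fun T => T.Adj s t), treeWt y T with hN
  have hNe : (∑ T ∈ trees H, if s(s, t) ∈ T.edgeSet then treeWt y T else 0) = N := by
    rw [hN, Finset.sum_filter]; simp
  have hside_s : sideWt H y s t s = N / ce := by
    rw [hN, Finset.sum_div, sideWt]; simp [ind, hce]
  have hside_t : sideWt H y s t t = 0 := by
    refine Finset.sum_eq_zero fun T hT => ?_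
    simp only [trees, Finset.mem_filter] at hT
    have : ¬ (cut T s t).Reachable t s := fun h => not_reach_cut hT.1.2.2 hT.2 h.symm
    simp [ind, this]
  obtain ⟨T0, hT0, hT0e⟩ : ∃ T ∈ trees H, T.Adj s t := by
    obtain ⟨T, hT⟩ := trees_nonempty H hH
    simp only [trees, Finset.mem_filter, Finset.mem_univ, true_and] at hT ⊢
    obtain ⟨p⟩ := hT.2.connected.preconnected s t
    by_cases hTst : T.Adj s t
    · exact ⟨T, hT, hTst⟩
    have hex : ∃ a b, T.Adj a b ∧ ¬ (cut T a b).Reachable s t := by
      obtain ⟨q, hq⟩ := (hT.2.connected.preconnected s t).exists_isPath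
      cases q with
      | nil => exact absurd hst (H.loopless.irrefl s)
      | @cons _ b _ hb r =>
        rw [Walk.cons_isPath_iff] at hq
        refine ⟨s, b, hb, fun h => not_reach_cut hT.2 hb (h.trans ?_)⟩
        exact ⟨(r.toDeleteEdges {s(s, b)} fun e he => by
          rintro rfl; exact hq.2 (r.fst_mem_support_of_mem_edges he)).reverse⟩
    obtain ⟨a, b, hab, hsep⟩ := hex
    exact ⟨cut T a b ⊔ edge s t, ⟨sup_le ((deleteEdges_le _).trans hT.1) ((edge_le_iff _).2 (Or.inr hst)),
      isTree_exchange hT.2 hab hsep⟩, Or.inr ((adj_edge _ _).2 ⟨rfl, hst.ne⟩)⟩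
  have hNpos : 0 < N :=
    Finset.sum_pos (fun _ _ => Real.exp_pos _) ⟨T0, Finset.mem_filter.2 ⟨hT0, hT0e⟩⟩
  have hs0 : 0 < sideWt H y s t s := by rw [hside_s]; positivity
  set φ : K → ℝ := fun x => sideWt H y s t x / sideWt H y s t s with hφdef
  have hφs : φ s = 1 := div_self hs0.ne'
  have hφt : φ t = 0 := by simp [φ, hside_t]
  have hφ : φ ∈ cube s(s, t) := by
    refine ⟨fun x => ?_, by simp [hφs, hφt]⟩
    have h0 : ∀ T : SimpleGraph K, 0 ≤ treeWt y T / ce := fun T =>
      div_nonneg (Real.exp_pos _).le (Real.exp_pos _).le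
    have h1 : 0 ≤ sideWt H y s t x := Finset.sum_nonneg fun T _ =>
      mul_nonneg (h0 T) (by simp only [ind]; split_ifs <;> norm_num)
    have h2 : sideWt H y s t x ≤ sideWt H y s t s := Finset.sum_le_sum fun T _ =>
      mul_le_mul_of_nonneg_left (by simp only [ind, Reachable.refl, if_true]; split_ifs <;> norm_num) (h0 T)
    exact ⟨div_nonneg h1 hs0.le, (div_le_one hs0).2 h2⟩
  have hLφ : ∀ x, ∑ z, cond H y x z * (φ x - φ z)
      = Z / sideWt H y s t s * (ind (t ≠ x) - ind (s ≠ x)) := by
    intro x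
    rw [div_mul_eq_mul_div, ← laplace_sideWt H y hst x, Finset.sum_div]
    exact Finset.sum_congr rfl fun z _ => by simp only [φ]; ring
  have hcross : ∀ d : K → ℝ, ∑ x, ∑ z, cond H y x z * ((φ x - φ z) * (d x - d z))
      = 2 * (Z / sideWt H y s t s * (d s - d t)) := by
    intro d
    have e1 : ∑ x, ∑ z, cond H y x z * ((φ x - φ z) * d x)
        = Z / sideWt H y s t s * (d s - d t) := by
      simp_rw [← mul_assoc, ← Finset.sum_mul, hLφ, mul_assoc, ← Finset.mul_sum, sub_mul,
        Finset.sum_sub_distrib]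
      congr 1
      have hi : ∀ v, ∑ x, ind (v ≠ x) * d x = (∑ x, d x) - d v := by
        intro v
        rw [← Fintype.sum_ite_eq v d, ← Finset.sum_sub_distrib]
        exact Finset.sum_congr rfl fun x _ => by by_cases h : v = x <;> simp [ind, h]
      rw [hi, hi]; ring
    have e2 : ∑ x, ∑ z, cond H y x z * ((φ x - φ z) * d z)
        = -(Z / sideWt H y s t s * (d s - d t)) := by
      rw [Finset.sum_comm, ← e1, ← Finset.sum_neg_distrib]
      refine Finset.sum_congr rfl fun x _ => ?_
      rw [← Finset.sum_neg_distrib]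
      exact Finset.sum_congr rfl fun z _ => by rw [cond_comm H y z x]; ring
    simp_rw [mul_sub, Finset.sum_sub_distrib, e1, e2]; ring
  set E := fun ψ => energy Finset.univ (wgt (edgeBool H) y s(s, t)) ψ
  have hEφ : ce + E φ = Z / sideWt H y s t s := by
    have := hcross φ
    simp_rw [← sq, ← full_energy] at this
    rw [full_energy_cube H y hst hφ, hφs, hφt] at this
    linarith
  have hmin : ∀ ψ ∈ cube s(s, t), E φ ≤ E ψ := by
    intro ψ hψ
    have hd : (ψ s = 1 ∧ ψ t = 0) ∨ (ψ s = 0 ∧ ψ t = 1) := by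
      obtain ⟨h1, h2⟩ := hψ
      have a1 := h1 s; have a2 := h1 t
      simp only [Set.mem_Icc, dd_mk] at a1 a2 h2
      rcases sq_eq_one_iff.1 h2 with h | h
      · exact Or.inl ⟨by linarith, by linarith⟩
      · exact Or.inr ⟨by linarith, by linarith⟩
    have key : ∀ ψ : K → ℝ, ψ s = 1 → ψ t = 0 →
        ∑ x, ∑ z, cond H y x z * (φ x - φ z) ^ 2 ≤ ∑ x, ∑ z, cond H y x z * (ψ x - ψ z) ^ 2 := by
      intro ψ h1 h2
      have := hcross fun x => ψ x - φ x
      simp only [h1, h2, hφs, hφt, sub_self, mul_zero] at this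
      have hnn : 0 ≤ ∑ x, ∑ z, cond H y x z * ((ψ x - φ x) - (ψ z - φ z)) ^ 2 :=
        Finset.sum_nonneg fun x _ => Finset.sum_nonneg fun z _ =>
          mul_nonneg (by simp only [cond]; split_ifs <;> positivity) (sq_nonneg _)
      have : ∑ x, ∑ z, cond H y x z * (ψ x - ψ z) ^ 2
          = (∑ x, ∑ z, cond H y x z * (φ x - φ z) ^ 2)
            + 2 * (∑ x, ∑ z, cond H y x z * ((φ x - φ z) * ((ψ x - φ x) - (ψ z - φ z))))
            + ∑ x, ∑ z, cond H y x z * ((ψ x - φ x) - (ψ z - φ z)) ^ 2 := by
        simp only [Finset.mul_sum, ← Finset.sum_add_distrib]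
        exact Finset.sum_congr rfl fun x _ => Finset.sum_congr rfl fun z _ => by ring
      linarith
    have h2 : ∑ x, ∑ z, cond H y x z * (φ x - φ z) ^ 2 ≤ ∑ x, ∑ z, cond H y x z * (ψ x - ψ z) ^ 2 := by
      rcases hd with ⟨a, b⟩ | ⟨a, b⟩
      · exact key ψ a b
      · convert key (fun x => 1 - ψ x) (by simp [a]) (by simp [b]) using 4
        ring
    rw [← full_energy, ← full_energy, full_energy_cube H y hst hφ, full_energy_cube H y hst hψ] at h2
    simp only [E]; linarith
  have hnice : Nice (edgeBool H) := ⟨fun v => Set.toFinite _, fun f hf => by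
    simpa [edgeBool] using H.not_isDiag_of_mem_edgeSet (by simpa [edgeBool] using hf)⟩
  have hcap : cap (edgeBool H) y s(s, t) = E φ := by
    refine le_antisymm (ciSup_le fun S => (capS_le (wgt_nonneg _ _ _) hφ).trans ?_)
      ((le_capS hne hmin).trans (capS_le_cap hnice y hne Finset.univ))
    exact Finset.sum_le_sum_of_subset_of_nonneg (Finset.subset_univ S)
      fun f _ _ => mul_nonneg (wgt_nonneg ..) (dd_nonneg ..)
  rw [hNe, marg, if_pos (by simpa [edgeBool] using hst), hcap, ← hce, hEφ, hside_s]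
  have : ce ≠ 0 := (Real.exp_pos _).ne'
  field_simp

end Vale.Agent.P143
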