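import Vale.Agent.P143.Flow
import Vale.Agent.P143.Tree
import Vale.Agent.P143.Euler
import Vale.Agent.P143.Labels

/-!
On a finite subgraph the flow has the law of a tree indicator observed in Gaussian noise.
-/

namespace Vale.Agent.P143

open MeasureTheory ProbabilityTheory Filter Set
open scoped NNReal ENNReal Topology unitInterval Classical

variable {V K : Type*}

lemma energy_preimage (j : K → V) (hj : Function.Injective j) (S : Finset (Sym2 V)) (a : Sym2 V → Bool)
    (y : Sym2 V → ℝ) (ha : ∀ f, a f = true → f ∈ range (Sym2.map j)) (e : Sym2 K) (ψ : V → ℝ) :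
    energy S (wgt a y (e.map j)) ψ
      = energy (S.preimage (Sym2.map j) (Sym2.map.injective hj).injOn)
          (wgt (fun f => a (f.map j)) (fun f => y (f.map j)) e) (ψ ∘ j) := by
  have hdd : ∀ f : Sym2 K, dd (ψ ∘ j) f = dd ψ (f.map j) := fun f => by
    induction f using Sym2.ind with | h s t => simp
  have hw : ∀ f : Sym2 K, wgt (fun g => a (g.map j)) (fun g => y (g.map j)) e f
      = wgt a y (e.map j) (f.map j) := fun f => by
    simp [wgt, (Sym2.map.injective hj).eq_iff]
  simp only [energy, hdd, hw]
  refine (Finset.sum_preimage (Sym2.map j) S _ (fun f => wgt a y (e.map j) f * dd ψ f) ?_).symm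
  intro f _ hf
  have : a f ≠ true := fun h => hf (ha f h)
  simp [wgt, this]

lemma marg_embed (j : K → V) (hj : Function.Injective j) {a : Sym2 V → Bool}
    (ha : ∀ f, a f = true → f ∈ range (Sym2.map j)) (hn : Nice a) (y : Sym2 V → ℝ) (e : Sym2 K) :
    marg a y (e.map j) = marg (fun f => a (f.map j)) (fun f => y (f.map j)) e := by
  by_cases hae : a (e.map j) = true
  swap
  · simp [marg, hae]
  set a' := fun f : Sym2 K => a (f.map j)
  set y' := fun f : Sym2 K => y (f.map j)
  have hne : ¬ (e.map j).IsDiag := hn.loopless _ hae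
  have hn' : Nice a' := ⟨fun v => ((hn.loc (j v)).preimage (Sym2.map.injective hj).injOn).subset
      fun f hf => ⟨hf.1, Sym2.mem_map.2 ⟨v, hf.2, rfl⟩⟩,
    fun f hf hd => hn.loopless _ hf (by
      induction f using Sym2.ind with | h s t => simp_all)⟩
  have hne' : ¬ e.IsDiag := hn'.loopless e hae
  have hdd : ∀ (ψ : V → ℝ) (f : Sym2 K), dd (ψ ∘ j) f = dd ψ (f.map j) := fun ψ f => by
    induction f using Sym2.ind with | h s t => simp
  have h1 : cap a y (e.map j) ≤ cap a' y' e := by
    refine ciSup_le fun S => ?_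
    refine le_trans ?_ (capS_le_cap hn' y' hne' (S.preimage (Sym2.map j) (Sym2.map.injective hj).injOn))
    refine le_capS hne' fun φ hφ => ?_
    have hext : Function.extend j φ 0 ∘ j = φ := by funext v; simp [hj.extend_apply]
    refine (capS_le (ψ := Function.extend j φ 0) (wgt_nonneg _ _ _) ⟨fun v => ?_, ?_⟩).trans ?_
    · by_cases hv : ∃ k, j k = v
      · obtain ⟨k, rfl⟩ := hv; rw [hj.extend_apply]; exact hφ.1 k
      · rw [Function.extend_apply' _ _ _ hv]; simp
    · rw [← hdd, hext]; exact hφ.2
    · rw [energy_preimage j hj S a y ha, hext]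
  have h2 : cap a' y' e ≤ cap a y (e.map j) := by
    refine ciSup_le fun S => ?_
    refine le_trans ?_ (capS_le_cap hn y hne (S.map ⟨Sym2.map j, Sym2.map.injective hj⟩))
    refine le_capS hne fun ψ hψ => ?_
    refine (capS_le (ψ := ψ ∘ j) (wgt_nonneg _ _ _) ⟨fun v => hψ.1 _, ?_⟩).trans ?_
    · rw [hdd]; exact hψ.2
    · rw [energy_preimage j hj _ a y ha]
      refine le_of_eq ?_
      congr 1
      ext f; simp [(Sym2.map.injective hj).eq_iff]
  simp only [marg, hae, if_true, a', y', le_antisymm h1 h2]

variable {G : SimpleGraph V} (H : G.Subgraph)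

/-- The edge indicator of a subgraph. -/
noncomputable def subBool : Sym2 V → Bool := fun f => decide (f ∈ H.edgeSet)

lemma subBool_true {f : Sym2 V} : subBool H f = true ↔ f ∈ H.edgeSet := by simp [subBool]

lemma subBool_range (f : Sym2 V) (hf : subBool H f = true) :
    f ∈ range (Sym2.map (Subtype.val : H.verts → V)) := by
  rw [subBool_true] at hf
  induction f using Sym2.ind with
  | h u v => exact ⟨s(⟨u, H.edge_vert hf⟩, ⟨v, H.edge_vert (H.symm.symm _ _ hf)⟩), by simp⟩

lemma finite_edgeSet (hfin : H.verts.Finite) : H.edgeSet.Finite := by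
  have := hfin.to_subtype
  exact (Set.finite_range (Sym2.map (Subtype.val : H.verts → V))).subset fun f hf =>
    subBool_range H f ((subBool_true H).2 hf)

lemma nice_subBool (hfin : H.verts.Finite) : Nice (subBool H) :=
  ⟨fun v => (finite_edgeSet H hfin).subset fun f hf => (subBool_true H).1 hf.1,
    fun f hf => G.not_isDiag_of_mem_edgeSet (H.edgeSet_subset ((subBool_true H).1 hf))⟩

lemma subBool_map (f : Sym2 H.verts) : subBool H (f.map Subtype.val) = edgeBool H.coe f := by
  induction f using Sym2.ind with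
  | h u v => simp [subBool, edgeBool]

/-- Extend an array on the edges of `H` by zero. -/
noncomputable def extEdge (y : H.edgeSet → ℝ) : Sym2 V → ℝ :=
  fun f => if h : f ∈ H.edgeSet then y ⟨f, h⟩ else 0

/-- The indicator of a spanning tree. -/
noncomputable def treeVec (T : spanningTrees H) (e : H.edgeSet) : ℝ :=
  if usesEdge T.1 e.1 then 1 else 0

lemma dot_treeVec [Fintype H.verts] [Fintype H.edgeSet] (T : spanningTrees H) (y : H.edgeSet → ℝ) :
    dot (treeVec H T) y = ∑ f, if f ∈ T.1.edgeSet then extEdge H y (f.map Subtype.val) else 0 := by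
  simp only [dot, treeVec, ite_mul, one_mul, zero_mul, ← Finset.sum_filter]
  symm
  have hmem : ∀ f ∈ T.1.edgeSet, f.map Subtype.val ∈ H.edgeSet := fun f hf => by
    induction f using Sym2.ind with
    | h u v => exact T.2.1 hf
  refine Finset.sum_bij (fun f hf => ⟨f.map Subtype.val, hmem f (Finset.mem_filter.1 hf).2⟩) ?_ ?_ ?_ ?_
  · intro f hf
    exact Finset.mem_filter.2 ⟨Finset.mem_univ _, f, (Finset.mem_filter.1 hf).2, rfl⟩
  · intro f _ g _ h
    exact Sym2.map.injective Subtype.val_injective (congrArg Subtype.val h)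
  · intro e he
    obtain ⟨f, hf, hfe⟩ := (Finset.mem_filter.1 he).2
    exact ⟨f, Finset.mem_filter.2 ⟨Finset.mem_univ _, hf⟩, Subtype.ext hfe⟩
  · intro f hf
    simp [extEdge, hmem f (Finset.mem_filter.1 hf).2]

lemma dot_treeVec_self [Fintype H.verts] [Fintype H.edgeSet] (T : spanningTrees H) :
    dot (treeVec H T) (treeVec H T) = (Fintype.card H.verts : ℝ) - 1 := by
  have h1 : dot (treeVec H T) (treeVec H T) = dot (treeVec H T) fun _ => 1 :=
    Finset.sum_congr rfl fun e _ => by simp [treeVec]
  rw [h1, dot_treeVec, eq_sub_iff_add_eq, ← T.2.2.card_edgeFinset, Nat.cast_add, Nat.cast_one]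
  congr 1
  rw [← Finset.sum_filter, Finset.sum_congr rfl (g := fun _ => (1 : ℝ)) fun f hf => ?_]
  · simp only [Finset.sum_const, nsmul_eq_mul, mul_one]
    congr 1
    congr 1
    ext f; simp
  · have hf' := (Finset.mem_filter.1 hf).2
    induction f using Sym2.ind with
    | h u v =>
      have : H.Adj u.1 v.1 := T.2.1 hf'
      simp [extEdge, this]

lemma spanningTrees_nonempty [Fintype H.verts] (hH : H.Connected) : Nonempty (spanningTrees H) := by
  obtain ⟨T, h1, h2⟩ := hH.coe.exists_isTree_le
  exact ⟨⟨T, h1, h2⟩⟩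

lemma mean_eq_marg [Fintype H.verts] [Fintype H.edgeSet] [Fintype (spanningTrees H)] (hH : H.Connected)
    (y : H.edgeSet → ℝ) (e : H.edgeSet) :
    mean (treeVec H) y e = marg (subBool H) (extEdge H y) e.1 := by
  obtain ⟨e, he⟩ := e
  induction e using Sym2.ind with
  | h u v =>
    have hu : u ∈ H.verts := H.edge_vert he
    have hv : v ∈ H.verts := H.edge_vert (H.symm.symm _ _ he)
    let s' : H.verts := ⟨u, hu⟩
    let t' : H.verts := ⟨v, hv⟩
    have hst : H.coe.Adj s' t' := he
    have hm : marg (subBool H) (extEdge H y) s(u, v)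
        = marg (edgeBool H.coe) (fun f => extEdge H y (f.map Subtype.val)) s(s', t') := by
      rw [show s(u, v) = (s(s', t')).map Subtype.val from rfl,
        marg_embed _ Subtype.val_injective (subBool_range H) (nice_subBool H (Set.toFinite _))]
      congr 1
      funext f; exact subBool_map H f
    rw [hm, marg_edgeBool H.coe _ hH.coe hst, totWt, Finset.sum_div]
    simp only [mean, tilt]
    have hw : ∀ T : spanningTrees H, Real.exp (dot (treeVec H T) y)
        = treeWt (fun f => extEdge H y (f.map Subtype.val)) T.1 := fun T => by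
      rw [treeWt, dot_treeVec]
    simp only [hw]
    have hsub : ∀ g : SimpleGraph H.verts → ℝ,
        ∑ T : spanningTrees H, g T.1 = ∑ T ∈ trees H.coe, g T := by
      intro g
      refine (Finset.sum_subtype (trees H.coe) (fun T => ?_) g).symm
      simp [trees, spanningTrees]
    rw [hsub fun T => treeWt (fun f => extEdge H y (f.map Subtype.val)) T,
      ← hsub fun T => (if s(s', t') ∈ T.edgeSet then
        treeWt (fun f => extEdge H y (f.map Subtype.val)) T else 0) / _]
    refine Finset.sum_congr rfl fun T _ => ?_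
    have hiff : usesEdge T.1 s(u, v) ↔ s(s', t') ∈ T.1.edgeSet :=
      ⟨fun ⟨f, hf, hfe⟩ => by
        have : f = s(s', t') := Sym2.map.injective Subtype.val_injective hfe
        rwa [← this],
       fun h => ⟨_, h, rfl⟩⟩
    simp only [treeVec, hiff]
    split_ifs <;> simp

lemma mean_lipschitz [Fintype H.verts] [Fintype H.edgeSet] [Fintype (spanningTrees H)] (hH : H.Connected)
    (y z : H.edgeSet → ℝ) :
    ‖mean (treeVec H) y - mean (treeVec H) z‖ ≤ 2 * ‖y - z‖ := by
  refine (pi_norm_le_iff_of_nonneg (by positivity)).2 fun e => ?_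
  rw [Pi.sub_apply, mean_eq_marg H hH, mean_eq_marg H hH, Real.norm_eq_abs]
  refine abs_marg_sub_le (nice_subBool H (Set.toFinite _)) _ (norm_nonneg _) fun f hf => ?_
  rw [subBool_true] at hf
  simpa [extEdge, hf] using norm_le_pi_norm (y - z) ⟨f, hf⟩

/-- The flow value plus the noise, on the edges of `H`. -/
noncomputable def endPoint (a : Sym2 V → Bool) (U : V → I) (T : ℝ) (e : H.edgeSet) : ℝ :=
  flow (subBool H) (edgePath a U) T e.1 + edgePath a U T e.1

variable [Countable V]

lemma map_increments {a : Sym2 V → Bool} (ha : Nice a) (hsub : ∀ f ∈ H.edgeSet, a f = true)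
    [Fintype H.edgeSet] (R N : ℕ) :
    (iidLaw V).map (fun U (k : Fin N) (e : H.edgeSet) => bmInc R (eta a (atoms U) e.1) k)
      = (Measure.pi fun _ : Fin N => stdGauss H.edgeSet).map
          (fun g k => Real.sqrt ((1 / 2 : ℝ) ^ R) • g k) := by
  set A := fun U (p : H.edgeSet × (ℕ × ℕ)) => eta a (atoms U) p.1.1 p.2 with hA
  have hAm : Measurable A := measurable_pi_lambda _ fun p =>
    measurable_eta (a := fun _ => a) (X := atoms) (fun _ => measurable_const)
      (fun q => (measurable_pi_apply q).comp measurable_atoms) _ _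
  have hlaw : (iidLaw V).map A = iidG (H.edgeSet × (ℕ × ℕ)) 1 :=
    map_eta ha (fun e : H.edgeSet => e.1) Subtype.val_injective fun e => hsub e.1 e.2
  let c1 := MeasurableEquiv.curry H.edgeSet (ℕ × ℕ) ℝ
  let b : (H.edgeSet → ℕ × ℕ → ℝ) → H.edgeSet → ℕ → ℝ := fun z e => bmInc R (z e)
  let c2 := (MeasurableEquiv.curry H.edgeSet ℕ ℝ).symm
  let j : Fin N × H.edgeSet → H.edgeSet × ℕ := fun q => (q.2, q.1)
  let c3 := MeasurableEquiv.curry (Fin N) H.edgeSet ℝ
  have hj : Function.Injective j := fun q r h => by
    simp only [j, Prod.mk.injEq] at h; exact Prod.ext (Fin.ext h.2) h.1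
  have hb : Measurable b := measurable_pi_lambda _ fun e =>
    (measurable_bmInc' R).comp (measurable_pi_apply e)
  have hjm := measurePreserving_comp_injective (μ := gaussianReal 0 (var R)) hj
  have e1 : (fun U (k : Fin N) (e : H.edgeSet) => bmInc R (eta a (atoms U) e.1) k)
      = c3 ∘ (fun x => x ∘ j) ∘ c2 ∘ b ∘ c1 ∘ A := rfl
  rw [e1, ← Measure.map_map c3.measurable (hjm.measurable.comp (c2.measurable.comp (hb.comp (c1.measurable.comp hAm)))),
    ← Measure.map_map hjm.measurable (c2.measurable.comp (hb.comp (c1.measurable.comp hAm))),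
    ← Measure.map_map c2.measurable (hb.comp (c1.measurable.comp hAm)),
    ← Measure.map_map hb (c1.measurable.comp hAm), ← Measure.map_map c1.measurable hAm, hlaw, iidG]
  rw [Measure.infinitePi_map_curry (fun (_ : H.edgeSet) (_ : ℕ × ℕ) => gaussianReal 0 1),
    Measure.infinitePi_map_pi (f := fun _ : H.edgeSet => bmInc R) _ fun _ => measurable_bmInc' R]
  simp only [show (Measure.infinitePi fun _ : ℕ × ℕ => gaussianReal 0 1) = iidG (ℕ × ℕ) 1 from rfl,
    map_bmInc]
  simp only [iidG]
  rw [Measure.infinitePi_map_curry_symm (fun (_ : H.edgeSet) (_ : ℕ) => gaussianReal 0 (var R)),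
    hjm.map_eq, Measure.infinitePi_map_curry (fun (_ : Fin N) (_ : H.edgeSet) => gaussianReal 0 (var R))]
  simp only [Measure.infinitePi_eq_pi]
  rw [Measure.pi_map_pi (f := fun (_ : Fin N) (g : H.edgeSet → ℝ) => Real.sqrt ((1 / 2 : ℝ) ^ R) • g)
    fun _ => Measurable.aemeasurable (by fun_prop)]
  congr 1
  funext _
  rw [show (fun g : H.edgeSet → ℝ => Real.sqrt ((1 / 2 : ℝ) ^ R) • g)
    = fun g i => Real.sqrt ((1 / 2 : ℝ) ^ R) * g i from rfl, stdGauss,
    Measure.pi_map_pi (f := fun (_ : H.edgeSet) x => Real.sqrt ((1 / 2 : ℝ) ^ R) * x)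
      fun _ => Measurable.aemeasurable (by fun_prop)]
  congr 1
  funext _
  rw [gaussianReal_map_const_mul]
  congr 1
  · simp
  · apply NNReal.coe_injective; push_cast
    simp [var, Real.sq_sqrt]

/-- Mesh at level `R`. -/
noncomputable def mesh (R : ℕ) : ℝ := (1 / 2 : ℝ) ^ R

lemma mesh_pos (R : ℕ) : 0 < mesh R := by unfold mesh; positivity

lemma mesh_mul_pow (R : ℕ) : mesh R * 2 ^ R = 1 := by
  rw [mesh, ← mul_pow]; norm_num

omit [Countable V] in
lemma edgePath_grid (a : Sym2 V → Bool) (U : V → I) (R k : ℕ) (e : Sym2 V) :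
    edgePath a U (k * mesh R) e = ∑ i ∈ Finset.range k, bmInc R (eta a (atoms U) e) i := by
  have : (k : ℝ) * mesh R = (k : ℝ) / 2 ^ R := by rw [mesh, one_div, inv_pow]; rfl
  rw [edgePath, this, bm_grid]

attribute [local irreducible] edgePath bm flow eta

variable [Fintype H.edgeSet]

/-- Total oscillation of the noise of the edges of `H` at mesh `2 ^ (-R)` up to time `T`. -/
noncomputable def oscInt (a : Sym2 V → Bool) (U : V → I) (R : ℕ) (T : ℝ) : ℝ≥0∞ :=
  ∫⁻ s in Ioc 0 T, ∑ i : H.edgeSet,
    ENNReal.ofReal |edgePath a U s i.1 - edgePath a U ((⌊s * 2 ^ R⌋₊ : ℝ) * mesh R) i.1|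


lemma lintegral_oscInt {a : Sym2 V → Bool} (ha : Nice a) (hsub : ∀ f ∈ H.edgeSet, a f = true)
    (R : ℕ) (T : ℝ) :
    ∫⁻ U, oscInt H a U R T ∂iidLaw V
      ≤ ENNReal.ofReal T * (Fintype.card H.edgeSet * ENNReal.ofReal (bmTail R)) := by
  have hm : ∀ f, Measurable fun p : (V → I) × ℝ => edgePath a p.1 p.2 f := fun f =>
    measurable_edgePath (a := fun _ => a) (fun _ => measurable_const) measurable_id f
  have hg : ∀ f, Measurable fun p : (V → I) × ℝ => ENNReal.ofReal
      |edgePath a p.1 p.2 f - edgePath a p.1 ((⌊p.2 * 2 ^ R⌋₊ : ℝ) * mesh R) f| := fun f => by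
    have h2 : Measurable fun p : (V → I) × ℝ => (p.1, (⌊p.2 * 2 ^ R⌋₊ : ℝ) * mesh R) :=
      measurable_fst.prodMk ((measurable_from_nat.comp
        (Nat.measurable_floor.comp (measurable_snd.mul_const _))).mul_const _)
    exact ((hm f).sub ((hm f).comp h2)).abs.ennreal_ofReal
  unfold oscInt
  rw [lintegral_lintegral_swap (Finset.measurable_sum _ fun i _ => hg i.1).aemeasurable]
  calc ∫⁻ s in Ioc 0 T, ∫⁻ U, ∑ i : H.edgeSet, ENNReal.ofReal
        |edgePath a U s i.1 - edgePath a U ((⌊s * 2 ^ R⌋₊ : ℝ) * mesh R) i.1| ∂iidLaw V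
      ≤ ∫⁻ _s in Ioc 0 T, Fintype.card H.edgeSet * ENNReal.ofReal (bmTail R) := by
        refine lintegral_mono_ae ((ae_restrict_iff' measurableSet_Ioc).2 (ae_of_all _ fun s hs => ?_))
        have hmi : ∀ i : H.edgeSet, Measurable fun U => ENNReal.ofReal
            |edgePath a U s i.1 - edgePath a U ((⌊s * 2 ^ R⌋₊ : ℝ) * mesh R) i.1| := fun i =>
          (hg i.1).comp (measurable_id.prodMk measurable_const)
        rw [lintegral_finsetSum _ fun i _ => hmi i]
        refine (Finset.sum_le_sum (g := fun _ => ENNReal.ofReal (bmTail R)) fun i _ => ?_).trans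
          (le_of_eq (by simp))
        have hlaw : (iidLaw V).map (fun U => eta a (atoms U) i.1) = iidG (ℕ × ℕ) 1 := by
          have h := map_eta ha (fun _ : Unit => i.1) (fun _ _ _ => rfl) fun _ => hsub i.1 i.2
          have hinj : Function.Injective (fun q : ℕ × ℕ => ((), q)) := fun q r h => by simpa using h
          have hc := measurePreserving_comp_injective (μ := gaussianReal 0 1) hinj
          rw [iidG, ← hc.map_eq, ← iidG, ← h, Measure.map_map hc.measurable]
          · rfl
          · exact measurable_pi_lambda _ fun p => measurable_eta (a := fun _ => a) (X := atoms)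
              (fun _ => measurable_const) (fun q => (measurable_pi_apply q).comp measurable_atoms) _ _
        have heta : Measurable fun U => eta a (atoms U) i.1 := measurable_pi_lambda _ fun q =>
          measurable_eta (a := fun _ => a) (X := atoms) (fun _ => measurable_const)
            (fun z => (measurable_pi_apply z).comp measurable_atoms) _ _
        refine le_trans (le_of_eq ?_) (lintegral_bm_grid R hs.1.le)
        rw [← hlaw, lintegral_map (f := fun ξ => ENNReal.ofReal
          |bm ξ s - bm ξ ((⌊s * 2 ^ R⌋₊ : ℝ) / 2 ^ R)|)]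
        · refine lintegral_congr fun U => ?_
          simp only [edgePath]
          congr 4
          rw [mesh, one_div, inv_pow]; rfl
        · exact ((measurable_bm.comp (measurable_id.prodMk measurable_const)).sub
            (measurable_bm.comp (measurable_id.prodMk measurable_const))).abs.ennreal_ofReal
        · exact heta
    _ = _ := by simp [mul_comm]


/-- The Euler sequence is close to the flow when the noise oscillates little. -/
lemma euler_close {a : Sym2 V → Bool} [Fintype H.verts] [Fintype (spanningTrees H)]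
    (hH : H.Connected) (U : V → I) (R T : ℕ) (hfinite : oscInt H a U R T ≠ ⊤) :
    ‖eulerSeq (mean (treeVec H)) (mesh R) 0
        (fun k e => bmInc R (eta a (atoms U) e.1) k) (T * 2 ^ R) - endPoint H a U T‖
      ≤ 2 * Real.exp (2 * T) * (T * mesh R + (oscInt H a U R T).toReal) := by
  set w := edgePath a U
  have hw : ∀ f, Measurable fun t => w t f := fun f =>
    (measurable_edgePath (a := fun _ => a) (fun _ => measurable_const) measurable_id f).comp
      (measurable_const.prodMk measurable_id)
  set m := mean (treeVec H)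
  set h := mesh R
  have hh : 0 < h := mesh_pos R
  set aH := subBool H
  have hn : Nice aH := nice_subBool H (Set.toFinite _)
  set ξ : ℕ → H.edgeSet → ℝ := fun k e => bmInc R (eta a (atoms U) e.1) k
  set g : ℝ → ℝ := fun s => ∑ i : H.edgeSet, |w s i.1 - w ((⌊s * 2 ^ R⌋₊ : ℝ) * h) i.1|
  have hgm : Measurable g := Finset.measurable_sum _ fun i _ => ((hw i.1).sub ((hw i.1).comp
    ((measurable_from_nat.comp (Nat.measurable_floor.comp (measurable_id.mul_const _))).mul_const h))).abs
  have hg0 : ∀ s, 0 ≤ g s := fun s => Finset.sum_nonneg fun i _ => abs_nonneg _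
  have hgl : ∫⁻ s in Ioc 0 (T : ℝ), ENNReal.ofReal (g s) = oscInt H a U R T := by
    simp only [g, ENNReal.ofReal_sum_of_nonneg fun i _ => abs_nonneg _]; rfl
  have hgi : IntegrableOn g (Ioc 0 (T : ℝ)) := by
    refine ⟨hgm.aestronglyMeasurable, ?_⟩
    rw [hasFiniteIntegral_iff_ofReal (ae_of_all _ hg0), hgl]
    exact hfinite.lt_top
  have hgr : ∫ s in Ioc 0 (T : ℝ), g s = (oscInt H a U R T).toReal := by
    rw [integral_eq_lintegral_of_nonneg_ae (ae_of_all _ hg0) hgm.aestronglyMeasurable, hgl]
  let Y := fun k => eulerSeq m h 0 ξ k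
  let P := fun k : ℕ => fun e : H.edgeSet => flow aH w (k * h) e.1 + w (k * h) e.1
  have hkT : ∀ k, k ≤ T * 2 ^ R → (k : ℝ) * h ≤ T := fun k hk => by
    calc (k : ℝ) * h ≤ ((T * 2 ^ R : ℕ) : ℝ) * h := mul_le_mul_of_nonneg_right (by exact_mod_cast hk) hh.le
      _ = T := by push_cast; rw [mul_assoc, mul_comm (2 ^ R : ℝ), mesh_mul_pow, mul_one]
  have main : ∀ k, k ≤ T * 2 ^ R → ‖Y k - P k‖
      ≤ (1 + 2 * h) ^ k * (2 * (k * h * h + ∫ s in Ioc 0 ((k : ℝ) * h), g s)) := by
    intro k
    induction k with
    | zero =>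
      intro _
      have : P 0 = 0 := funext fun e => by
        have h0 := flow_mem hn hw e.1 (le_refl (0 : ℝ))
        have h1 : w (((0 : ℕ) : ℝ) * h) e.1 = 0 := by
          simp only [w, show h = mesh R from rfl]; rw [edgePath_grid]; simp
        simp only [Nat.cast_zero, zero_mul] at h1
        simp only [P, Pi.zero_apply, Nat.cast_zero, zero_mul, h1, add_zero]
        linarith [h0.1, h0.2]
      simp [Y, eulerSeq, this]
    | succ k ih =>
      intro hk
      have ih' := ih (Nat.le_of_succ_le hk)
      set D := ‖Y k - P k‖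
      set t0 : ℝ := k * h with ht0
      have ht : (0 : ℝ) ≤ t0 := by positivity
      set t1 : ℝ := (k + 1 : ℕ) * h with ht1
      have htt : t1 = t0 + h := by rw [ht1, ht0]; push_cast; ring
      have hle : t0 ≤ t1 := by linarith
      have hsubI : Ioc t0 t1 ⊆ Ioc 0 (T : ℝ) := Ioc_subset_Ioc ht (hkT _ hk)
      have hgi' := hgi.mono_set hsubI
      have hIsplit : ∫ s in Ioc 0 t1, g s = (∫ s in Ioc 0 t0, g s) + ∫ s in Ioc t0 t1, g s := by
        rw [← setIntegral_union (Set.Ioc_disjoint_Ioc_of_le le_rfl) measurableSet_Ioc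
          (hgi.mono_set (Ioc_subset_Ioc le_rfl (hle.trans (hkT _ hk)))) hgi',
          Ioc_union_Ioc_eq_Ioc ht hle]
      have hI0 : 0 ≤ ∫ s in Ioc 0 t0, g s := setIntegral_nonneg measurableSet_Ioc fun s _ => hg0 s
      have hI1 : 0 ≤ ∫ s in Ioc t0 t1, g s := setIntegral_nonneg measurableSet_Ioc fun s _ => hg0 s
      have hstep : ‖Y (k + 1) - P (k + 1)‖
          ≤ (1 + 2 * h) * D + 2 * (h * h + ∫ s in Ioc t0 t1, g s) := by
        refine (pi_norm_le_iff_of_nonneg (by positivity)).2 fun e => ?_
        set F := fun s => marg aH (fun f => flow aH w s f + w s f) e.1 with hF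
        have hFm : Measurable F := measurable_marg e.1 (fun _ => measurable_const) fun f =>
          ((measurable_flow (Ω := Unit) (a := fun _ => aH) (fun _ => measurable_const) (w := fun _ => w)
            (fun f => (hw f).comp measurable_snd) f).comp
              ((measurable_const (a := ())).prodMk measurable_id)).add (hw f)
        have hFi := fun x y => integrableOn_of_mem_Icc hFm (fun s => marg_mem _ _ _) x y
        have hflow : flow aH w t1 e.1 - flow aH w t0 e.1 = ∫ s in Ioc t0 t1, F s := by
          rw [flow_eq hn hw (ht.trans hle), flow_eq hn hw ht, ← Ioc_union_Ioc_eq_Ioc ht hle,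
            setIntegral_union (Set.Ioc_disjoint_Ioc_of_le le_rfl) measurableSet_Ioc (hFi _ _) (hFi _ _),
            add_sub_cancel_left]
        have hwinc : w t1 e.1 - w t0 e.1 = ξ k e := by
          simp only [w, ht1, ht0, show h = mesh R from rfl]
          rw [edgePath_grid, edgePath_grid, Finset.sum_range_succ, add_sub_cancel_left]
        have hYs : Y (k + 1) e = Y k e + h * m (Y k) e + ξ k e := by
          change eulerSeq m h 0 ξ (k + 1) e = _
          rw [eulerSeq_succ]; rfl
        have hvol : (volume (Ioc t0 t1)).toReal = h := by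
          rw [Real.volume_Ioc, htt, add_sub_cancel_left, ENNReal.toReal_ofReal hh.le]
        have hconst : ∫ _s in Ioc t0 t1, m (Y k) e = h * m (Y k) e := by
          rw [setIntegral_const, measureReal_def, hvol, smul_eq_mul]
        have hc : ∀ c : ℝ, Integrable (fun _ => c) (volume.restrict (Ioc t0 t1)) := fun c =>
          integrableOn_const (by simp)
        have hdiff : |h * m (Y k) e - ∫ s in Ioc t0 t1, F s|
            ≤ ∫ s in Ioc t0 t1, 2 * (D + h + g s) := by
          rw [← hconst, ← integral_sub (hc _) (hFi _ _), ← Real.norm_eq_abs]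
          refine norm_integral_le_of_norm_le ?_ ((ae_restrict_iff' measurableSet_Ioc).2
            ((Measure.ae_ne volume t1).mono fun s hsne hs => ?_))
          · exact ((hc (D + h)).add hgi').const_mul 2
          · simp only [Real.norm_eq_abs, hF, m]
            rw [mean_eq_marg H hH]
            refine abs_marg_sub_le hn _ (by have := hg0 s; positivity) fun f hf => ?_
            rw [subBool_true] at hf
            simp only [extEdge, hf, dite_true]
            have h1 : |Y k ⟨f, hf⟩ - P k ⟨f, hf⟩| ≤ D := norm_le_pi_norm (Y k - P k) ⟨f, hf⟩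
            have hlt : s < t1 := lt_of_le_of_ne hs.2 hsne
            have hfl : (⌊s * 2 ^ R⌋₊ : ℝ) * h = t0 := by
              have hs0 : 0 ≤ s := ht.trans hs.1.le
              have hk' : ⌊s * 2 ^ R⌋₊ = k := by
                rw [Nat.floor_eq_iff (by positivity)]
                have e1 : t0 * 2 ^ R = k := by rw [ht0, mul_assoc, mesh_mul_pow, mul_one]
                have e2 : t1 * 2 ^ R = k + 1 := by
                  rw [htt, add_mul, e1, show h = mesh R from rfl, mesh_mul_pow]
                have := mul_lt_mul_of_pos_right hs.1 (show (0 : ℝ) < 2 ^ R by positivity)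
                have := mul_lt_mul_of_pos_right hlt (show (0 : ℝ) < 2 ^ R by positivity)
                constructor <;> linarith
              rw [hk']
            have h2 : |flow aH w s f - flow aH w t0 f| ≤ h := by
              have := flow_incr hn hw f ht hs.1.le
              rw [abs_of_nonneg this.1]; linarith [this.2, hs.2]
            have h3 : |w s f - w t0 f| ≤ g s := by
              have := Finset.single_le_sum
                (f := fun i : H.edgeSet => |w s i.1 - w ((⌊s * 2 ^ R⌋₊ : ℝ) * h) i.1|)
                (fun i _ => abs_nonneg _) (Finset.mem_univ ⟨f, hf⟩)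
              simp only [hfl] at this; simp only [g, hfl]; exact this
            simp only [P, ← ht0] at h1
            rw [abs_le] at h1 h2 h3 ⊢
            constructor <;> linarith [h1.1, h1.2, h2.1, h2.2, h3.1, h3.2]
        have hint : ∫ s in Ioc t0 t1, 2 * (D + h + g s)
            = 2 * h * (D + h) + 2 * ∫ s in Ioc t0 t1, g s := by
          rw [integral_const_mul, integral_add (hc _) hgi', setIntegral_const,
            measureReal_def, hvol, smul_eq_mul]
          ring
        have h1 : |Y k e - P k e| ≤ D := norm_le_pi_norm (Y k - P k) e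
        rw [Pi.sub_apply, Real.norm_eq_abs, hYs]
        have : Y k e + h * m (Y k) e + ξ k e - P (k + 1) e
            = (Y k e - P k e) + (h * m (Y k) e - ∫ s in Ioc t0 t1, F s) := by
          rw [← hflow, ← hwinc]; simp only [P, ← ht0, ← ht1]; ring
        rw [this]
        refine (abs_add_le _ _).trans ?_
        linarith
      have hge : (1 : ℝ) ≤ (1 + 2 * h) ^ (k + 1) := one_le_pow₀ (by linarith)
      refine hstep.trans ?_
      rw [hIsplit]
      calc (1 + 2 * h) * D + 2 * (h * h + ∫ s in Ioc t0 t1, g s)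
          ≤ (1 + 2 * h) * ((1 + 2 * h) ^ k * (2 * (t0 * h + ∫ s in Ioc 0 t0, g s)))
            + (1 + 2 * h) ^ (k + 1) * (2 * (h * h + ∫ s in Ioc t0 t1, g s)) :=
            add_le_add (mul_le_mul_of_nonneg_left ih' (by linarith))
              (le_mul_of_one_le_left (by positivity) hge)
        _ = _ := by rw [ht1, ht0]; push_cast; ring
  have hN : ((T * 2 ^ R : ℕ) : ℝ) * h = T := by
    push_cast; rw [mul_assoc, mul_comm (2 ^ R : ℝ), mesh_mul_pow, mul_one]
  have hfin := main _ le_rfl
  have hP : P (T * 2 ^ R) = endPoint H a U T := funext fun e => by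
    simp only [P, endPoint, hN]; rfl
  rw [hN, hP, hgr] at hfin
  refine hfin.trans ?_
  have hexp : (1 + 2 * h) ^ (T * 2 ^ R) ≤ Real.exp (2 * T) := by
    calc (1 + 2 * h) ^ (T * 2 ^ R) ≤ Real.exp (2 * h) ^ (T * 2 ^ R) :=
          pow_le_pow_left₀ (by positivity) (by linarith [Real.add_one_le_exp (2 * h)]) _
      _ = Real.exp (2 * T) := by
          rw [← Real.exp_nat_mul]; congr 1; linear_combination 2 * hN
  calc (1 + 2 * h) ^ (T * 2 ^ R) * (2 * ((T : ℝ) * h + (oscInt H a U R T).toReal))
      ≤ Real.exp (2 * T) * (2 * ((T : ℝ) * h + (oscInt H a U R T).toReal)) :=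
        mul_le_mul_of_nonneg_right hexp (by positivity)
    _ = _ := by ring

omit [Fintype H.edgeSet] in
lemma measurable_endPoint (a : Sym2 V → Bool) (T : ℝ) :
    Measurable fun U => endPoint H a U T := by
  refine measurable_pi_lambda _ fun e => ?_
  have hw : ∀ f, Measurable fun p : (V → I) × ℝ => edgePath a p.1 p.2 f := fun f =>
    measurable_edgePath (a := fun _ => a) (fun _ => measurable_const) measurable_id f
  have hf := measurable_flow (a := fun _ : V → I => subBool H) (fun _ => measurable_const)
    (w := fun U => edgePath a U) hw e.1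
  exact (hf.comp (measurable_id.prodMk measurable_const)).add
    ((hw e.1).comp (measurable_id.prodMk measurable_const))

/-- The law of the flow on a finite connected subgraph. -/
theorem finite_law {a : Sym2 V → Bool} (ha : Nice a) (hsub : ∀ f ∈ H.edgeSet, a f = true)
    [Fintype H.verts] [Fintype (spanningTrees H)] (hH : H.Connected) {K : ℝ} (hK : 0 ≤ K)
    {φ : (H.edgeSet → ℝ) → ℝ} (hφ : IsTest K φ) (T : ℕ) :
    ∫ U, φ (endPoint H a U T) ∂iidLaw V
      = (∑ τ : spanningTrees H, ∫ g, φ ((T : ℝ) • treeVec H τ + Real.sqrt T • g) ∂stdGauss H.edgeSet)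
          / Fintype.card (spanningTrees H) := by
  set P := iidLaw V
  set tgt := (∑ τ : spanningTrees H, ∫ g, φ ((T : ℝ) • treeVec H τ + Real.sqrt T • g) ∂stdGauss H.edgeSet)
          / Fintype.card (spanningTrees H) with htgt
  set m := mean (treeVec H)
  have : Nonempty (spanningTrees H) := spanningTrees_nonempty H hH
  have hm : ∀ y z, ‖m y - m z‖ ≤ 2 * ‖y - z‖ := mean_lipschitz H hH
  have hmc : Continuous m := (LipschitzWith.of_dist_le' (K := 2) fun y z => by
    simpa [dist_eq_norm] using hm y z).continuous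
  have hx : ∀ τ i, |treeVec H τ i| ≤ 1 := fun τ i => by
    simp only [treeVec]; split_ifs <;> simp
  set C := (gaussMom H.edgeSet + (4 * (Fintype.card H.edgeSet : ℝ)) ^ 2) / 2 with hC
  have hC0 : 0 ≤ C := by have := gaussMom_nonneg (ι := H.edgeSet); positivity
  set c : ℝ := (Fintype.card H.edgeSet : ℝ)
  let Z : ℕ → (V → I) → H.edgeSet → ℝ := fun R U =>
    eulerSeq m (mesh R) 0 (fun k e => bmInc R (eta a (atoms U) e.1) k) (T * 2 ^ R)
  have key : ∀ R, mesh R * (4 * c) ≤ 1 →
      |(∫ U, φ (endPoint H a U T) ∂P) - tgt|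
        ≤ K * (2 * Real.exp (2 * T)) * (T * mesh R + T * (c * bmTail R))
          + T * (K * Real.exp (T * 2) * Real.sqrt (mesh R) * C) := by
    intro R hR
    set h := mesh R
    have hh : 0 < h := mesh_pos R
    set N := T * 2 ^ R
    have hNh : (N : ℝ) * h = T := by
      simp only [N]; push_cast; rw [mul_assoc, mul_comm (2 ^ R : ℝ), mesh_mul_pow, mul_one]
    have hmeas : Measurable fun U (k : Fin N) (e : H.edgeSet) => bmInc R (eta a (atoms U) e.1) k :=
      measurable_pi_lambda _ fun k => measurable_pi_lambda _ fun e => (measurable_bmInc R k).comp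
        (measurable_pi_lambda _ fun i => measurable_eta (a := fun _ => a) (X := atoms)
          (fun _ => measurable_const) (fun q => (measurable_pi_apply q).comp measurable_atoms) _ _)
    let Φ : (Fin N → H.edgeSet → ℝ) → ℝ := fun ξ => φ (eulerSeq m h 0 (extendInc ξ) N)
    have hΦ : Measurable Φ := (hφ.continuous.comp (continuous_eulerSeq hmc h N continuous_const
      fun i => by simp only [extendInc]; split_ifs <;> fun_prop)).measurable
    have hZ : ∀ U, φ (Z R U) = Φ (fun k e => bmInc R (eta a (atoms U) e.1) k) := fun U => by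
      simp only [Φ, Z]
      rw [eulerSeq_congr m h N 0 _ (extendInc fun (k : Fin N) e => bmInc R (eta a (atoms U) e.1) k)
        fun i hi => by simp [extendInc, hi]]
    have hEuler : ∫ U, φ (Z R U) ∂P = (eulerOp m h)^[N] φ 0 := by
      simp only [hZ]
      rw [← integral_map (f := Φ) hmeas.aemeasurable hΦ.aestronglyMeasurable,
        map_increments H ha hsub R N, integral_map (Measurable.aemeasurable (by fun_prop))
        hΦ.aestronglyMeasurable, integral_eulerSeq hmc h hφ.continuous hφ.1 N 0]
      rfl
    have herr := euler_error (treeVec H) (q := (Fintype.card H.verts : ℝ) - 1)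
      (dot_treeVec_self H) hx (L := 2) zero_le_two hm hh hR hK hφ N
    rw [hNh, ← htgt, ← hEuler] at herr
    have hZm : Measurable fun U => φ (Z R U) := by simp only [hZ]; exact hΦ.comp hmeas
    have hEm : Measurable fun U => φ (endPoint H a U T) :=
      hφ.continuous.measurable.comp (measurable_endPoint H a T)
    have hZi : Integrable (fun U => φ (Z R U)) P := integrable_of_bdd hZm fun U => hφ.1 _
    have hEi : Integrable (fun U => φ (endPoint H a U T)) P := integrable_of_bdd hEm fun U => hφ.1 _
    have hom : Measurable fun U => oscInt H a U R T := by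
      have hw : ∀ f, Measurable fun p : (V → I) × ℝ => edgePath a p.1 p.2 f := fun f =>
        measurable_edgePath (a := fun _ => a) (fun _ => measurable_const) measurable_id f
      have h2 : Measurable fun p : (V → I) × ℝ => (p.1, (⌊p.2 * 2 ^ R⌋₊ : ℝ) * mesh R) :=
        measurable_fst.prodMk ((measurable_from_nat.comp
          (Nat.measurable_floor.comp (measurable_snd.mul_const _))).mul_const _)
      exact Measurable.lintegral_prod_right (f := fun (U : V → I) (s : ℝ) => ∑ i : H.edgeSet,
        ENNReal.ofReal |edgePath a U s i.1 - edgePath a U ((⌊s * 2 ^ R⌋₊ : ℝ) * mesh R) i.1|)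
        (Finset.measurable_sum Finset.univ fun (i : H.edgeSet) _ =>
          ((hw i.1).sub ((hw i.1).comp h2)).abs.ennreal_ofReal)
    have hosc := lintegral_oscInt H ha hsub R (T : ℝ)
    have hne : ENNReal.ofReal (T : ℝ) * ((Fintype.card H.edgeSet : ℝ≥0∞) * ENNReal.ofReal (bmTail R)) ≠ ⊤ :=
      ENNReal.mul_ne_top ENNReal.ofReal_ne_top (ENNReal.mul_ne_top (ENNReal.natCast_ne_top _) ENNReal.ofReal_ne_top)
    have hfinite : ∫⁻ U, oscInt H a U R T ∂P ≠ ⊤ :=
      ne_top_of_le_ne_top hne hosc
    have hoscR : ∫ U, (oscInt H a U R T).toReal ∂P ≤ T * (c * bmTail R) := by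
      rw [integral_toReal hom.aemeasurable (ae_lt_top hom hfinite)]
      refine (ENNReal.toReal_mono hne hosc).trans (le_of_eq ?_)
      simp [ENNReal.toReal_ofReal, bmTail_nonneg, c]
    have hoi : Integrable (fun U => (oscInt H a U R T).toReal) P :=
      integrable_toReal_of_lintegral_ne_top hom.aemeasurable hfinite
    have hclose : |(∫ U, φ (endPoint H a U T) ∂P) - ∫ U, φ (Z R U) ∂P|
        ≤ K * (2 * Real.exp (2 * T)) * (T * h + T * (c * bmTail R)) := by
      rw [← integral_sub hEi hZi, ← Real.norm_eq_abs]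
      refine (norm_integral_le_of_norm_le
        (g := fun U => K * (2 * Real.exp (2 * T)) * (T * h + (oscInt H a U R T).toReal))
        (((integrable_const _).add hoi).const_mul _) ?_).trans ?_
      · filter_upwards [ae_lt_top hom hfinite] with U hU
        rw [Real.norm_eq_abs, mul_assoc]
        refine (hφ.2 _ _).trans (mul_le_mul_of_nonneg_left ?_ hK)
        rw [norm_sub_rev]
        exact euler_close H hH U R T hU.ne
      · rw [integral_const_mul, integral_add (integrable_const _) hoi]
        refine mul_le_mul_of_nonneg_left ?_ (by positivity)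
        simpa using hoscR
    have herr' : |(∫ U, φ (Z R U) ∂P) - tgt| ≤ T * (K * Real.exp (T * 2) * Real.sqrt h * C) := by
      refine herr.trans (le_of_eq ?_)
      linear_combination (K * Real.exp (T * 2) * Real.sqrt h * C) * hNh
    exact (abs_sub_le _ _ _).trans (add_le_add hclose herr')
  have hmesh : Tendsto mesh atTop (𝓝 0) :=
    tendsto_pow_atTop_nhds_zero_of_lt_one (by norm_num) (by norm_num)
  have hlim : Tendsto (fun R => K * (2 * Real.exp (2 * T)) * (T * mesh R + T * (c * bmTail R))
          + T * (K * Real.exp (T * 2) * Real.sqrt (mesh R) * C)) atTop (𝓝 0) := by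
    have h2 : Tendsto (fun R => Real.sqrt (mesh R)) atTop (𝓝 0) := by
      simpa [Function.comp_def] using (Real.continuous_sqrt.tendsto 0).comp hmesh
    simpa using (((hmesh.const_mul (T : ℝ)).add ((tendsto_bmTail.const_mul c).const_mul (T : ℝ))).const_mul
      (K * (2 * Real.exp (2 * T)))).add (((h2.const_mul (K * Real.exp (T * 2))).mul_const C).const_mul (T : ℝ))
  have hev : ∀ᶠ R in atTop, mesh R * (4 * c) ≤ 1 := by
    have h1 : Tendsto (fun R => mesh R * (4 * c)) atTop (𝓝 0) := by simpa using hmesh.mul_const (4 * c)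
    exact h1.eventually (ge_mem_nhds (by norm_num))
  have : |(∫ U, φ (endPoint H a U T) ∂P) - tgt| ≤ 0 :=
    ge_of_tendsto hlim (hev.mono fun R hR => key R hR)
  exact sub_eq_zero.1 (abs_nonpos_iff.1 this)

end Vale.Agent.P143
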