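import Vale.Agent.P143.Capacity

/-!
The equation `z' = marg (z + w)` and its Picard iterates.
-/

namespace Vale.Agent.P143

open Filter Set MeasureTheory
open scoped Topology

variable {V W : Type*}

/-- Picard iterates of `z' = marg a (z + w)`. -/
noncomputable def picard (a : Sym2 V → Bool) (w : ℝ → Sym2 V → ℝ) : ℕ → ℝ → Sym2 V → ℝ
  | 0 => fun _ _ => 0
  | k + 1 => fun t e => ∫ s in Ioc 0 t, marg a (fun f => picard a w k s f + w s f) e

/-- The solution. -/
noncomputable def flow (a : Sym2 V → Bool) (w : ℝ → Sym2 V → ℝ) (t : ℝ) (e : Sym2 V) : ℝ :=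
  limUnder atTop fun k => picard a w k t e

section Meas

variable [Countable V] {Ω : Type*} [MeasurableSpace Ω]

lemma measurable_picard {a : Ω → Sym2 V → Bool} (ha : ∀ f, Measurable fun ω => a ω f)
    {w : Ω → ℝ → Sym2 V → ℝ} (hw : ∀ f, Measurable fun p : Ω × ℝ => w p.1 p.2 f) (k : ℕ) :
    ∀ e, Measurable fun p : Ω × ℝ => picard (a p.1) (w p.1) k p.2 e := by
  induction k with
  | zero => intro e; exact measurable_const
  | succ k ih =>
    intro e
    simp only [picard]
    simp_rw [← integral_indicator measurableSet_Ioc]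
    refine (StronglyMeasurable.integral_prod_right (ν := (volume : Measure ℝ))
      (Measurable.stronglyMeasurable ?_)).measurable
    have hg : Measurable fun q : (Ω × ℝ) × ℝ =>
        marg (a q.1.1) (fun f => picard (a q.1.1) (w q.1.1) k q.2 f + w q.1.1 q.2 f) e := by
      have hπ : Measurable fun q : (Ω × ℝ) × ℝ => (q.1.1, q.2) :=
        (measurable_fst.comp measurable_fst).prodMk measurable_snd
      exact measurable_marg e (fun f => (ha f).comp (measurable_fst.comp measurable_fst))
        fun f => ((ih f).comp hπ).add ((hw f).comp hπ)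
    have hS : MeasurableSet {q : (Ω × ℝ) × ℝ | 0 < q.2 ∧ q.2 ≤ q.1.2} :=
      (measurableSet_lt measurable_const measurable_snd).inter
        (measurableSet_le measurable_snd (measurable_snd.comp measurable_fst))
    convert hg.indicator hS using 1
    ext q; simp [Function.uncurry, indicator]

lemma measurable_flow {a : Ω → Sym2 V → Bool} (ha : ∀ f, Measurable fun ω => a ω f)
    {w : Ω → ℝ → Sym2 V → ℝ} (hw : ∀ f, Measurable fun p : Ω × ℝ => w p.1 p.2 f) (e : Sym2 V) :
    Measurable fun p : Ω × ℝ => flow (a p.1) (w p.1) p.2 e :=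
  (StronglyMeasurable.limUnder fun k => (measurable_picard ha hw k e).stronglyMeasurable).measurable

end Meas

variable [Countable V] {a : Sym2 V → Bool} {w : ℝ → Sym2 V → ℝ}

lemma measurable_picard_path (hw : ∀ f, Measurable fun t => w t f) (k : ℕ) (e : Sym2 V) :
    Measurable fun t => picard a w k t e :=
  (measurable_picard (Ω := Unit) (a := fun _ => a) (fun _ => measurable_const) (w := fun _ => w)
    (fun f => (hw f).comp measurable_snd) k e).comp ((measurable_const (a := ())).prodMk measurable_id)

lemma measurable_integrand (hw : ∀ f, Measurable fun t => w t f) (k : ℕ) (e : Sym2 V) :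
    Measurable fun s => marg a (fun f => picard a w k s f + w s f) e :=
  measurable_marg e (fun _ => measurable_const) fun f => (measurable_picard_path hw k f).add (hw f)

lemma integrableOn_of_mem_Icc {g : ℝ → ℝ} (hg : Measurable g) (h : ∀ s, g s ∈ Icc (0 : ℝ) 1)
    (x y : ℝ) : IntegrableOn g (Ioc x y) := by
  refine Integrable.mono' (integrable_const (1 : ℝ)) hg.aestronglyMeasurable (ae_of_all _ fun s => ?_)
  rw [Real.norm_eq_abs, abs_le]; exact ⟨by linarith [(h s).1], (h s).2⟩

lemma setIntegral_incr {g : ℝ → ℝ} (hg : Measurable g) (h : ∀ s, g s ∈ Icc (0 : ℝ) 1) {t u : ℝ}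
    (ht : 0 ≤ t) (htu : t ≤ u) :
    (∫ s in Ioc 0 u, g s) - ∫ s in Ioc 0 t, g s ∈ Icc (0 : ℝ) (u - t) := by
  have hs : ∫ s in Ioc 0 u, g s = (∫ s in Ioc 0 t, g s) + ∫ s in Ioc t u, g s := by
    rw [← setIntegral_union (Set.Ioc_disjoint_Ioc_of_le le_rfl) measurableSet_Ioc
      (integrableOn_of_mem_Icc hg h _ _) (integrableOn_of_mem_Icc hg h _ _),
      Ioc_union_Ioc_eq_Ioc ht htu]
  rw [hs, add_sub_cancel_left]
  refine ⟨setIntegral_nonneg measurableSet_Ioc fun s _ => (h s).1, ?_⟩
  have := setIntegral_mono_on (integrableOn_of_mem_Icc hg h t u)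
    (integrableOn_const (by simp) (C := (1 : ℝ))) measurableSet_Ioc fun s _ => (h s).2
  simpa [htu] using this

lemma picard_incr (hw : ∀ f, Measurable fun t => w t f) (k : ℕ) (e : Sym2 V) {t u : ℝ}
    (ht : 0 ≤ t) (htu : t ≤ u) :
    picard a w k u e - picard a w k t e ∈ Icc (0 : ℝ) (u - t) := by
  cases k with
  | zero => simp [picard, htu]
  | succ k => exact setIntegral_incr (measurable_integrand hw k e) (fun s => marg_mem ..) ht htu

omit [Countable V] in
lemma picard_zero_time (k : ℕ) (e : Sym2 V) : picard a w k 0 e = 0 := by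
  cases k <;> simp [picard]

lemma picard_mem (hw : ∀ f, Measurable fun t => w t f) (k : ℕ) (e : Sym2 V) {t : ℝ} (ht : 0 ≤ t) :
    picard a w k t e ∈ Icc (0 : ℝ) t := by
  simpa [picard_zero_time] using picard_incr (a := a) hw k e le_rfl ht

/-- Bound on consecutive Picard iterates. -/
noncomputable def picBd (k : ℕ) (t : ℝ) : ℝ := 2 ^ k * t ^ (k + 1) / (k + 1).factorial

lemma picBd_integral (k : ℕ) {t : ℝ} (ht : 0 ≤ t) :
    ∫ s in Ioc 0 t, 2 * picBd k s = picBd (k + 1) t := by
  rw [← intervalIntegral.integral_of_le ht]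
  simp only [picBd]
  simp_rw [mul_div_assoc', ← mul_assoc]
  rw [intervalIntegral.integral_div, intervalIntegral.integral_const_mul, integral_pow]
  rw [Nat.factorial_succ (k + 1)]
  push_cast
  field_simp
  ring

lemma abs_picard_succ_sub (ha : Nice a) (hw : ∀ f, Measurable fun t => w t f) (k : ℕ) :
    ∀ {t : ℝ}, 0 ≤ t → ∀ e, |picard a w (k + 1) t e - picard a w k t e| ≤ picBd k t := by
  induction k with
  | zero =>
    intro t ht e
    have := picard_mem (a := a) hw 1 e ht
    simp only [picard, sub_zero, picBd] at *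
    rw [abs_of_nonneg this.1]; simpa using this.2
  | succ k ih =>
    intro t ht e
    have h1 := integrableOn_of_mem_Icc (measurable_integrand (a := a) hw (k + 1) e) (fun s => marg_mem ..) 0 t
    have h2 := integrableOn_of_mem_Icc (measurable_integrand (a := a) hw k e) (fun s => marg_mem ..) 0 t
    change |(∫ s in Ioc 0 t, marg a (fun f => picard a w (k + 1) s f + w s f) e)
      - ∫ s in Ioc 0 t, marg a (fun f => picard a w k s f + w s f) e| ≤ picBd (k + 1) t
    rw [← integral_sub h1 h2, ← picBd_integral k ht, ← Real.norm_eq_abs]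
    refine norm_integral_le_of_norm_le ?_ ((ae_restrict_iff' measurableSet_Ioc).2 (ae_of_all _ fun s hs => ?_))
    · exact (Continuous.integrableOn_Ioc (by unfold picBd; fun_prop))
    · rw [Real.norm_eq_abs]
      refine abs_marg_sub_le ha e (by unfold picBd; have := hs.1.le; positivity) fun f _ => ?_
      rw [add_sub_add_right_eq_sub]
      exact ih hs.1.le f

lemma summable_picBd (t : ℝ) : Summable fun k => picBd k t := by
  have h := ((Real.summable_pow_div_factorial (2 * t)).comp_injective
    (add_left_injective 1)).mul_left (1 / 2 : ℝ)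
  refine h.congr fun k => ?_
  simp only [Function.comp, picBd, mul_pow, pow_succ]; ring

lemma tendsto_picard (ha : Nice a) (hw : ∀ f, Measurable fun t => w t f) {t : ℝ} (ht : 0 ≤ t)
    (e : Sym2 V) : Tendsto (fun k => picard a w k t e) atTop (𝓝 (flow a w t e)) := by
  refine tendsto_nhds_limUnder (cauchySeq_tendsto_of_complete ?_)
  exact cauchySeq_of_dist_le_of_summable _
    (fun k => by rw [dist_comm, Real.dist_eq]; exact abs_picard_succ_sub ha hw k ht e) (summable_picBd t)

/-- Bound on the distance of the `k`-th iterate to the solution. -/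
noncomputable def picTail (k : ℕ) (t : ℝ) : ℝ := ∑' j, picBd (k + j) t

lemma tendsto_picTail (t : ℝ) : Tendsto (fun k => picTail k t) atTop (𝓝 0) := by
  have := tendsto_sum_nat_add fun k => picBd k t
  simpa only [picTail, add_comm] using this

lemma picTail_nonneg (k : ℕ) {t : ℝ} (ht : 0 ≤ t) : 0 ≤ picTail k t :=
  tsum_nonneg fun j => by unfold picBd; positivity

lemma abs_picard_sub_flow (ha : Nice a) (hw : ∀ f, Measurable fun t => w t f) (k : ℕ) {t : ℝ}
    (ht : 0 ≤ t) (e : Sym2 V) : |picard a w k t e - flow a w t e| ≤ picTail k t := by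
  rw [← Real.dist_eq]
  exact dist_le_tsum_of_dist_le_of_tendsto _
    (fun k => by rw [dist_comm, Real.dist_eq]; exact abs_picard_succ_sub ha hw k ht e)
    (summable_picBd t) (tendsto_picard ha hw ht e) k

lemma flow_incr (ha : Nice a) (hw : ∀ f, Measurable fun t => w t f) (e : Sym2 V) {t u : ℝ}
    (ht : 0 ≤ t) (htu : t ≤ u) : flow a w u e - flow a w t e ∈ Icc (0 : ℝ) (u - t) :=
  isClosed_Icc.mem_of_tendsto ((tendsto_picard ha hw (ht.trans htu) e).sub (tendsto_picard ha hw ht e))
    (Eventually.of_forall fun k => picard_incr hw k e ht htu)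

lemma flow_mem (ha : Nice a) (hw : ∀ f, Measurable fun t => w t f) (e : Sym2 V) {t : ℝ}
    (ht : 0 ≤ t) : flow a w t e ∈ Icc (0 : ℝ) t :=
  isClosed_Icc.mem_of_tendsto (tendsto_picard ha hw ht e)
    (Eventually.of_forall fun k => picard_mem hw k e ht)

lemma flow_eq (ha : Nice a) (hw : ∀ f, Measurable fun t => w t f) {t : ℝ} (ht : 0 ≤ t)
    (e : Sym2 V) :
    flow a w t e = ∫ s in Ioc 0 t, marg a (fun f => flow a w s f + w s f) e := by
  refine tendsto_nhds_unique ((tendsto_picard ha hw ht e).comp (tendsto_add_atTop_nat 1)) ?_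
  refine tendsto_integral_of_dominated_convergence (fun _ => 1)
    (fun k => (measurable_integrand hw k e).aestronglyMeasurable) (integrable_const _)
    (fun k => ae_of_all _ fun s => ?_) ?_
  · rw [Real.norm_eq_abs, abs_le]
    exact ⟨by linarith [(marg_mem a (fun f => picard a w k s f + w s f) e).1], (marg_mem ..).2⟩
  · refine (ae_restrict_iff' measurableSet_Ioc).2 (ae_of_all _ fun s hs => ?_)
    rw [← tendsto_sub_nhds_zero_iff]
    refine squeeze_zero_norm (fun k => ?_) (by simpa using (tendsto_picTail s).const_mul 2)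
    exact abs_marg_sub_le ha e (picTail_nonneg k hs.1.le) fun f _ => by
      rw [add_sub_add_right_eq_sub]; exact abs_picard_sub_flow ha hw k hs.1.le f

lemma tendsto_picard_exhaust (ha : Nice a) {an : ℕ → Sym2 V → Bool} (han : ∀ n, Nice (an n))
    (hle : ∀ n f, an n f = true → a f = true) (hev : ∀ f, ∀ᶠ n in atTop, an n f = a f)
    (hw : ∀ f, Measurable fun t => w t f) (k : ℕ) :
    ∀ {t : ℝ}, 0 ≤ t → ∀ e,
      Tendsto (fun n => picard (an n) w k t e) atTop (𝓝 (picard a w k t e)) := by
  induction k with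
  | zero => intro t _ e; exact tendsto_const_nhds
  | succ k ih =>
    intro t _ e
    refine tendsto_integral_of_dominated_convergence (fun _ => 1)
      (fun n => (measurable_integrand hw k e).aestronglyMeasurable) (integrable_const _)
      (fun n => ae_of_all _ fun s => ?_) ?_
    · rw [Real.norm_eq_abs, abs_le]
      exact ⟨by linarith [(marg_mem (an n) (fun f => picard (an n) w k s f + w s f) e).1],
        (marg_mem ..).2⟩
    · refine (ae_restrict_iff' measurableSet_Ioc).2 (ae_of_all _ fun s hs => ?_)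
      refine tendsto_marg ha han hle hev (M := s) (fun n f _ => ?_)
        (fun f _ => (ih hs.1.le f).add_const _) e
      rw [add_sub_add_right_eq_sub, abs_le]
      have h1 := picard_mem (a := an n) hw k f hs.1.le
      have h2 := picard_mem (a := a) hw k f hs.1.le
      simp only [mem_Icc] at h1 h2
      constructor <;> linarith

lemma tendsto_flow_exhaust (ha : Nice a) {an : ℕ → Sym2 V → Bool} (han : ∀ n, Nice (an n))
    (hle : ∀ n f, an n f = true → a f = true) (hev : ∀ f, ∀ᶠ n in atTop, an n f = a f)
    (hw : ∀ f, Measurable fun t => w t f) {t : ℝ} (ht : 0 ≤ t) (e : Sym2 V) :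
    Tendsto (fun n => flow (an n) w t e) atTop (𝓝 (flow a w t e)) := by
  rw [Metric.tendsto_atTop]
  intro ε hε
  obtain ⟨k, hk⟩ := ((tendsto_picTail t).eventually_lt_const (show (0 : ℝ) < ε / 3 by linarith)).exists
  obtain ⟨N, hN⟩ := Metric.tendsto_atTop.1 (tendsto_picard_exhaust ha han hle hev hw k ht e) (ε / 3)
    (by linarith)
  refine ⟨N, fun n hn => ?_⟩
  have h1 := abs_le.1 (abs_picard_sub_flow ha hw k ht e)
  have h2 := abs_le.1 (abs_picard_sub_flow (han n) hw k ht e)
  have h3 := abs_lt.1 (Real.dist_eq _ _ ▸ hN n hn)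
  rw [Real.dist_eq, abs_lt]
  constructor <;> linarith

omit [Countable V] in
lemma picard_map (σ : V ≃ W) (b : Sym2 W → Bool) (w : ℝ → Sym2 W → ℝ) (k : ℕ) (t : ℝ)
    (e : Sym2 V) :
    picard (fun f => b (f.map σ)) (fun s f => w s (f.map σ)) k t e = picard b w k t (e.map σ) := by
  induction k generalizing t e with
  | zero => rfl
  | succ k ih =>
    simp only [picard, ih]
    congr 1; funext s
    exact marg_map σ b (fun f => picard b w k s f + w s f) e

omit [Countable V] in
lemma flow_map (σ : V ≃ W) (b : Sym2 W → Bool) (w : ℝ → Sym2 W → ℝ) (t : ℝ) (e : Sym2 V) :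
    flow (fun f => b (f.map σ)) (fun s f => w s (f.map σ)) t e = flow b w t (e.map σ) := by
  simp only [flow, picard_map]

end Vale.Agent.P143
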