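import Vale.Agent.P143.Finite

/-!
The free uniform spanning forest as a factor of i.i.d. labels.
-/

namespace Vale.Agent.P143

open MeasureTheory ProbabilityTheory Filter Set
open scoped NNReal ENNReal Topology unitInterval Classical

variable {V W : Type*}

attribute [local irreducible] edgePath bm flow eta

/-- The decoding times. -/
def decTime (j : ℕ) : ℕ := 4 ^ j

/-- The factor map on an edge array. -/
noncomputable def forestMap (a : Sym2 V → Bool) (U : V → I) (e : Sym2 V) : Bool :=
  decide (∀ᶠ j in atTop, (decTime j : ℝ) / 2 < flow a (edgePath a U) (decTime j) e)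

lemma forestMap_map (π : V ≃ W) (b : Sym2 W → Bool) (U : W → I) (e : Sym2 V) :
    forestMap (fun f => b (f.map π)) (U ∘ π) e = forestMap b U (e.map π) := by
  have h : edgePath (fun f => b (f.map π)) (U ∘ π) = fun t f => edgePath b U t (f.map π) := by
    funext t f; exact edgePath_map π b U t f
  simp only [forestMap, h, flow_map]

lemma measurable_forestMap [Countable V] {Ω : Type*} [MeasurableSpace Ω] {a : Ω → Sym2 V → Bool}
    (ha : ∀ f, Measurable fun ω => a ω f) {U : Ω → V → I} (hU : Measurable U) (e : Sym2 V) :
    Measurable fun ω => forestMap (a ω) (U ω) e := by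
  refine measurable_to_bool ?_
  have hz : ∀ j, MeasurableSet
      {ω | (decTime j : ℝ) / 2 < flow (a ω) (edgePath (a ω) (U ω)) (decTime j) e} := fun j =>
    measurableSet_lt measurable_const
      ((measurable_flow ha (w := fun ω => edgePath (a ω) (U ω)) (fun f => measurable_edgePath ha hU f) e).comp
        (measurable_id.prodMk measurable_const))
  have : (fun ω => forestMap (a ω) (U ω) e) ⁻¹' {true}
      = ⋃ N, ⋂ j, ⋂ (_ : N ≤ j),
        {ω | (decTime j : ℝ) / 2 < flow (a ω) (edgePath (a ω) (U ω)) (decTime j) e} := by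
    ext ω; simp [forestMap, eventually_atTop]
  rw [this]
  exact MeasurableSet.iUnion fun N => MeasurableSet.iInter fun j => MeasurableSet.iInter fun _ => hz j

/-- A continuous stand-in for the indicator of `[1/2, ∞)`. -/
noncomputable def ramp (u : ℝ) : ℝ := max 0 (min 1 (2 * u - 1 / 2))

/-- A continuous stand-in for the indicator of the value `b`. -/
noncomputable def bitTest (b : Bool) (u : ℝ) : ℝ := if b then ramp u else 1 - ramp u

/-- A continuous test for being far from both `0` and `1`. -/
noncomputable def farTest (u : ℝ) : ℝ := min 1 (20 * min |u| |u - 1|)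

lemma ramp_mem (u : ℝ) : ramp u ∈ Icc (0 : ℝ) 1 :=
  ⟨le_max_left _ _, max_le zero_le_one (min_le_left _ _)⟩

lemma bitTest_mem (b : Bool) (u : ℝ) : bitTest b u ∈ Icc (0 : ℝ) 1 := by
  obtain ⟨h1, h2⟩ := ramp_mem u
  unfold bitTest; split_ifs <;> constructor <;> linarith

lemma abs_bitTest_sub_le (b : Bool) (u v : ℝ) : |bitTest b u - bitTest b v| ≤ 2 * |u - v| := by
  have h : |ramp u - ramp v| ≤ 2 * |u - v| := by
    unfold ramp
    calc |max 0 (min 1 (2 * u - 1 / 2)) - max 0 (min 1 (2 * v - 1 / 2))|
        ≤ |min 1 (2 * u - 1 / 2) - min 1 (2 * v - 1 / 2)| := by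
          rw [max_comm 0, max_comm 0]; exact abs_max_sub_max_le_abs _ _ _
      _ ≤ |(2 * u - 1 / 2) - (2 * v - 1 / 2)| := by
          rw [min_comm 1, min_comm 1]; exact abs_min_sub_min_le_max _ _ _ _ |>.trans (by simp)
      _ = 2 * |u - v| := by
          rw [sub_sub_sub_cancel_right, ← mul_sub, abs_mul, abs_of_pos (two_pos (α := ℝ))]
  unfold bitTest
  split_ifs
  · exact h
  · rw [sub_sub_sub_cancel_left, abs_sub_comm]; exact h

lemma bitTest_eq (b c : Bool) {u : ℝ} (h : |u - (if c then 1 else 0)| ≤ 1 / 5) :
    bitTest b u = if c = b then 1 else 0 := by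
  rw [abs_le] at h
  have hr : ramp u = if c then 1 else 0 := by
    unfold ramp
    cases c
    · simp only [Bool.false_eq_true, if_false] at h ⊢
      exact max_eq_left (min_le_of_right_le (by linarith))
    · simp only [if_true] at h ⊢
      rw [min_eq_left (by linarith)]; exact max_eq_right zero_le_one
  rw [bitTest, hr]
  cases b <;> cases c <;> simp

lemma farTest_mem (u : ℝ) : farTest u ∈ Icc (0 : ℝ) 1 :=
  ⟨le_min zero_le_one (by positivity), min_le_left _ _⟩

lemma abs_farTest_sub_le (u v : ℝ) : |farTest u - farTest v| ≤ 20 * |u - v| := by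
  unfold farTest
  refine (abs_min_sub_min_le_max _ _ _ _).trans (max_le (by simp) ?_)
  rw [← mul_sub, abs_mul, abs_of_pos (show (0 : ℝ) < 20 by norm_num)]
  refine mul_le_mul_of_nonneg_left ((abs_min_sub_min_le_max _ _ _ _).trans (max_le ?_ ?_)) (by norm_num)
  · exact abs_abs_sub_abs_le_abs_sub u v
  · exact (abs_abs_sub_abs_le_abs_sub _ _).trans (le_of_eq (by congr 1; ring))

lemma farTest_bit (c : Bool) : farTest (if c then 1 else 0) = 0 := by cases c <;> simp [farTest]

lemma abs_prod_sub_prod {ι : Type*} (A : Finset ι) {f g : ι → ℝ}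
    (hf : ∀ i, f i ∈ Icc (0 : ℝ) 1) (hg : ∀ i, g i ∈ Icc (0 : ℝ) 1) :
    |∏ i ∈ A, f i - ∏ i ∈ A, g i| ≤ ∑ i ∈ A, |f i - g i| := by
  induction A using Finset.induction with
  | empty => simp
  | @insert i A hi ih =>
    rw [Finset.prod_insert hi, Finset.prod_insert hi, Finset.sum_insert hi]
    have h1 : |∏ j ∈ A, g j| ≤ 1 := by
      rw [Finset.abs_prod]
      exact Finset.prod_le_one (fun _ _ => abs_nonneg _) fun j _ => by
        rw [abs_of_nonneg (hg j).1]; exact (hg j).2
    have h2 : |f i| ≤ 1 := by rw [abs_of_nonneg (hf i).1]; exact (hf i).2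
    calc |f i * ∏ j ∈ A, f j - g i * ∏ j ∈ A, g j|
        = |f i * (∏ j ∈ A, f j - ∏ j ∈ A, g j) + (f i - g i) * ∏ j ∈ A, g j| := by ring_nf
      _ ≤ |f i| * |∏ j ∈ A, f j - ∏ j ∈ A, g j| + |f i - g i| * |∏ j ∈ A, g j| := by
          rw [← abs_mul, ← abs_mul]; exact abs_add_le _ _
      _ ≤ 1 * (∑ j ∈ A, |f j - g j|) + |f i - g i| * 1 := by gcongr
      _ = _ := by ring

variable {G : SimpleGraph V}

/-- The edge indicator of a graph. -/
noncomputable def graphBool (G : SimpleGraph V) : Sym2 V → Bool := fun f => decide (f ∈ G.edgeSet)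

lemma nice_graphBool (hlf : ∀ v, (G.neighborSet v).Finite) : Nice (graphBool G) := by
  refine ⟨fun v => ((hlf v).image fun w => s(v, w)).subset fun f hf => ?_, fun f hf => ?_⟩
  · obtain ⟨w, rfl⟩ := Sym2.mem_iff_exists.1 hf.2
    exact ⟨w, by simpa [graphBool] using hf.1, rfl⟩
  · exact G.not_isDiag_of_mem_edgeSet (by simpa [graphBool] using hf)

variable [Countable V]

/-- The observation on an edge at time `T`. -/
noncomputable def obs (_a : Sym2 V → Bool) (w : ℝ → Sym2 V → ℝ) (b : Sym2 V → Bool) (T : ℝ)
    (e : Sym2 V) : ℝ := if b e = true then flow b w T e + w T e else 0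

omit [Countable V] in
lemma extEdge_endPoint (H : G.Subgraph) (a : Sym2 V → Bool) (U : V → I) (T : ℝ) (e : Sym2 V) :
    extEdge H (endPoint H a U T) e = obs a (edgePath a U) (subBool H) T e := by
  by_cases h : e ∈ H.edgeSet <;> simp [extEdge, endPoint, obs, subBool, h]

/-- Observation on the subgraph, as a function of the labels. -/
noncomputable def obsU (a b : Sym2 V → Bool) (T : ℝ) (e : Sym2 V) (U : V → I) : ℝ :=
  obs a (edgePath a U) b T e

lemma measurable_obsU (a b : Sym2 V → Bool) (T : ℝ) (e : Sym2 V) : Measurable (obsU a b T e) := by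
  unfold obsU obs
  by_cases h : b e = true
  · simp only [h, if_true]
    have hw : ∀ f, Measurable fun p : (V → I) × ℝ => edgePath a p.1 p.2 f := fun f =>
      measurable_edgePath (a := fun _ => a) (fun _ => measurable_const) measurable_id f
    exact ((measurable_flow (a := fun _ : V → I => b) (fun _ => measurable_const)
      (w := fun U => edgePath a U) hw e).comp (measurable_id.prodMk measurable_const)).add
      ((hw e).comp (measurable_id.prodMk measurable_const))
  · simp [h]

lemma tendsto_obsU (hlf : ∀ v, (G.neighborSet v).Finite) {H : ℕ → G.Subgraph} (hH : Exhausts G H)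
    {T : ℝ} (hT : 0 ≤ T) (e : Sym2 V) (U : V → I) :
    Tendsto (fun n => obsU (graphBool G) (subBool (H n)) T e U) atTop
      (𝓝 (obsU (graphBool G) (graphBool G) T e U)) := by
  have hle : ∀ n f, subBool (H n) f = true → graphBool G f = true := fun n f hf => by
    simpa [graphBool] using (H n).edgeSet_subset ((subBool_true _).1 hf)
  have hev : ∀ f, ∀ᶠ n in atTop, subBool (H n) f = graphBool G f := by
    intro f
    induction f using Sym2.ind with
    | h u v =>
      by_cases huv : G.Adj u v
      · obtain ⟨N, hN⟩ := hH.adj_cover u v huv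
        filter_upwards [eventually_ge_atTop N] with n hn
        have : (H n).Adj u v := (hH.mono hn).2 hN
        simp [subBool, graphBool, this, huv]
      · refine Eventually.of_forall fun n => ?_
        have : ¬ (H n).Adj u v := fun h => huv ((H n).adj_sub h)
        simp [subBool, graphBool, this, huv]
  have hw : ∀ f, Measurable fun t => edgePath (graphBool G) U t f := fun f =>
    (measurable_edgePath (a := fun _ => graphBool G) (fun _ => measurable_const) measurable_id f).comp
      (measurable_const.prodMk measurable_id)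
  have := (tendsto_flow_exhaust (nice_graphBool hlf) (fun n => nice_subBool _ (hH.finite n)) hle hev hw hT e)
  refine Tendsto.congr' ?_ (show Tendsto (fun n => if graphBool G e = true
      then flow (subBool (H n)) (edgePath (graphBool G) U) T e + edgePath (graphBool G) U T e else 0)
      atTop (𝓝 (obsU (graphBool G) (graphBool G) T e U)) by
    by_cases he : graphBool G e = true
    · simpa [obsU, obs, he] using this.add_const _
    · simp [obsU, obs, he])
  filter_upwards [hev e] with n hn
  simp [obsU, obs, hn]

lemma integral_abs_gauss_eval {ι : Type*} [Fintype ι] (i : ι) :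
    ∫ g, |g i| ∂stdGauss ι = absMom := by
  rw [stdGauss, absMom]
  exact integral_comp_eval (μ := fun _ : ι => gaussianReal 0 1) (f := fun x : ℝ => |x|)
    (by fun_prop)

/-- The Gaussian observation of a tree is within `1/√T` of its indicator in mean. -/
lemma gauss_obs_error (H : G.Subgraph) [Fintype H.edgeSet] {T : ℕ} (hT : 0 < T)
    (τ : spanningTrees H) (e : Sym2 V) {f : ℝ → ℝ} (hf : Continuous f) {L : ℝ} (hL : 0 ≤ L)
    (hlip : ∀ u v, |f u - f v| ≤ L * |u - v|) :
    ∫ g, |f (extEdge H ((T : ℝ) • treeVec H τ + Real.sqrt T • g) e / T)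
        - f (if usesEdge τ.1 e then 1 else 0)| ∂stdGauss H.edgeSet
      ≤ L * (absMom / Real.sqrt T) := by
  have hT' : (0 : ℝ) < T := by exact_mod_cast hT
  by_cases he : e ∈ H.edgeSet
  · have hg : Integrable (fun g => L * (|g ⟨e, he⟩| / Real.sqrt T)) (stdGauss H.edgeSet) := by
      refine (Integrable.div_const ?_ _).const_mul L
      exact ((measurePreserving_eval (fun _ : H.edgeSet => gaussianReal 0 1) ⟨e, he⟩).integrable_comp_of_integrable
        ((memLp_id_gaussianReal 1).integrable le_rfl)).abs
    refine (integral_mono_of_nonneg (ae_of_all _ fun g => abs_nonneg _) hg (ae_of_all _ fun g => ?_)).trans ?_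
    · refine (hlip _ _).trans (le_of_eq ?_)
      congr 1
      simp only [extEdge, he, dite_true, Pi.add_apply, Pi.smul_apply, smul_eq_mul, treeVec]
      rw [add_div, mul_div_cancel_left₀ _ hT'.ne', add_sub_cancel_left, abs_div,
        abs_mul, abs_of_nonneg (Real.sqrt_nonneg _), abs_of_pos hT']
      field_simp
      rw [Real.sq_sqrt hT'.le]; ring
    · rw [integral_const_mul, integral_div, integral_abs_gauss_eval]
  · have hu : ¬ usesEdge τ.1 e := by
      rintro ⟨q, hq, rfl⟩
      induction q using Sym2.ind with
      | h u v => exact he (τ.2.1 hq)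
    simp [extEdge, he, hu]
    exact mul_nonneg hL (div_nonneg absMom_nonneg (Real.sqrt_nonneg _))

omit [Countable V] in
lemma ustProb_eq (H : G.Subgraph) [Fintype (spanningTrees H)] (A : Finset (Sym2 V)) (τ : Sym2 V → Bool) :
    ustProb H A τ = (∑ T : spanningTrees H, ∏ e ∈ A,
      (if decide (usesEdge T.1 e) = τ e then (1 : ℝ) else 0)) / Fintype.card (spanningTrees H) := by
  rw [ustProb, Nat.card_eq_fintype_card (α := spanningTrees H)]
  congr 1
  simp only [Finset.prod_boole]
  rw [Finset.sum_boole]
  have hiff : ∀ T : spanningTrees H, (∀ e ∈ A, (usesEdge T.1 e ↔ τ e = true))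
      ↔ ∀ e ∈ A, decide (usesEdge T.1 e) = τ e := fun T =>
    forall₂_congr fun e _ => by cases τ e <;> simp
  rw [Nat.card_congr ((Equiv.subtypeSubtypeEquivSubtypeInter (· ∈ spanningTrees H) _).symm.trans
    (Equiv.subtypeEquivRight hiff)), Nat.card_eq_fintype_card, Fintype.card_subtype]

/-- The test of a pattern at time `T`. -/
noncomputable def patTest (A : Finset (Sym2 V)) (τ : Sym2 V → Bool) (T : ℝ) (y : Sym2 V → ℝ) : ℝ :=
  ∏ e ∈ A, bitTest (τ e) (y e / T)

omit [Countable V] in
lemma patTest_mem (A : Finset (Sym2 V)) (τ : Sym2 V → Bool) (T : ℝ) (y : Sym2 V → ℝ) :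
    patTest A τ T y ∈ Icc (0 : ℝ) 1 :=
  ⟨Finset.prod_nonneg fun e _ => (bitTest_mem _ _).1,
    Finset.prod_le_one (fun e _ => (bitTest_mem _ _).1) fun e _ => (bitTest_mem _ _).2⟩

lemma finite_estimates (hlf : ∀ v, (G.neighborSet v).Finite) (H : G.Subgraph) (hfin : H.verts.Finite)
    (hH : H.Connected) (A : Finset (Sym2 V)) (τ : Sym2 V → Bool) {T : ℕ} (hT : 0 < T) :
    |∫ U, patTest A τ T (fun e => obsU (graphBool G) (subBool H) T e U) ∂iidLaw V - ustProb H A τ|
        ≤ A.card * (2 * (absMom / Real.sqrt T)) ∧
      ∀ e, ∫ U, farTest (obsU (graphBool G) (subBool H) T e U / T) ∂iidLaw V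
        ≤ 20 * (absMom / Real.sqrt T) := by
  have := hfin.fintype
  have := (finite_edgeSet H hfin).fintype
  have : Fintype (spanningTrees H) := Fintype.ofFinite _
  have := spanningTrees_nonempty H hH
  have hT' : (0 : ℝ) < T := by exact_mod_cast hT
  have hsub : ∀ f ∈ H.edgeSet, graphBool G f = true := fun f hf => by
    simpa [graphBool] using H.edgeSet_subset hf
  have hcard : (0 : ℝ) < Fintype.card (spanningTrees H) := by exact_mod_cast Fintype.card_pos
  have hext : ∀ (y z : H.edgeSet → ℝ) e, |extEdge H y e / T - extEdge H z e / T| ≤ ‖y - z‖ / T := by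
    intro y z e
    rw [← sub_div, abs_div, abs_of_pos hT']
    refine div_le_div_of_nonneg_right ?_ hT'.le
    by_cases he : e ∈ H.edgeSet
    · simpa [extEdge, he] using norm_le_pi_norm (y - z) ⟨e, he⟩
    · simp [extEdge, he]
  have hobs : ∀ U, (fun e => obsU (graphBool G) (subBool H) T e U)
      = extEdge H (endPoint H (graphBool G) U T) := fun U => funext fun e =>
    (extEdge_endPoint H _ U _ e).symm
  refine ⟨?_, fun e => ?_⟩
  · let φ : (H.edgeSet → ℝ) → ℝ := fun y => patTest A τ T (extEdge H y)
    have hφ : IsTest (A.card * (2 / T)) φ := by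
      refine ⟨fun y => ?_, fun y z => ?_⟩
      · have := patTest_mem A τ (T : ℝ) (extEdge H y)
        rw [abs_le]; exact ⟨by linarith [this.1], this.2⟩
      · refine (abs_prod_sub_prod A (fun e => bitTest_mem _ _) fun e => bitTest_mem _ _).trans ?_
        refine (Finset.sum_le_sum (g := fun _ => 2 / (T : ℝ) * ‖y - z‖) fun e _ => ?_).trans (le_of_eq ?_)
        · refine (abs_bitTest_sub_le _ _ _).trans ?_
          calc 2 * |extEdge H y e / T - extEdge H z e / T| ≤ 2 * (‖y - z‖ / T) := by
                gcongr; exact hext y z e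
            _ = _ := by ring
        · simp [mul_assoc]
    have hlaw := finite_law H (nice_graphBool hlf) hsub hH (by positivity) hφ T
    simp only [hobs]
    rw [hlaw, ustProb_eq, ← sub_div, ← Finset.sum_sub_distrib, abs_div, abs_of_pos hcard, div_le_iff₀ hcard]
    refine (Finset.abs_sum_le_sum_abs _ _).trans
      ((Finset.sum_le_sum (g := fun _ => (A.card : ℝ) * (2 * (absMom / Real.sqrt T))) fun σt _ => ?_).trans
        (le_of_eq (by simp [mul_comm])))
    have hbit : ∀ e, (if decide (usesEdge σt.1 e) = τ e then (1 : ℝ) else 0)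
        = bitTest (τ e) (if usesEdge σt.1 e then 1 else 0) := fun e => by
      rw [bitTest_eq (τ e) (decide (usesEdge σt.1 e))]
      by_cases hu : usesEdge σt.1 e <;> simp [hu]
    simp only [hbit]
    have hi : Integrable (fun g => φ ((T : ℝ) • treeVec H σt + Real.sqrt T • g)) (stdGauss H.edgeSet) :=
      integrable_of_bdd (hφ.continuous.measurable.comp (by fun_prop :
        Measurable fun g : H.edgeSet → ℝ => (T : ℝ) • treeVec H σt + Real.sqrt T • g)) fun g => hφ.1 _
    have hcst : ∀ c : ℝ, ∫ _g, c ∂stdGauss H.edgeSet = c := fun c => by simp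
    rw [← hcst (∏ e ∈ A, bitTest (τ e) (if usesEdge σt.1 e then 1 else 0)), ← integral_sub hi (integrable_const _),
      ← Real.norm_eq_abs]
    refine (norm_integral_le_of_norm_le (g := fun g => ∑ e ∈ A,
      |bitTest (τ e) (extEdge H ((T : ℝ) • treeVec H σt + Real.sqrt T • g) e / T)
        - bitTest (τ e) (if usesEdge σt.1 e then 1 else 0)|) ?_ (ae_of_all _ fun g => ?_)).trans ?_
    · refine integrable_finsetSum _ fun e _ => integrable_of_bdd ?_ (C := 1) fun g => ?_
      · have hc : Continuous (bitTest (τ e)) := (LipschitzWith.of_dist_le' (K := 2) fun u v => by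
          rw [Real.dist_eq, Real.dist_eq]; exact abs_bitTest_sub_le _ u v).continuous
        by_cases he : e ∈ H.edgeSet
        · simp only [extEdge, he, dite_true, Pi.add_apply, Pi.smul_apply]; fun_prop
        · simp only [extEdge, he, dite_false]; fun_prop
      · rw [abs_abs, abs_le]
        constructor <;> linarith [(bitTest_mem (τ e) (extEdge H ((T : ℝ) • treeVec H σt + Real.sqrt T • g) e / T)).1,
          (bitTest_mem (τ e) (extEdge H ((T : ℝ) • treeVec H σt + Real.sqrt T • g) e / T)).2,
          (bitTest_mem (τ e) (if usesEdge σt.1 e then 1 else 0)).1,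
          (bitTest_mem (τ e) (if usesEdge σt.1 e then 1 else 0)).2]
    · exact abs_prod_sub_prod A (fun e => bitTest_mem _ _) fun e => bitTest_mem _ _
    · rw [integral_finsetSum]
      · refine (Finset.sum_le_sum (g := fun _ => 2 * (absMom / Real.sqrt T)) fun e _ => ?_).trans (le_of_eq (by simp))
        exact gauss_obs_error H hT σt e ((LipschitzWith.of_dist_le' (K := 2) fun u v => by
          rw [Real.dist_eq, Real.dist_eq]; exact abs_bitTest_sub_le _ u v).continuous) zero_le_two
          (abs_bitTest_sub_le _)
      · intro e _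
        refine integrable_of_bdd ?_ (C := 1) fun g => ?_
        · have hc : Continuous (bitTest (τ e)) := (LipschitzWith.of_dist_le' (K := 2) fun u v => by
            rw [Real.dist_eq, Real.dist_eq]; exact abs_bitTest_sub_le _ u v).continuous
          by_cases he : e ∈ H.edgeSet
          · simp only [extEdge, he, dite_true, Pi.add_apply, Pi.smul_apply]; fun_prop
          · simp only [extEdge, he, dite_false]; fun_prop
        · rw [abs_abs, abs_le]
          constructor <;> linarith [(bitTest_mem (τ e) (extEdge H ((T : ℝ) • treeVec H σt + Real.sqrt T • g) e / T)).1,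
            (bitTest_mem (τ e) (extEdge H ((T : ℝ) • treeVec H σt + Real.sqrt T • g) e / T)).2,
            (bitTest_mem (τ e) (if usesEdge σt.1 e then 1 else 0)).1,
            (bitTest_mem (τ e) (if usesEdge σt.1 e then 1 else 0)).2]
  · let φ : (H.edgeSet → ℝ) → ℝ := fun y => farTest (extEdge H y e / T)
    have hφ : IsTest (20 / T) φ := by
      refine ⟨fun y => ?_, fun y z => ?_⟩
      · have := farTest_mem (extEdge H y e / T)
        rw [abs_le]; exact ⟨by linarith [this.1], this.2⟩
      · refine (abs_farTest_sub_le _ _).trans ?_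
        calc 20 * |extEdge H y e / T - extEdge H z e / T| ≤ 20 * (‖y - z‖ / T) := by
              gcongr; exact hext y z e
          _ = _ := by ring
    have hlaw := finite_law H (nice_graphBool hlf) hsub hH (by positivity) hφ T
    have hrw : ∀ U, farTest (obsU (graphBool G) (subBool H) T e U / T) = φ (endPoint H (graphBool G) U T) :=
      fun U => by simp only [φ, ← hobs]
    simp only [hrw]
    rw [hlaw, div_le_iff₀ hcard]
    refine (Finset.sum_le_sum (g := fun _ => 20 * (absMom / Real.sqrt T)) fun σt _ => ?_).trans
      (le_of_eq (by simp [mul_comm]))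
    have h := gauss_obs_error H hT σt e (f := farTest) ((LipschitzWith.of_dist_le' (K := 20) fun u v => by
      rw [Real.dist_eq, Real.dist_eq]; exact abs_farTest_sub_le u v).continuous) (by norm_num) abs_farTest_sub_le
    refine le_trans (le_of_eq (integral_congr_ae (ae_of_all _ fun g => ?_))) h
    have hz : farTest (if usesEdge σt.1 e then (1 : ℝ) else 0) = 0 := by
      by_cases hu : usesEdge σt.1 e <;> simp [hu, farTest]
    simp only [φ, hz, sub_zero]
    exact (abs_of_nonneg (farTest_mem _).1).symm

/-- The bad event of an edge at the decoding time `j`. -/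
def badSet (a : Sym2 V → Bool) (e : Sym2 V) (j : ℕ) : Set (V → I) :=
  {U | a e = true ∧ (1 ≤ farTest (obsU a a (decTime j) e U / (decTime j : ℝ)) ∨
    (decTime j : ℝ) ≤ 20 * |edgePath a U (decTime j) e|)}

lemma decTime_pos (j : ℕ) : (0 : ℝ) < decTime j := by simp [decTime]

lemma sqrt_decTime (j : ℕ) : Real.sqrt (decTime j) = 2 ^ j := by
  rw [show ((decTime j : ℕ) : ℝ) = ((2 : ℝ) ^ j) ^ 2 by
    simp only [decTime, Nat.cast_pow, Nat.cast_ofNat]; rw [← pow_mul, mul_comm, pow_mul]; norm_num,
    Real.sqrt_sq (by positivity)]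

lemma tendsto_integral_patTest (hlf : ∀ v, (G.neighborSet v).Finite) {H : ℕ → G.Subgraph}
    (hH : Exhausts G H) (A : Finset (Sym2 V)) (τ : Sym2 V → Bool) {T : ℕ} :
    Tendsto (fun n => ∫ U, patTest A τ T (fun e => obsU (graphBool G) (subBool (H n)) T e U) ∂iidLaw V)
      atTop (𝓝 (∫ U, patTest A τ T (fun e => obsU (graphBool G) (graphBool G) T e U) ∂iidLaw V)) := by
  have hc : ∀ b, Continuous (bitTest b) := fun b => (LipschitzWith.of_dist_le' (K := 2) fun u v => by
    rw [Real.dist_eq, Real.dist_eq]; exact abs_bitTest_sub_le b u v).continuous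
  refine tendsto_integral_of_dominated_convergence (fun _ => 1) (fun n => ?_) (integrable_const 1)
    (fun n => ae_of_all _ fun U => ?_) (ae_of_all _ fun U => ?_)
  · exact (Finset.measurable_prod _ fun e _ =>
      (hc _).measurable.comp ((measurable_obsU _ _ _ _).div_const _)).aestronglyMeasurable
  · rw [Real.norm_eq_abs, abs_of_nonneg (patTest_mem _ _ _ _).1]; exact (patTest_mem _ _ _ _).2
  · exact tendsto_finsetProd A fun e _ =>
      ((hc (τ e)).tendsto _).comp ((tendsto_obsU hlf hH (Nat.cast_nonneg T) e U).div_const _)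

lemma measure_badSet (hlf : ∀ v, (G.neighborSet v).Finite) {H : ℕ → G.Subgraph} (hH : Exhausts G H)
    (e : Sym2 V) (j : ℕ) :
    iidLaw V (badSet (graphBool G) e j) ≤ ENNReal.ofReal (40 * absMom / 2 ^ j) := by
  set a := graphBool G
  set T := decTime j
  by_cases he : a e = true
  swap
  · simp [badSet, he]
  have hT : (0 : ℝ) < T := decTime_pos j
  have hc : Continuous farTest := (LipschitzWith.of_dist_le' (K := 20) fun u v => by
    rw [Real.dist_eq, Real.dist_eq]; exact abs_farTest_sub_le u v).continuous
  have hm : Measurable fun U => farTest (obsU a a T e U / T) :=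
    hc.measurable.comp ((measurable_obsU _ _ _ _).div_const _)
  have hlim : Tendsto (fun n => ∫ U, farTest (obsU a (subBool (H n)) T e U / T) ∂iidLaw V) atTop
      (𝓝 (∫ U, farTest (obsU a a T e U / T) ∂iidLaw V)) := by
    refine tendsto_integral_of_dominated_convergence (fun _ => 1)
      (fun n => (hc.measurable.comp ((measurable_obsU _ _ _ _).div_const _)).aestronglyMeasurable)
      (integrable_const 1) (fun n => ae_of_all _ fun U => ?_) (ae_of_all _ fun U => ?_)
    · rw [Real.norm_eq_abs, abs_of_nonneg (farTest_mem _).1]; exact (farTest_mem _).2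
    · exact (hc.tendsto _).comp ((tendsto_obsU hlf hH hT.le e U).div_const _)
  have h1 : ∫ U, farTest (obsU a a T e U / T) ∂iidLaw V ≤ 20 * (absMom / Real.sqrt T) :=
    le_of_tendsto' hlim fun n => (finite_estimates hlf (H n) (hH.finite n) (hH.connected n) ∅
      (fun _ => false) (by simp [T, decTime])).2 e
  have h2 : iidLaw V {U | 1 ≤ farTest (obsU a a T e U / T)} ≤ ENNReal.ofReal (20 * absMom / 2 ^ j) := by
    have hi : Integrable (fun U => farTest (obsU a a T e U / T)) (iidLaw V) :=
      integrable_of_bdd hm fun U => by rw [abs_of_nonneg (farTest_mem _).1]; exact (farTest_mem _).2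
    have h := mul_meas_ge_le_integral_of_nonneg (ae_of_all _ fun U => (farTest_mem _).1) hi 1
    rw [one_mul] at h
    rw [← ofReal_measureReal]
    refine ENNReal.ofReal_le_ofReal (h.trans (h1.trans (le_of_eq ?_)))
    rw [sqrt_decTime]; ring
  have hw : Measurable fun U => edgePath a U T e :=
    (measurable_edgePath (a := fun _ => a) (fun _ => measurable_const) measurable_id e).comp
      (measurable_id.prodMk measurable_const)
  have h3 : iidLaw V {U | (T : ℝ) ≤ 20 * |edgePath a U T e|} ≤ ENNReal.ofReal (20 * absMom / 2 ^ j) := by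
    have heta : Measurable fun U => eta a (atoms U) e := measurable_pi_lambda _ fun q =>
      measurable_eta (a := fun _ => a) (X := atoms) (fun _ => measurable_const)
        (fun z => (measurable_pi_apply z).comp measurable_atoms) _ _
    have hlaw : (iidLaw V).map (fun U => eta a (atoms U) e) = iidG (ℕ × ℕ) 1 := by
      have h := map_eta (nice_graphBool hlf) (fun _ : Unit => e) (fun _ _ _ => rfl) fun _ => he
      have hinj : Function.Injective (fun q : ℕ × ℕ => ((), q)) := fun q r h => by simpa using h
      have hc := measurePreserving_comp_injective (μ := gaussianReal 0 1) hinj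
      rw [iidG, ← hc.map_eq, ← iidG, ← h, Measure.map_map hc.measurable]
      · rfl
      · exact measurable_pi_lambda _ fun p => measurable_eta (a := fun _ => a) (X := atoms)
          (fun _ => measurable_const) (fun q => (measurable_pi_apply q).comp measurable_atoms) _ _
    have hE : ∫⁻ U, ENNReal.ofReal |edgePath a U T e| ∂iidLaw V
        = ENNReal.ofReal (absMom * Real.sqrt T) := by
      have hb : Measurable fun ξ => ENNReal.ofReal |bm ξ (T : ℝ)| :=
        (measurable_bm.comp (measurable_id.prodMk measurable_const)).abs.ennreal_ofReal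
      rw [← lintegral_bm_nat T, ← hlaw, lintegral_map hb heta]
      simp only [edgePath]
    have hset : {U | (T : ℝ) ≤ 20 * |edgePath a U T e|}
        = {U | ENNReal.ofReal ((T : ℝ) / 20) ≤ ENNReal.ofReal |edgePath a U T e|} := by
      ext U
      simp only [Set.mem_ofPred_eq]
      rw [ENNReal.ofReal_le_ofReal_iff (abs_nonneg _), div_le_iff₀ (by norm_num : (0 : ℝ) < 20), mul_comm]
    rw [hset]
    refine (meas_ge_le_lintegral_div hw.abs.ennreal_ofReal.aemeasurable
      (by simpa using hT) ENNReal.ofReal_ne_top).trans (le_of_eq ?_)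
    rw [hE, ← ENNReal.ofReal_div_of_pos (by positivity)]
    congr 1
    have hs : Real.sqrt T * Real.sqrt T = (T : ℝ) := Real.mul_self_sqrt hT.le
    rw [sqrt_decTime] at hs ⊢
    rw [← hs]
    field_simp
  calc iidLaw V (badSet a e j)
      ≤ iidLaw V ({U | 1 ≤ farTest (obsU a a T e U / T)} ∪ {U | (T : ℝ) ≤ 20 * |edgePath a U T e|}) :=
        measure_mono fun U hU => hU.2
    _ ≤ ENNReal.ofReal (20 * absMom / 2 ^ j) + ENNReal.ofReal (20 * absMom / 2 ^ j) :=
        (measure_union_le _ _).trans (add_le_add h2 h3)
    _ = _ := by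
        have := absMom_nonneg
        rw [← ENNReal.ofReal_add (by positivity) (by positivity)]; congr 1; ring

lemma measure_iUnion_badSet (hlf : ∀ v, (G.neighborSet v).Finite) {H : ℕ → G.Subgraph}
    (hH : Exhausts G H) (e : Sym2 V) (j : ℕ) :
    (iidLaw V).real (⋃ i, badSet (graphBool G) e (j + i)) ≤ 80 * absMom / 2 ^ j := by
  have hm := absMom_nonneg
  refine ENNReal.toReal_le_of_le_ofReal (by positivity) ((measure_iUnion_le _).trans ?_)
  refine (ENNReal.tsum_le_tsum fun i => measure_badSet hlf hH e (j + i)).trans (le_of_eq ?_)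
  have heq : (fun i : ℕ => 40 * absMom / 2 ^ (j + i)) = fun i => 40 * absMom / 2 ^ j * (1 / 2 : ℝ) ^ i := by
    funext i; rw [pow_add, one_div, inv_pow, ← div_eq_mul_inv, div_div]
  rw [← ENNReal.ofReal_tsum_of_nonneg (fun i => by positivity)
    (by rw [heq]; exact summable_geometric_two.mul_left _), heq, tsum_mul_left, tsum_geometric_two]
  congr 1; ring

lemma good_decode (hlf : ∀ v, (G.neighborSet v).Finite) (e : Sym2 V) (j : ℕ) {U : V → I}
    (hU : U ∉ ⋃ i, badSet (graphBool G) e (j + i)) (b : Bool) :
    bitTest b (obsU (graphBool G) (graphBool G) (decTime j) e U / (decTime j : ℝ))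
      = if forestMap (graphBool G) U e = b then 1 else 0 := by
  set a := graphBool G
  have hn := nice_graphBool hlf
  have hw : ∀ f, Measurable fun t => edgePath a U t f := fun f =>
    (measurable_edgePath (a := fun _ => a) (fun _ => measurable_const) measurable_id f).comp
      (measurable_const.prodMk measurable_id)
  set z := fun i : ℕ => flow a (edgePath a U) (decTime i : ℝ) e
  by_cases he : a e = true
  swap
  · have hz : ∀ i, z i = 0 := fun i => by
      have he' : graphBool G e = false := by simpa [a] using he
      simp only [z]; rw [flow_eq hn hw (decTime_pos i).le]; simp [marg, he', a]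
    have hf : forestMap a U e = false := by
      simp only [forestMap, decide_eq_false_iff_not, eventually_atTop, not_exists, not_forall]
      exact fun N => ⟨N, le_rfl, by
        rw [show flow a (edgePath a U) (decTime N : ℝ) e = 0 from hz N]
        exact not_lt.2 (div_nonneg (decTime_pos N).le zero_le_two)⟩
    rw [hf, bitTest_eq b false]
    simp [obsU, obs, he]
  set q := fun i : ℕ => decide ((decTime i : ℝ) / 2 < z i) with hq
  have hnear : ∀ i, j ≤ i → |obsU a a (decTime i) e U / (decTime i : ℝ) - (if q i then 1 else 0)| ≤ 1 / 5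
      ∧ (z i ≤ (decTime i : ℝ) / 10 ∨ (decTime i : ℝ) * (9 / 10) ≤ z i) := by
    intro i hi
    have hb : U ∉ badSet a e i := fun h => hU (mem_iUnion.2 ⟨i - j, by rwa [Nat.add_sub_cancel' hi]⟩)
    simp only [badSet, Set.mem_ofPred_eq, he, true_and, not_or, not_le] at hb
    obtain ⟨h1, h2⟩ := hb
    set T : ℝ := (decTime i : ℝ)
    have hT : 0 < T := decTime_pos i
    have hobs : obsU a a T e U = z i + edgePath a U T e := by simp [obsU, obs, he, z, T]
    have hw' : |edgePath a U T e / T| < 1 / 20 := by
      rw [abs_div, abs_of_pos hT, div_lt_iff₀ hT]; linarith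
    rw [farTest, min_lt_iff] at h1
    rcases h1 with h1 | h1
    · exact absurd h1 (lt_irrefl _)
    have hd : obsU a a T e U / T = z i / T + edgePath a U T e / T := by rw [hobs, add_div]
    rw [abs_lt] at hw'
    rcases le_total |obsU a a T e U / T| |obsU a a T e U / T - 1| with h | h
    · rw [min_eq_left h] at h1
      have h1' := abs_lt.1 (show |obsU a a T e U / T| < 1 / 20 by linarith)
      have hzl : z i / T < 1 / 10 := by linarith [h1'.2, hw'.1, hd]
      rw [div_lt_iff₀ hT] at hzl
      have hqf : q i = false := by simp only [q, decide_eq_false_iff_not, not_lt]; linarith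
      refine ⟨?_, Or.inl (by linarith)⟩
      simp only [hqf, Bool.false_eq_true, if_false, sub_zero]
      rw [abs_le]; constructor <;> linarith [h1'.1, h1'.2]
    · rw [min_eq_right h] at h1
      have h1' := abs_lt.1 (show |obsU a a T e U / T - 1| < 1 / 20 by linarith)
      have hzl : 9 / 10 < z i / T := by linarith [h1'.1, hw'.2, hd]
      rw [lt_div_iff₀ hT] at hzl
      have hqt : q i = true := by simp only [q, decide_eq_true_eq]; linarith
      refine ⟨?_, Or.inr (by linarith)⟩
      simp only [hqt, if_true]
      rw [abs_le]; constructor <;> linarith [h1'.1, h1'.2]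
  have hconst : ∀ i, j ≤ i → q i = q j := by
    intro i hi
    induction i, hi using Nat.le_induction with
    | base => rfl
    | succ i hi ih =>
      rw [← ih]
      have h4 : (decTime (i + 1) : ℝ) = 4 * decTime i := by simp [decTime, pow_succ']
      have hinc := flow_incr hn hw e (decTime_pos i).le
        (show (decTime i : ℝ) ≤ decTime (i + 1) by rw [h4]; linarith [decTime_pos i])
      rw [Set.mem_Icc] at hinc
      have hT := decTime_pos i
      simp only [q, decide_eq_decide]
      rcases (hnear i hi).2 with h | h <;> rcases (hnear (i + 1) (Nat.le_succ_of_le hi)).2 with h' | h' <;>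
        rw [h4] at h' <;> constructor <;> intro h'' <;> simp only [z] at * <;> nlinarith [hinc.1, hinc.2, h4]
  have hf : forestMap a U e = q j := by
    have hiff : (∀ᶠ i in atTop, (decTime i : ℝ) / 2 < z i) ↔ q j = true := by
      constructor
      · intro h
        obtain ⟨N, hN⟩ := eventually_atTop.1 h
        have := hconst (max N j) (le_max_right _ _)
        rw [← this]
        simpa [q] using hN (max N j) (le_max_left _ _)
      · intro h
        filter_upwards [eventually_ge_atTop j] with i hi
        have := (hconst i hi).trans h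
        simpa [q] using this
    simp only [forestMap]
    cases hqj : q j
    · simp only [decide_eq_false_iff_not]; exact fun h => by simp [hiff.1 h] at hqj
    · simp only [decide_eq_true_eq]; exact hiff.2 hqj
  rw [hf]
  exact bitTest_eq b (q j) (hnear j le_rfl).1

/-- Along every exhaustion the trees converge to the law of the factor. -/
theorem forestMap_law (hlf : ∀ v, (G.neighborSet v).Finite) {H : ℕ → G.Subgraph}
    (hH : Exhausts G H) (A : Finset (Sym2 V)) (τ : Sym2 V → Bool) :
    Tendsto (fun n => ustProb (H n) A τ) atTop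
      (𝓝 ((iidLaw V).real {U | ∀ e ∈ A, forestMap (graphBool G) U e = τ e})) := by
  set a := graphBool G
  set L := (iidLaw V).real {U | ∀ e ∈ A, forestMap a U e = τ e}
  have hmF : ∀ e, Measurable fun U => forestMap a U e := fun e =>
    measurable_forestMap (a := fun _ => a) (fun _ => measurable_const) measurable_id e
  have hstep : ∀ j : ℕ,
      |(∫ U, patTest A τ (decTime j) (fun e => obsU a a (decTime j) e U) ∂iidLaw V) - L|
        ≤ A.card * (80 * absMom / 2 ^ j) := by
    intro j
    let g : (V → I) → ℝ := fun U => ∏ e ∈ A, if forestMap a U e = τ e then 1 else 0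
    have hgm : Measurable g := Finset.measurable_prod _ fun e _ =>
      Measurable.ite (measurableSet_eq_fun (hmF e) measurable_const) measurable_const measurable_const
    have hg01 : ∀ U e, (if forestMap a U e = τ e then (1 : ℝ) else 0) ∈ Icc (0 : ℝ) 1 := fun U e => by
      split_ifs <;> simp
    have hL : L = ∫ U, g U ∂iidLaw V := by
      have hms : MeasurableSet {U | ∀ e ∈ A, forestMap a U e = τ e} := by
        have : {U | ∀ e ∈ A, forestMap a U e = τ e} = ⋂ e ∈ A, {U | forestMap a U e = τ e} := by
          ext U; simp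
        rw [this]
        exact MeasurableSet.biInter A.countable_toSet fun e _ => measurableSet_eq_fun (hmF e) measurable_const
      rw [show L = ∫ U, ({U | ∀ e ∈ A, forestMap a U e = τ e}).indicator (1 : (V → I) → ℝ) U ∂iidLaw V from
        (integral_indicator_one hms).symm]
      refine integral_congr_ae (ae_of_all _ fun U => ?_)
      by_cases h : ∀ e ∈ A, forestMap a U e = τ e
      · simp only [g]; rw [Finset.prod_eq_one (fun e he => if_pos (h e he))]; simp [Set.indicator]; exact h
      · simp [g, Set.indicator, h, Finset.prod_boole]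
    let B : Sym2 V → Set (V → I) := fun e => ⋃ i, badSet a e (j + i)
    have hBm : ∀ e, MeasurableSet (B e) := fun e => MeasurableSet.iUnion fun i => by
      by_cases he : a e = true
      · simp only [badSet, he, true_and]
        have hc : Continuous farTest := (LipschitzWith.of_dist_le' (K := 20) fun u v => by
          rw [Real.dist_eq, Real.dist_eq]; exact abs_farTest_sub_le u v).continuous
        exact (measurableSet_le measurable_const (hc.measurable.comp ((measurable_obsU _ _ _ _).div_const _))).union
          (measurableSet_le measurable_const ((((measurable_edgePath (a := fun _ => a) (fun _ => measurable_const)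
            measurable_id e).comp (measurable_id.prodMk measurable_const))).abs.const_mul 20))
      · simp [badSet, he]
    have hpm : Measurable fun U => patTest A τ (decTime j) (fun e => obsU a a (decTime j) e U) :=
      Finset.measurable_prod _ fun e _ => ((LipschitzWith.of_dist_le' (f := bitTest (τ e)) (K := 2) fun u v => by
        simp only [Real.dist_eq]; exact abs_bitTest_sub_le (τ e) u v).continuous.measurable).comp
          ((measurable_obsU _ _ _ _).div_const _)
    rw [hL, ← integral_sub (integrable_of_bdd hpm (C := 1) fun U => by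
        rw [abs_of_nonneg (patTest_mem _ _ _ _).1]; exact (patTest_mem _ _ _ _).2)
      (integrable_of_bdd hgm (C := 1) fun U => by
        rw [abs_of_nonneg (Finset.prod_nonneg fun e _ => (hg01 U e).1)]
        exact Finset.prod_le_one (fun e _ => (hg01 U e).1) fun e _ => (hg01 U e).2), ← Real.norm_eq_abs]
    refine (norm_integral_le_of_norm_le (g := fun U => ∑ e ∈ A, (B e).indicator (1 : (V → I) → ℝ) U)
      (integrable_finsetSum _ fun e _ => (integrable_const 1).indicator (hBm e)) (ae_of_all _ fun U => ?_)).trans ?_
    · refine (abs_prod_sub_prod A (fun e => bitTest_mem _ _) (hg01 U)).trans (Finset.sum_le_sum fun e _ => ?_)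
      by_cases hU : U ∈ B e
      · rw [Set.indicator_of_mem hU, Pi.one_apply, abs_le]
        constructor <;> linarith [(bitTest_mem (τ e) (obsU a a (decTime j) e U / (decTime j : ℝ))).1,
          (bitTest_mem (τ e) (obsU a a (decTime j) e U / (decTime j : ℝ))).2, (hg01 U e).1, (hg01 U e).2]
      · rw [Set.indicator_of_notMem hU, good_decode hlf e j hU]; simp [a]
    · rw [integral_finsetSum _ fun e _ => (integrable_const 1).indicator (hBm e)]
      refine (Finset.sum_le_sum (g := fun _ => 80 * absMom / 2 ^ j) fun e _ => ?_).trans (le_of_eq (by simp))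
      rw [integral_indicator_one (hBm e)]
      exact measure_iUnion_badSet hlf hH e j
  rw [Metric.tendsto_atTop]
  intro ε hε
  have hlim : Tendsto (fun j : ℕ => (A.card : ℝ) * (82 * absMom) / 2 ^ j) atTop (𝓝 0) :=
    tendsto_const_nhds.div_atTop (tendsto_pow_atTop_atTop_of_one_lt one_lt_two)
  obtain ⟨j, hj⟩ := (hlim.eventually_lt_const (half_pos hε)).exists
  obtain ⟨N, hN⟩ := Metric.tendsto_atTop.1 (tendsto_integral_patTest hlf hH A τ (T := decTime j)) (ε / 2)
    (half_pos hε)
  refine ⟨N, fun n hn => ?_⟩
  have h1 := (finite_estimates hlf (H n) (hH.finite n) (hH.connected n) A τ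
    (T := decTime j) (by simp [decTime])).1
  have h2 := hstep j
  have h3 := hN n hn
  rw [Real.dist_eq] at h3 ⊢
  rw [sqrt_decTime] at h1
  rw [abs_lt] at h3 ⊢
  rw [abs_le] at h1 h2
  have e1 : (A.card : ℝ) * (2 * (absMom / 2 ^ j)) + A.card * (80 * absMom / 2 ^ j)
      = A.card * (82 * absMom) / 2 ^ j := by ring
  simp only [a] at h2
  constructor <;> linarith

/-- Exhaustions exist. -/
lemma exists_exhausts (hG : G.Connected) : ∃ H : ℕ → G.Subgraph, Exhausts G H := by
  have := hG.nonempty
  obtain ⟨v0⟩ := this
  have : Nonempty (V × V) := ⟨(v0, v0)⟩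
  obtain ⟨f, hf⟩ := exists_surjective_nat (V × V)
  let piece : ℕ → G.Subgraph := fun n =>
    if h : G.Adj (f n).1 (f n).2 then
      (((hG.preconnected v0 (f n).1).some).concat h).toSubgraph
    else ((hG.preconnected v0 (f n).1).some).toSubgraph
  have hv0 : ∀ n, v0 ∈ (piece n).verts := fun n => by
    simp only [piece]; split_ifs <;> exact SimpleGraph.Walk.start_mem_verts_toSubgraph _
  have hconn : ∀ n, (piece n).Connected := fun n => by
    simp only [piece]; split_ifs <;> exact SimpleGraph.Walk.toSubgraph_connected _
  have hfin : ∀ n, (piece n).verts.Finite := fun n => by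
    simp only [piece]; split_ifs <;> rw [SimpleGraph.Walk.verts_toSubgraph] <;> exact List.finite_toSet _
  let H : ℕ → G.Subgraph := fun n => Nat.rec (piece 0) (fun k S => S ⊔ piece (k + 1)) n
  have hle : ∀ n, piece n ≤ H n := fun n => by
    cases n with
    | zero => exact le_rfl
    | succ k => exact le_sup_right
  have hHv0 : ∀ n, v0 ∈ (H n).verts := fun n => (hle n).1 (hv0 n)
  refine ⟨H, fun n => ?_, fun n => ?_, monotone_nat_of_le_succ fun n => le_sup_left, fun v => ?_,
    fun u v huv => ?_⟩
  · induction n with
    | zero => exact hfin 0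
    | succ k ih => exact ih.union (hfin (k + 1))
  · induction n with
    | zero => exact hconn 0
    | succ k ih => exact SimpleGraph.Subgraph.connected_sup ih.preconnected (hconn (k + 1)).preconnected ⟨v0, hHv0 k, hv0 (k + 1)⟩
  · obtain ⟨n, hn⟩ := hf (v, v)
    refine ⟨n, (hle n).1 ?_⟩
    have h1 : (f n).1 = v := by rw [hn]
    have h2 := SimpleGraph.Walk.end_mem_verts_toSubgraph ((hG.preconnected v0 (f n).1).some)
    simp only [piece]
    rw [dif_neg (by simp [hn])]
    exact h1 ▸ h2
  · obtain ⟨n, hn⟩ := hf (u, v)
    refine ⟨n, (hle n).2 ?_⟩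
    have h1 : G.Adj (f n).1 (f n).2 := by rw [hn]; exact huv
    simp only [piece]
    rw [dif_pos h1]
    rw [← SimpleGraph.Subgraph.mem_edgeSet, SimpleGraph.Walk.mem_edges_toSubgraph, SimpleGraph.Walk.edges_concat]
    simp [hn]

theorem forestMap_isFUSFFactor (hG : G.Connected) (hlf : ∀ v, (G.neighborSet v).Finite) :
    IsFUSFFactor G (forestMap (graphBool G)) :=
  ⟨exists_exhausts hG, fun _ hH A τ => forestMap_law hlf hH A τ⟩

omit [Countable V] in
lemma graphBool_map {π : V ≃ W} {G' : SimpleGraph W} (h : ∀ u v, G.Adj u v ↔ G'.Adj (π u) (π v)) :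
    graphBool G = fun f => graphBool G' (f.map π) := by
  funext f
  induction f using Sym2.ind with
  | h u v => simp [graphBool, h]

/-- Edge array of an adjacency array. -/
def edgeArray (b : ℕ → ℕ → Bool) : Sym2 ℕ → Bool :=
  Sym2.lift ⟨fun i j => b i j || b j i, fun i j => Bool.or_comm _ _⟩

/-- The universal factor. -/
noncomputable def universalFactor (p : (ℕ → ℕ → Bool) × (ℕ → I)) : Sym2 ℕ → Bool :=
  forestMap (edgeArray p.1) p.2

theorem fusfIsFactorOfIID : FUSFIsFactorOfIID := by
  refine ⟨⟨universalFactor, ?_, ?_, ?_⟩, ?_⟩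
  · refine measurable_pi_lambda _ fun e => measurable_forestMap (fun f => ?_) measurable_snd e
    induction f using Sym2.ind with
    | h i j =>
      simp only [edgeArray, Sym2.lift_mk]
      have h1 : Measurable fun p : (ℕ → ℕ → Bool) × (ℕ → I) => p.1 i j := by fun_prop
      have h2 : Measurable fun p : (ℕ → ℕ → Bool) × (ℕ → I) => p.1 j i := by fun_prop
      exact (measurable_of_finite fun q : Bool × Bool => q.1 || q.2).comp (h1.prodMk h2)
  · intro π b U e
    have : edgeArray (fun i j => b (π i) (π j)) = fun f => edgeArray b (f.map π) := by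
      funext f; induction f using Sym2.ind with | h i j => simp [edgeArray]
    change forestMap (edgeArray fun i j => b (π i) (π j)) (U ∘ π) e = forestMap (edgeArray b) U (e.map π)
    rw [this, forestMap_map]
  · intro G hG hlf
    have : edgeArray (adjArray G) = graphBool G := by
      funext f
      induction f using Sym2.ind with
      | h i j => simp [edgeArray, adjArray, graphBool, G.adj_comm j i]
    simp only [universalFactor, this]
    exact forestMap_isFUSFFactor hG hlf
  · intro Γ _ _ G hG hlf hinv
    refine ⟨forestMap (graphBool G), measurable_pi_lambda _ fun e =>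
      measurable_forestMap (a := fun _ => graphBool G) (fun _ => measurable_const) measurable_id e,
      fun g U e => ?_, forestMap_isFUSFFactor hG hlf⟩
    have hπ := forestMap_map (Equiv.mulLeft g) (graphBool G) U e
    rw [← graphBool_map (G := G) (G' := G) (π := Equiv.mulLeft g) fun u v => by simp [hinv]] at hπ
    simpa [Function.comp_def] using hπ

end Vale.Agent.P143
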