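import Mathlib

/-!
Statement of P143: the free uniform spanning forest is a factor of IID.
-/

namespace Vale.Agent.P143

open MeasureTheory Filter
open scoped Topology unitInterval

variable {V : Type*}

/-- The spanning trees of a subgraph, as simple graphs on its vertex set. -/
def spanningTrees {G : SimpleGraph V} (H : G.Subgraph) : Set (SimpleGraph H.verts) :=
  {T | T ≤ H.coe ∧ T.IsTree}

/-- The edge `e` of the ambient graph is an edge of `T`. -/
def usesEdge {G : SimpleGraph V} {H : G.Subgraph} (T : SimpleGraph H.verts) (e : Sym2 V) : Prop :=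
  ∃ f ∈ T.edgeSet, f.map Subtype.val = e

/-- The probability, under the uniform spanning tree of `H`, that the indicator of the tree
agrees with `τ` on the edges in `A`. -/
noncomputable def ustProb {G : SimpleGraph V} (H : G.Subgraph) (A : Finset (Sym2 V))
    (τ : Sym2 V → Bool) : ℝ :=
  (Nat.card {T : SimpleGraph H.verts //
      T ∈ spanningTrees H ∧ ∀ e ∈ A, (usesEdge T e ↔ τ e = true)} : ℝ)
    / (Nat.card (spanningTrees H) : ℝ)

/-- An exhaustion of `G` by finite connected subgraphs. -/
structure Exhausts (G : SimpleGraph V) (H : ℕ → G.Subgraph) : Prop where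
  finite : ∀ n, (H n).verts.Finite
  connected : ∀ n, (H n).Connected
  mono : Monotone H
  verts_cover : ∀ v, ∃ n, v ∈ (H n).verts
  adj_cover : ∀ u v, G.Adj u v → ∃ n, (H n).Adj u v

/-- The law of i.i.d. uniform labels in `[0,1]` on the vertices. -/
noncomputable def iidLaw (V : Type*) : Measure (V → I) :=
  Measure.infinitePi (fun _ : V => (volume : Measure I))

/-- `Ψ` applied to i.i.d. uniform labels has the law of the free uniform spanning forest of `G`:
exhaustions exist, and along each of them the uniform spanning trees converge weakly to it. -/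
def IsFUSFFactor (G : SimpleGraph V) (Ψ : (V → I) → Sym2 V → Bool) : Prop :=
  (∃ H : ℕ → G.Subgraph, Exhausts G H) ∧
    ∀ H : ℕ → G.Subgraph, Exhausts G H → ∀ (A : Finset (Sym2 V)) (τ : Sym2 V → Bool),
      Tendsto (fun n => ustProb (H n) A τ) atTop
        (𝓝 ((iidLaw V).real {U | ∀ e ∈ A, Ψ U e = τ e}))

/-- The adjacency array of a graph. -/
noncomputable def adjArray (G : SimpleGraph V) : V → V → Bool :=
  fun a b => @decide (G.Adj a b) (Classical.propDecidable _)

/-- The statement of the P143 hand-in: a universal graph factor, and a group factor on every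
Cayley graph. -/
def FUSFIsFactorOfIID : Prop :=
  (∃ Φ : (ℕ → ℕ → Bool) × (ℕ → I) → Sym2 ℕ → Bool, Measurable Φ ∧
      (∀ (π : Equiv.Perm ℕ) (a : ℕ → ℕ → Bool) (U : ℕ → I) (e : Sym2 ℕ),
        Φ (fun i j => a (π i) (π j), U ∘ π) e = Φ (a, U) (e.map π)) ∧
      ∀ G : SimpleGraph ℕ, G.Connected → (∀ v, (G.neighborSet v).Finite) →
        IsFUSFFactor G (fun U => Φ (adjArray G, U))) ∧
  ∀ (Γ : Type) [Group Γ] [Countable Γ] (G : SimpleGraph Γ), G.Connected →
    (∀ v, (G.neighborSet v).Finite) → (∀ g a b : Γ, G.Adj (g * a) (g * b) ↔ G.Adj a b) →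
    ∃ Ψ : (Γ → I) → Sym2 Γ → Bool, Measurable Ψ ∧
      (∀ (g : Γ) (U : Γ → I) (e : Sym2 Γ),
        Ψ (fun a => U (g * a)) e = Ψ U (e.map (g * ·))) ∧
      IsFUSFFactor G Ψ

end Vale.Agent.P143
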